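import Vale.Agent.P193.BH.Defs

/-!
P193, module W4, rigidity: compactness.

A pattern allowed in all windows of a large enough finite set extends a point on a given one.
-/

namespace Vale.Agent.P193.W4.Rigid

open BH

variable {Γ : Type} [Group Γ] {S : SFT Γ}

/-- All complete windows inside `B` are allowed. -/
def AllowedIn (S : SFT Γ) (B : Finset Γ) (p : Γ → S.A) : Prop :=
  ∀ γ, (∀ w ∈ S.win, γ * w ∈ B) → S.allowed (S.window p γ)

lemma AllowedIn.mono {B B' : Finset Γ} (h : B ⊆ B') {p : Γ → S.A} (hp : AllowedIn S B' p) :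
    AllowedIn S B p :=
  fun γ hγ => hp γ fun w hw => h (hγ w hw)

lemma isClosed_allowedIn (B : Finset Γ) : IsClosed {p : Γ → S.A | AllowedIn S B p} := by
  have e : {p : Γ → S.A | AllowedIn S B p} = ⋂ γ : {γ : Γ // ∀ w ∈ S.win, γ * w ∈ B},
      (fun p => S.window p γ.1) ⁻¹' {q | S.allowed q} := by
    ext p
    simp [AllowedIn]
  rw [e]
  exact isClosed_iInter fun γ => (isClosed_discrete _).preimage
    (continuous_pi fun w => continuous_apply (γ.1 * w.1))

/-- Local allowedness on a large set gives a point. -/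
theorem exists_point (U : Finset Γ) : ∃ B : Finset Γ, U ⊆ B ∧ ∀ p : Γ → S.A, AllowedIn S B p →
    ∃ x : S.X, ∀ c ∈ U, x.1 c = p c := by
  classical
  by_contra hne
  push Not at hne
  let Fs : Finset Γ → Set (Γ → S.A) := fun B =>
    {p | AllowedIn S (B ∪ U) p} ∩ {p | ∀ x : S.X, ∃ c ∈ U, x.1 c ≠ p c}
  have hcl : ∀ B, IsClosed (Fs B) := by
    intro B
    refine (isClosed_allowedIn _).inter ?_
    have e : {p : Γ → S.A | ∀ x : S.X, ∃ c ∈ U, x.1 c ≠ p c} =
        (fun p : Γ → S.A => fun c : U => p c.1) ⁻¹'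
          {r : U → S.A | ∀ x : S.X, ∃ c : U, x.1 c.1 ≠ r c} := by
      ext p
      simp
    rw [e]
    exact (isClosed_discrete _).preimage (continuous_pi fun c => continuous_apply c.1)
  have hdir : Directed (· ⊇ ·) Fs := fun B B' =>
    ⟨B ∪ B', fun p hp => ⟨hp.1.mono (Finset.union_subset_union_left Finset.subset_union_left),
      hp.2⟩, fun p hp => ⟨hp.1.mono (Finset.union_subset_union_left Finset.subset_union_right),
      hp.2⟩⟩
  have hnonempty : ∀ B, (Fs B).Nonempty := by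
    intro B
    obtain ⟨p, hp, hx⟩ := hne (B ∪ U) Finset.subset_union_right
    exact ⟨p, hp, hx⟩
  obtain ⟨p, hp⟩ := IsCompact.nonempty_iInter_of_directed_nonempty_isCompact_isClosed Fs hdir
    hnonempty (fun B => (hcl B).isCompact) hcl
  simp only [Set.mem_iInter] at hp
  have hmem : p ∈ S.carrier := fun γ => (hp (S.win.image fun w => γ * w)).1 γ fun w hw =>
    Finset.mem_union_left _ (Finset.mem_image_of_mem _ hw)
  obtain ⟨c, -, hc⟩ := (hp ∅).2 ⟨p, hmem⟩
  exact hc rfl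

/-- A property of the cells of `U` holding at all points holds for patterns allowed on a large
set. -/
theorem exists_bound (U : Finset Γ) (P : (Γ → S.A) → Prop)
    (hP : ∀ p q : Γ → S.A, (∀ c ∈ U, p c = q c) → P p → P q) (h : ∀ x : S.X, P x.1) :
    ∃ B : Finset Γ, U ⊆ B ∧ ∀ p : Γ → S.A, AllowedIn S B p → P p := by
  obtain ⟨B, hUB, hB⟩ := exists_point (S := S) U
  refine ⟨B, hUB, fun p hp => ?_⟩
  obtain ⟨x, hx⟩ := hB p hp
  exact hP _ _ hx (h x)

/-- A set of points seen on `U` and determined by the cells of `L` is determined by finitely many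
of them. -/
theorem exists_finite_det (L : Set Γ) (U : Finset Γ) (P : (Γ → S.A) → Prop)
    (hP : ∀ p q : Γ → S.A, (∀ c ∈ U, p c = q c) → P p → P q)
    (h : ∀ x y : S.X, (∀ c ∈ L, x.1 c = y.1 c) → P x.1 → P y.1) :
    ∃ F : Finset Γ, ↑F ⊆ L ∧ ∀ x y : S.X, (∀ c ∈ F, x.1 c = y.1 c) → P x.1 → P y.1 := by
  classical
  by_contra hne
  push Not at hne
  have : CompactSpace S.X := isCompact_iff_compactSpace.1 (by
    have e : S.carrier = ⋂ γ, (fun p => S.window p γ) ⁻¹' {q | S.allowed q} := by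
      ext p
      simp [SFT.carrier]
    rw [e]
    exact (isClosed_iInter fun γ => (isClosed_discrete _).preimage
      (continuous_pi fun w => continuous_apply (γ * w.1))).isCompact)
  have cev : ∀ c : Γ, Continuous fun x : S.X => x.1 c := fun c =>
    (continuous_apply c).comp continuous_subtype_val
  let Pset : Set S.X := (fun x : S.X => fun c : U => x.1 c.1) ⁻¹'
    {r | ∃ x : S.X, P x.1 ∧ ∀ c : U, x.1 c.1 = r c}
  have hPset : ∀ x : S.X, x ∈ Pset ↔ P x.1 := fun x =>
    ⟨fun ⟨z, hz, e⟩ => hP _ _ (fun c hc => e ⟨c, hc⟩) hz, fun hx => ⟨x, hx, fun _ => rfl⟩⟩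
  have hclP : IsClopen Pset :=
    (isClopen_discrete _).preimage (continuous_pi fun c => cev c.1)
  let Fs : {F : Finset Γ // ↑F ⊆ L} → Set (S.X × S.X) := fun F =>
    ((⋂ c : F.1, {xy : S.X × S.X | xy.1.1 c.1 = xy.2.1 c.1}) ∩ {xy | xy.1 ∈ Pset}) ∩
      {xy | xy.2 ∈ Psetᶜ}
  have hcl : ∀ F, IsClosed (Fs F) := fun F =>
    ((isClosed_iInter fun c : F.1 => isClosed_eq ((cev c.1).comp continuous_fst)
      ((cev c.1).comp continuous_snd)).inter (hclP.1.preimage continuous_fst)).inter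
        (hclP.compl.1.preimage continuous_snd)
  have : Nonempty {F : Finset Γ // ↑F ⊆ L} := ⟨⟨∅, by simp⟩⟩
  have hdir : Directed (· ⊇ ·) Fs := fun F F' => by
    refine ⟨⟨F.1 ∪ F'.1, by
      rw [Finset.coe_union]
      exact Set.union_subset F.2 F'.2⟩, ?_, ?_⟩ <;>
    · rintro xy ⟨⟨hc, hx⟩, hy⟩
      refine ⟨⟨Set.mem_iInter.2 fun c => Set.mem_iInter.1 hc ⟨c.1, ?_⟩, hx⟩, hy⟩
      first | exact Finset.mem_union_left _ c.2 | exact Finset.mem_union_right _ c.2
  have hnonempty : ∀ F, (Fs F).Nonempty := fun F => by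
    obtain ⟨x, y, he, hx, hy⟩ := hne F.1 F.2
    exact ⟨(x, y), ⟨Set.mem_iInter.2 fun c => he c.1 c.2, (hPset x).2 hx⟩,
      fun h' => hy ((hPset y).1 h')⟩
  obtain ⟨⟨x, y⟩, hxy⟩ := IsCompact.nonempty_iInter_of_directed_nonempty_isCompact_isClosed Fs hdir
    hnonempty (fun F => (hcl F).isCompact) hcl
  simp only [Set.mem_iInter] at hxy
  have hx : P x.1 := (hPset x).1 (hxy ⟨∅, by simp⟩).1.2
  refine (hxy ⟨∅, by simp⟩).2 ((hPset y).2 (h x y (fun c hc => ?_) hx))
  exact Set.mem_iInter.1 (hxy ⟨{c}, by simpa using hc⟩).1.1 ⟨c, Finset.mem_singleton_self c⟩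

end Vale.Agent.P193.W4.Rigid
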