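import Vale.Agent.P193.BH.Calc
import Vale.Agent.P193.W4.Coset.Spec

/-!
P193, module W4 C: configurations of one coset. A statement on finitely many cells of a coset
that holds at all configurations of one coset holds at the admissible patterns of a larger finite
set of this coset.
-/

noncomputable section

namespace Vale.Agent.P193.W4.Rigid

open BH BH.SFT Coset Finset
open scoped Classical

variable {k : ℕ} {em : ℕ → Option (List (Full k))}

/-- The letters of the cells of one coset. -/
abbrev Cfg (C : Common k em) : Type := Lat → Letter C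

variable {C : Common k em}

/-- The rules of the window at `v` that stay inside one coset. -/
structure WinOne (f : Cfg C) (v : Lat) : Prop where
  common : C.S.allowed fun w : C.S.win => (f (v * w)).1
  cell : ∀ w : Place, LetterOK C (f (v * pv w))
  plane : ∀ (w : Place) b, w.2 b = false →
    (f (v * pv w)).2 = (f (v * pv (w.1, Function.update w.2 b true))).2
  line : ∀ (w : Place) a, w.1 a = false →
    LineOK a (f (v * pv w)).2 (f (v * pv (Function.update w.1 a true, w.2))).2

/-- The rules of one coset hold everywhere. -/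
def OneCfg (f : Cfg C) : Prop := ∀ v, WinOne f v

/-- The rules of one coset hold at the windows inside `W`. -/
def LocOK (W : Finset Lat) (f : Cfg C) : Prop :=
  ∀ v, (∀ w ∈ cube, v * w ∈ W) → WinOne f v

/-- The value depends on the cells of `W` only. -/
def DepOn {β : Sort*} (W : Finset Lat) (P : Cfg C → β) : Prop :=
  ∀ f f' : Cfg C, (∀ v ∈ W, f v = f' v) → P f = P f'

lemma WinOne.congr {f f' : Cfg C} {v : Lat} (h : ∀ w ∈ cube, f (v * w) = f' (v * w))
    (hf : WinOne f v) : WinOne f' v := by
  have hp : ∀ w : Place, f (v * pv w) = f' (v * pv w) := fun w => h _ (pv_mem_cube w)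
  refine ⟨?_, fun w => hp w ▸ hf.cell w, fun w b hb => hp w ▸ hp _ ▸ hf.plane w b hb,
    fun w a ha => hp w ▸ hp _ ▸ hf.line w a ha⟩
  convert hf.common using 1
  funext w
  rw [h w (C.win_eq ▸ w.2)]

lemma locOK_dep (W : Finset Lat) : DepOn W (LocOK (C := C) W) := by
  intro f f' h
  refine propext ⟨fun hf v hv => (hf v hv).congr fun w hw => h _ (hv w hw),
    fun hf v hv => (hf v hv).congr fun w hw => (h _ (hv w hw)).symm⟩

lemma LocOK.mono {W W' : Finset Lat} (h : W ⊆ W') {f : Cfg C} (hf : LocOK W' f) : LocOK W f :=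
  fun v hv => hf v fun w hw => h (hv w hw)

/-- What holds at all configurations of one coset holds once the rules hold on a large set. -/
theorem exists_loc {P : Cfg C → Prop} {W₀ : Finset Lat} (hdep : DepOn W₀ P)
    (h : ∀ f, OneCfg f → P f) : ∃ W, W₀ ⊆ W ∧ ∀ f, LocOK W f → P f := by
  by_contra! hcon
  let _ : TopologicalSpace (Letter C) := ⊥
  have _ : DiscreteTopology (Letter C) := ⟨rfl⟩
  let D : Finset Lat → Set (Cfg C) := fun R => {f | LocOK (W₀ ∪ R) f ∧ ¬P f}
  have hne : ∀ R, (D R).Nonempty := fun R => hcon _ subset_union_left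
  have hclosed : ∀ R, IsClosed (D R) := fun R => by
    let r : Cfg C → ((W₀ ∪ R : Finset Lat) → Letter C) := fun f v => f v
    have e : D R = r ⁻¹' (r '' D R) := by
      refine Set.Subset.antisymm (Set.subset_preimage_image _ _) ?_
      rintro f ⟨f', ⟨h1, h2⟩, e⟩
      have he : ∀ v ∈ W₀ ∪ R, f' v = f v := fun v hv => congrFun e ⟨v, hv⟩
      exact ⟨locOK_dep _ f' f he ▸ h1,
        hdep f' f (fun v hv => he v (mem_union_left _ hv)) ▸ h2⟩
    rw [e]
    exact (isClosed_discrete _).preimage (continuous_pi fun v => continuous_apply _)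
  have hdir : Directed (· ⊇ ·) D := fun R R' =>
    ⟨R ∪ R', fun f hf => ⟨hf.1.mono (union_subset_union subset_rfl subset_union_left), hf.2⟩,
      fun f hf => ⟨hf.1.mono (union_subset_union subset_rfl subset_union_right), hf.2⟩⟩
  obtain ⟨f, hf⟩ := IsCompact.nonempty_iInter_of_directed_nonempty_isCompact_isClosed D hdir hne
    (fun R => (hclosed R).isCompact) hclosed
  rw [Set.mem_iInter] at hf
  exact (hf ∅).2 (h f fun v => (hf (cube.image (v * ·))).1 v fun w hw =>
    mem_union_right _ (mem_image_of_mem _ hw))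

/-! ### Cosets as contexts -/

variable {K : Type} [Group K] {g : Fin k → K}

/-- Every finite set of cells of one coset is a context for whole letters. -/
def CosetsCtx (C : Common k em) (g : Fin k → K) : Prop :=
  ∀ (u : K) (W : Finset Lat),
    Ctx (S := cosetSFT C g) (fun _ l => l) (({u} : Finset K) ×ˢ W)

/-- The cells of one coset. -/
def slice (p : K × Lat → Letter C) (u : K) : Cfg C := fun v => p (u, v)

omit [Group K] in
lemma mem_coset_cells {u : K} {W : Finset Lat} {q : K × Lat} :
    q ∈ ({u} : Finset K) ×ˢ W ↔ q.1 = u ∧ q.2 ∈ W := by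
  rw [mem_product, mem_singleton]

/-- Admissible patterns satisfy the rules of one coset. -/
lemma locOK_slice {u : K} {W : Finset Lat} {p : K × Lat → Letter C}
    (h : (cosetSFT C g).AdmissibleClass (fun _ l => l) (({u} : Finset K) ×ˢ W) p) :
    LocOK W (slice p u) := by
  intro v hv
  obtain ⟨q, hq, he⟩ := h (u, v)
  have hw : ∀ w ∈ cube, readWin C g ((cosetSFT C g).window q (u, v)) none w =
      slice p u (v * w) := by
    intro w hw
    rw [readWin_window q u v none hw]
    have h1 : (coset g none, w) ∈ cosetWin g :=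
      mem_product.2 ⟨mem_image.2 ⟨none, mem_univ _, rfl⟩, hw⟩
    have h2 : ((u, v) * (coset g none, w) : K × Lat) = (u, v * w) :=
      Prod.ext (mul_one u) rfl
    have h3 := he _ h1 (h2 ▸ mem_coset_cells.2 ⟨rfl, hv w hw⟩)
    rw [h2] at h3
    rw [coset, mul_one]
    exact h3
  have hq : WinOK C (readWin C g ((cosetSFT C g).window q (u, v))) := hq
  refine ⟨?_, fun w => hw _ (pv_mem_cube w) ▸ hq.cell none w,
    fun w b hb => hw _ (pv_mem_cube w) ▸ hw _ (pv_mem_cube _) ▸ hq.plane none w b hb,
    fun w a ha => hw _ (pv_mem_cube w) ▸ hw _ (pv_mem_cube _) ▸ hq.line none w a ha⟩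
  convert hq.common none using 1
  funext w
  rw [hw w (C.win_eq ▸ w.2)]

/-- What holds at all configurations of a coset holds on admissible patterns of a large set. -/
theorem exists_adm {u : K} {W₀ : Finset Lat} {P : (K × Lat → Letter C) → Prop}
    (hdep : ∀ p q : K × Lat → Letter C, (∀ v ∈ W₀, p (u, v) = q (u, v)) → P p = P q)
    (h : ∀ p : K × Lat → Letter C, OneCfg (slice p u) → P p) :
    ∃ W, W₀ ⊆ W ∧ ∀ p : K × Lat → Letter C,
      (cosetSFT C g).AdmissibleClass (fun _ l => l) (({u} : Finset K) ×ˢ W) p → P p := by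
  obtain ⟨W, hW, hP⟩ := exists_loc (P := fun f : Cfg C => P fun q => f q.2)
    (fun f f' e => hdep _ _ e) fun f hf => h _ hf
  exact ⟨W, hW, fun p hp => hdep (fun q => slice p u q.2) p (fun _ _ => rfl) ▸
    hP _ (locOK_slice hp)⟩

/-- Observables of one coset equal at all its configurations are equal. -/
theorem same_on_coset (hc : CosetsCtx C g) {u : K} {W₀ : Finset Lat}
    {o o' : (cosetSFT C g).Obs} (ho : o.supp ⊆ ({u} : Finset K) ×ˢ W₀)
    (ho' : o'.supp ⊆ ({u} : Finset K) ×ˢ W₀)
    (h : ∀ p, OneCfg (slice p u) → o.val p = o'.val p) : Same o o' := by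
  have hd : ∀ {o : (cosetSFT C g).Obs}, o.supp ⊆ ({u} : Finset K) ×ˢ W₀ →
      ∀ p q : K × Lat → Letter C, (∀ v ∈ W₀, p (u, v) = q (u, v)) → o.val p = o.val q := by
    intro o hs p q e
    refine o.dep p q fun c hc => ?_
    obtain ⟨h1, h2⟩ := mem_coset_cells.1 (hs hc)
    rw [show c = (u, c.2) from Prod.ext h1 rfl]
    exact e _ h2
  obtain ⟨W, hW, hP⟩ := exists_adm (g := g) (P := fun p => o.val p = o'.val p)
    (fun p q e => by rw [hd ho p q e, hd ho' p q e]) h
  have hs : ({u} : Finset K) ×ˢ W₀ ⊆ ({u} : Finset K) ×ˢ W := product_subset_product_right hW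
  exact same_of_agree (hc u W) (ho.trans hs) o.thru_id (ho'.trans hs) o'.thru_id hP

/-- An observable of one coset below another one at all configurations, on admissible patterns. -/
theorem exists_imp {u : K} {W₀ : Finset Lat} {o d : (cosetSFT C g).Obs}
    (ho : o.supp ⊆ ({u} : Finset K) ×ˢ W₀) (hd : d.supp ⊆ ({u} : Finset K) ×ˢ W₀)
    (b : Bool) (h : ∀ p, OneCfg (slice p u) → o.val p = true → d.val p = b) :
    ∃ W, W₀ ⊆ W ∧ ∀ p, (cosetSFT C g).AdmissibleClass (fun _ l => l)
      (({u} : Finset K) ×ˢ W) p → o.val p = true → d.val p = b := by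
  refine exists_adm (g := g) (fun p q e => ?_) h
  have hc : ∀ {o : (cosetSFT C g).Obs}, o.supp ⊆ ({u} : Finset K) ×ˢ W₀ → o.val p = o.val q := by
    intro o hs
    refine o.dep p q fun c hc => ?_
    obtain ⟨h1, h2⟩ := mem_coset_cells.1 (hs hc)
    rw [show c = (u, c.2) from Prod.ext h1 rfl]
    exact e _ h2
  rw [hc ho, hc hd]

/-- Observables of one coset commute. -/
theorem com_coset (hc : CosetsCtx C g) {u : K} {o o' : (cosetSFT C g).Obs}
    (ho : ∀ c ∈ o.supp, c.1 = u) (ho' : ∀ c ∈ o'.supp, c.1 = u) : Com o o' := by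
  refine Ctx.com (hc u ((o.supp ∪ o'.supp).image Prod.snd)) ?_ o.thru_id ?_ o'.thru_id
  · exact fun c h => mem_coset_cells.2 ⟨ho c h, mem_image_of_mem _ (mem_union_left _ h)⟩
  · exact fun c h => mem_coset_cells.2 ⟨ho' c h, mem_image_of_mem _ (mem_union_right _ h)⟩

end Vale.Agent.P193.W4.Rigid
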