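import Vale.Agent.P193.W4.Rigid.Track
import Vale.Agent.P193.W4.Rigid.Ctx

/-!
P193, module W4, rigidity: every finite set of cells of one coset is a context.

A short field is a union of slots of the coset, so of slots of any track, hence commutes with
everything. Two long fields sit in one cell or imply prefixes that no genuine word has together.
-/

namespace Vale.Agent.P193.W4.Rigid

open BH BH.SFT Finset Coset Vale.Agent.P193.Action
open scoped Classical

noncomputable section

variable {k : ℕ} {em : ℕ → Option (List (Full k))}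

/-- The symbol that a letter shows on the key of a field. -/
def Fld.proj : Fld k → Full k → Mid k
  | .Q _ t, d => .pad (d t)
  | _, d => .full d

lemma mem_cells {Γ P : Type} {E : Finset (Γ × P)} {e : Γ × P} (h : e ∈ E) : e.1 ∈ cells E :=
  mem_image_of_mem _ h

/-- The symbols of a word on one key. -/
def keySym : Option (Option (Fin k)) → Full k → Mid k
  | none, d => .full d
  | some s, d => .pad (d s)

/-- A value of a field is that of a symbol. -/
lemma exists_symbol {f : Fld k} {b : FVal k} (h : ∃ c : JCell k, fval f c = b)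
    (hb : fsome b = true) : ∃ z, f.IsLet z ∧ b = f.lval z := by
  obtain ⟨c, rfl⟩ := h
  cases f with
  | J i =>
    obtain ⟨d, hd⟩ := Option.isSome_iff_exists.1 hb
    exact ⟨some (.full d), ⟨d, rfl⟩, by simp [fval, hd, Fld.lval, Tower.fullOf]⟩
  | B =>
    obtain ⟨d, hd⟩ := Option.isSome_iff_exists.1 hb
    exact ⟨some (.full d), ⟨d, rfl⟩, by simp [fval, hd, Fld.lval, Tower.fullOf]⟩
  | Q i t =>
    obtain ⟨d, hd⟩ := Option.isSome_iff_exists.1 hb
    exact ⟨some (.pad d), ⟨d, rfl⟩, by simp [fval, hd, Fld.lval, Tower.padOf]⟩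

/-- The keys of a long field show one word. -/
lemma key_track {T : Tower k em} {f : Fld k} {v : Fin 3 → ℤ} {N n : ℕ} (h : Long T f v N)
    (hn : n ≤ N) {τ : ℕ → Full k} (hτ : ∀ l, l < n → T.zs v l f.ax = some (f.proj (τ l)))
    {j : Fin 3} (hj : j = f.ax ∨ j = f.ax + 1) :
    ∃ o, ∀ l, l < n → T.zs v l j = some (keySym o (τ l)) := by
  rcases key_sym h hj with e | ⟨rfl, rfl, s, e⟩
  · cases f with
    | J i => exact ⟨none, fun l hl => (e l (hl.trans_le hn)).trans (hτ l hl)⟩
    | B => exact ⟨none, fun l hl => (e l (hl.trans_le hn)).trans (hτ l hl)⟩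
    | Q i t => exact ⟨some t, fun l hl => (e l (hl.trans_le hn)).trans (hτ l hl)⟩
  · exact ⟨some s, fun l hl => e l (hl.trans_le hn) _ (hτ l hl)⟩

variable {K : Type} [Group K] {C : Common k em} {g : Fin k → K} {D : Depth C} {u : K}
  (hg : Subgroup.closure (Set.range g) = ⊤) {E : EffAction K g}
  (hgs : Function.Injective (gs g)) (hem : ∀ w, NoExt E w → ∃ L, w.length ≤ L ∧ em L = some w)

include hg hgs hem

/-- The slot of some symbols is a union of slots of the coset. -/
lemma slot_words (f : Fld k) {n : ℕ} (hn : n + 2 ≤ D.N) (z : ℕ → Option (Mid k))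
    (hz : ∀ l, l ≤ n → f.IsLet (z l)) :
    Same (slot g D u f.std (List.ofFn fun l : Fin n => (z l).getD f.mark) (f.lval (z n)))
      (words g D u (jAlph k) (n + 1) fun τ =>
        ∀ l (h : l < τ.length), some (f.proj τ[l]) = z l) := by
  have full : (∀ l, l ≤ n → ∃ d, z l = some (.full d)) →
      Same (slot g D u (.J 0) (List.ofFn fun l : Fin n => (z l).getD .hash)
        (Sum.inl ((z n).bind Tower.fullOf)))
      (words g D u (jAlph k) (n + 1) fun τ =>
        ∀ l (h : l < τ.length), some (Mid.full τ[l]) = z l) := by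
    intro hz
    choose d hd using hz
    let τ₀ : List (Full k) := List.ofFn fun l : Fin n => d l l.2.le
    have e1 : (List.ofFn fun l : Fin n => (z l).getD Mid.hash) = τ₀.map Mid.full := by
      refine List.ext_getElem (by simp [τ₀]) fun i a b => ?_
      have hi : i < n := by simpa using a
      simp [τ₀, hd i hi.le]
    have hs := same_step hg (D := D) (u := u) (jAlph k) τ₀ (d n le_rfl) (by simp [τ₀]; omega)
    rw [e1, hd n le_rfl]
    refine hs.trans (InFam.same hg hgs hem (inFam_pres _ _) (inFam_words _ _ _) fun p => ?_)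
    refine Iff.trans ?_ (words_val (jAlph k) _ _ p).symm
    have hτ : ∀ l (h : l < (τ₀ ++ [d n le_rfl]).length),
        some (Mid.full (τ₀ ++ [d n le_rfl])[l]) = z l := fun l h => by
      simp only [τ₀, List.length_append, List.length_ofFn, List.length_singleton] at h
      rcases Nat.lt_succ_iff_lt_or_eq.1 h with h' | rfl
      · rw [List.getElem_append_left (by simpa [τ₀] using h'), hd l h'.le]; simp [τ₀]
      · rw [List.getElem_append_right (by simp [τ₀]), hd _ le_rfl]; simp [τ₀]
    refine ⟨fun h => ⟨_, by simp [τ₀], hτ, h⟩, ?_⟩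
    rintro ⟨τ, hlen, hS, h⟩
    have e : τ = τ₀ ++ [d n le_rfl] := List.ext_getElem (by simp [τ₀, hlen]) fun i a b => by
      have := (hS i a).trans (hτ i b).symm
      simpa using this
    rwa [← e]
  cases f with
  | J i => exact full hz
  | B => exact full hz
  | Q i t =>
    choose c hc using hz
    let π₀ : List Bool := List.ofFn fun l : Fin n => c l l.2.le
    have e1 : (List.ofFn fun l : Fin n => (z l).getD Mid.phash) = π₀.map Mid.pad := by
      refine List.ext_getElem (by simp [π₀]) fun i a b => ?_
      have hi : i < n := by simpa using a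
      simp [π₀, hc i hi.le]
    have hs := same_step hg (D := D) (u := u) (qAlph k t) π₀ (c n le_rfl) (by simp [π₀]; omega)
    have ht := same_track hg hgs hem (D := D) (u := u) t (π₀ ++ [c n le_rfl])
      (by simp [π₀]; omega)
    have hlen : (π₀ ++ [c n le_rfl]).length = n + 1 := by simp [π₀]
    rw [hlen] at ht
    show Same (slot g D u (.Q 0 t) (List.ofFn fun l : Fin n => (z l).getD Mid.phash)
      (Sum.inr ((z n).bind Tower.padOf))) _
    rw [e1, hc n le_rfl]
    refine hs.trans (ht.trans
      (InFam.same hg hgs hem (inFam_words _ _ _) (inFam_words _ _ _) fun p => ?_))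
    refine (words_val (jAlph k) _ _ p).trans (Iff.trans ?_ (words_val (jAlph k) _ _ p).symm)
    refine exists_congr fun τ => and_congr_right fun hl => and_congr_left fun _ => ?_
    have hπ : ∀ l (h : l < (π₀ ++ [c n le_rfl]).length),
        some (Mid.pad (k := k) (π₀ ++ [c n le_rfl])[l]) = z l := fun l h => by
      rw [hlen] at h
      rcases Nat.lt_succ_iff_lt_or_eq.1 h with h' | rfl
      · rw [List.getElem_append_left (by simpa [π₀] using h'), hc l h'.le]; simp [π₀]
      · rw [List.getElem_append_right (by simp [π₀]), hc _ le_rfl]; simp [π₀]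
    constructor
    · intro h l hlt
      have := hπ l (by rw [hlen]; omega)
      simp only [← h, getElem_trk] at this
      exact this
    · intro h
      refine List.ext_getElem (by simp [hlen, hl]) fun i a b => ?_
      have hi : i < τ.length := by simpa using a
      have := (h i hi).trans (hπ i b).symm
      simpa [Fld.proj] using this

/-- The facts about words that the depth provides. -/
structure Enough (D : Depth C) (E : EffAction K g) (N₁ M : ℕ) : Prop where
  le : N₁ ≤ M
  depth : M + 2 ≤ D.N
  kill : ∀ w : List (Full k), w.length = M → ¬ Genuine E w →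
    ∃ L, L ≤ D.N ∧ w.length ≤ L ∧ em L = some w
  det : ∀ y ∈ E.Y, ∀ y' ∈ E.Y, ∀ s, (∀ j < M, code E y j s = code E y' j s) →
    ∀ i < N₁, code E y i = code E y' i

/-- A short field commutes with every field. -/
lemma com_short_any {N₁ M : ℕ} (h : Enough (em := em) D E N₁ M) {v v' : Lat} {f : Fld k} {n : ℕ}
    (hn : n < N₁) (hs : Short (C.tower D.x₀) f (pt v) n) {b : FVal k} (hb : fsome b = true)
    (f' : Fld k) (b' : FVal k) : Com (obs g D u v f b) (obs g D u v' f' b') := by
  have hd := h.depth
  have hle := h.le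
  by_cases hc : ∃ c : JCell k, fval f c = b
  swap
  · exact com_null (ctx_one hg D u v' f') (det_obs b' (mem_singleton_self _))
      (cell_null hg fun x _ c _ hfc => hc ⟨c, hfc⟩)
  obtain ⟨zb, hzb, rfl⟩ := exists_symbol hc hb
  let z : ℕ → Option (Mid k) := fun l => if l < n then (C.tower D.x₀).zs (pt v) l f.ax else zb
  have hzn : z n = zb := if_neg (lt_irrefl n)
  have hw : (List.ofFn fun l : Fin n => (z l).getD f.mark) = word D f v n :=
    congrArg List.ofFn (funext fun l : Fin n => by simp only [z, if_pos l.2])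
  have h1 := slot_words hg hgs hem (D := D) (u := u) f (n := n) (by omega) z fun l hl => by
    simp only [z]
    split
    exacts [hs.letters l (by assumption), hzb]
  rw [hw, hzn] at h1
  have h2 := (same_slot hg (u := u) (f.lval zb) (show n ≤ D.N by omega) hs).trans h1
  cases f' with
  | J i => exact h2.com (InFam.com hg hgs hem (inFam_words _ _ _) (inFam_obs rfl b'))
  | B => exact h2.com (InFam.com hg hgs hem (inFam_words _ _ _) (inFam_obs rfl b'))
  | Q i t =>
    refine (h2.trans (same_words_track hg hgs hem h.le (by omega) h.kill h.det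
      (show n + 1 ≤ N₁ by omega) _ t)).com ?_
    exact InFam.com hg hgs hem (inFam_words (qAlph k t) _ _) (inFam_obs rfl b')

omit hg hgs hem in
lemma det_diff {E' : Finset (Site k K)} {o o' : (cosetSFT C g).Obs}
    (h : Det (S := cosetSFT C g) (getS C g) E' o) (h' : Det (S := cosetSFT C g) (getS C g) E' o') :
    Det (S := cosetSFT C g) (getS C g) E' (Obs.diff o o') :=
  ⟨by simpa [union_subset_iff] using ⟨h.supp, h'.supp⟩,
    fun x y e => by simp [h.val x y e, h'.val x y e]⟩

/-- Two long fields commute. -/
lemma com_long {N₁ M m L₀ : ℕ} (h : Enough (em := em) D E N₁ M) (hm : m + 2 ≤ L₀)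
    (hL : L₀ ≤ N₁)
    (hJ : ∀ w : List (Full k), L₀ ≤ w.length → ∀ s t, s ≠ t →
      (∀ (i : ℕ) (h : i < w.length), m + 1 ≤ i → w[i] s = w[i] t) → ¬ Genuine E w)
    {v v' : Lat} {f : Fld k} {i : Fin 3} {t : Option (Fin k)}
    (hdist : ∀ j, |pt v' j - pt v j| ≤ (base k : ℤ) ^ m)
    (h1 : Long (C.tower D.x₀) f (pt v) N₁) (h2 : Long (C.tower D.x₀) (.Q i t) (pt v') N₁)
    {b b' : FVal k} (hb : fsome b = true) (hb' : fsome b' = true) :
    Com (obs g D u v f b) (obs g D u v' (.Q i t) b') := by
  have hd := h.depth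
  have hle := h.le
  let T := C.tower D.x₀
  rcases exists_meet f (.Q i t) v v' with ⟨q, hq, hq'⟩ | ⟨j, hj, hj', hne⟩
  · exact (obs_slide hg b hq).com_both (obs_slide hg b' hq') (cell_com hg _ _ _ _ _)
  obtain ⟨n, rfl⟩ : ∃ n, L₀ = n + 1 := ⟨L₀ - 1, by omega⟩
  obtain ⟨p, hp, hs, hle1⟩ := exists_below hg (u := u) (v := v) f (l := n) (by omega)
    fun l hl => h1.letters l (by omega)
  obtain ⟨p', hp', hs', hle2⟩ := exists_below hg (u := u) (v := v') (Fld.Q i t) (l := n) (by omega)
    fun l hl => h2.letters l (by omega)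
  have hS := slot_words hg hgs hem (D := D) (u := u) f (n := n) (by omega)
    (fun l => T.zs (pt v) l f.ax) fun l hl => h1.letters l (by omega)
  have hW := ((hs _).trans hS).trans
    (same_words_track hg hgs hem h.le (by omega) h.kill h.det hL _ t)
  have hlet := fun l (hl : l < N₁) => h2.letters l hl
  choose c hc using hlet
  let π₀ : List Bool := List.ofFn fun l : Fin n => c l (by omega)
  let π₁ : List Bool := π₀ ++ [c n (by omega)]
  have hπlen : π₁.length = n + 1 := by simp [π₁, π₀]
  have hπ : ∀ l (hl : l < π₁.length), T.zs (pt v') l i = some (.pad π₁[l]) := fun l hl => by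
    simp only [π₁, π₀, List.length_append, List.length_ofFn, List.length_singleton] at hl
    refine (hc l (by omega)).trans (congrArg (fun x => some (Mid.pad x)) ?_)
    rcases Nat.lt_succ_iff_lt_or_eq.1 hl with hl' | rfl
    · simp [π₁, π₀, hl']
    · simp [π₁, π₀]
  have hword : word D (.Q i t) v' n = π₀.map Mid.pad :=
    List.ext_getElem (by simp [word, π₀]) fun l a b => by
      have hl : l < n := by simpa [word] using a
      simp only [word, List.getElem_ofFn, List.getElem_map, π₀, Fld.ax]
      rw [show (C.tower D.x₀).zs (pt v') l i = _ from hc l (by omega)]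
      rfl
  have hA := hs' ((Fld.Q i t).lval (T.zs (pt v') n i))
  have hval : (Fld.Q i t).lval (T.zs (pt v') n i) = (qAlph k t).value (c n (by omega)) := by
    rw [show T.zs (pt v') n i = _ from hc n (by omega)]; rfl
  rw [hword, hval] at hA
  have hA' := hA.trans ((same_step hg (qAlph k t) π₀ (c n (by omega)) (by simp [π₀]; omega)).trans
    ((InFam.same hg hgs hem (inFam_pres _ _)
      (inFam_words (qAlph k t) (n + 1) fun π => π = π₁) fun y => by
      refine Iff.trans ?_ (words_val (qAlph k t) _ _ y).symm
      exact ⟨fun h => ⟨π₁, hπlen, rfl, h⟩, by rintro ⟨π, -, rfl, h⟩; exact h⟩).trans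
      (same_extend hg hgs hem (qAlph k t) _ (show n + 1 ≤ M by omega) (by omega))))
  let P' : List Bool → Prop := fun π => π.take (n + 1) = π₁
  let R : List Bool → Prop := fun π => ∃ τ, τ.length = M ∧ Genuine E τ ∧
    (∀ l (h : l < (τ.take (n + 1)).length),
      some (f.proj (τ.take (n + 1))[l]) = T.zs (pt v) l f.ax) ∧ trk t τ = π
  have hdis : ∀ π, R π → ¬ P' π := by
    rintro π ⟨τ, hlen, hgn, hS', rfl⟩ hP'
    have hget : ∀ l, l < n + 1 → ∀ h : l < τ.length, T.zs (pt v) l f.ax = some (f.proj τ[l]) ∧
        T.zs (pt v') l i = some (.pad (τ[l] t)) := by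
      intro l hl hlt
      constructor
      · have := hS' l (by simp; omega)
        rw [List.getElem_take] at this
        exact this.symm
      · rw [hπ l (by omega)]
        have := congrArg (fun s : List Bool => s[l]?) (show (trk t τ).take (n + 1) = π₁ from hP')
        simp [hl, hlt, show l < π₁.length by omega] at this
        rw [← this]
    let τf : ℕ → Full k := fun l => (τ[l]?).getD fun _ => false
    have hτf : ∀ l (hl : l < τ.length), τf l = τ[l] := fun l hl => by simp [τf, hl]
    obtain ⟨o, ho⟩ := key_track h1 hL (τ := τf)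
      (fun l hl => by rw [hτf l (by omega)]; exact (hget l hl (by omega)).1) hj
    obtain ⟨o', ho'⟩ := key_track h2 hL (τ := τf)
      (fun l hl => by rw [hτf l (by omega)]; exact (hget l hl (by omega)).2) hj'
    obtain ⟨⟨l, hl, hdiff⟩, hhigh⟩ := differ (T := T) (N := n + 1) (by omega) (hdist j)
      (fun l hl => by rw [ho l hl]; rfl) hne
    have hh : ∀ l, m < l → l < n + 1 → keySym o (τf l) = keySym o' (τf l) := fun l hm hl => by
      have := hhigh l hm
      rw [ho l hl, ho' l hl] at this
      exact Option.some.inj this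
    have hoo : o ≠ o' := fun e => hdiff (by rw [ho l hl, ho' l hl, e])
    rcases o with _ | s <;> rcases o' with _ | s'
    · exact hoo rfl
    · exact absurd (hh (m + 1) (by omega) (by omega)) (by simp [keySym])
    · exact absurd (hh (m + 1) (by omega) (by omega)) (by simp [keySym])
    have hgt : Genuine E (τ.take (n + 1)) :=
      Genuine.of_append E (v := τ.drop (n + 1)) (by rw [List.take_append_drop]; exact hgn)
    refine hJ _ (by simp; omega) s s' (fun e => hoo (by rw [e])) (fun l hl hml => ?_) hgt
    simp only [List.length_take] at hl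
    rw [List.getElem_take]
    have := hh l (by omega) (by omega)
    rw [hτf l (by omega)] at this
    simpa [keySym] using this
  let o₁ := Obs.and (obs g D u v' (.Q i t) b') (words g D u (qAlph k t) M P')
  let d' := words g D u (qAlph k t) M R
  have ho₁ : InFam D u (qAlph k t) o₁ := inFam_and (inFam_obs rfl b') (inFam_words _ _ _)
  have e1 : Same (obs g D u v' (.Q i t) b') o₁ := by
    refine (obs_slide hg b' hp').trans ((same_det (ctx_cell hg D u p') (det_obs _ (mem_cellFields _ _))
      (det_and (det_obs b' (mem_cellFields p' (.Q i t)))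
        (det_obs ((qAlph k t).value (c n (by omega))) (mem_cellFields p' (Fld.Q i t).turn)))
      fun y hy => ?_).trans (InFam.same_and hg hgs hem (ctx_cell hg D u p')
        (det_obs _ (mem_cellFields _ _)) (det_obs _ (mem_cellFields _ _)) (inFam_obs rfl b')
        (inFam_words _ _ _) (obs_slide hg b' hp').symm hA'))
    cases hv : (obs g D u p' (Fld.Q i t) b').val y
    · simp [hv]
    · have := hle2 b' hb' y hy hv
      change (obs g D u p' (Fld.Q i t).turn
        ((Fld.Q i t).lval (T.zs (pt v') n i))).val y = true at this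
      rw [hval] at this
      simp [hv, this]
  have hnull : Null (Obs.and o₁ d') := by
    let ι := {x : (Fin M → Bool) × (Fin M → Bool) // x.1 ≠ x.2}
    refine InFam.null hg hgs hem (inFam_and ho₁ (inFam_words _ _ _))
      (ms := fun x : ι => Obs.and (pres g D u (qAlph k t) (List.ofFn x.1.1))
        (pres g D u (qAlph k t) (List.ofFn x.1.2)))
      (fun x => inFam_and (inFam_pres _ _) (inFam_pres _ _))
      (fun x => null_pair hg hgs hem _ _ _ (by simp) (by simp; omega)
        fun e => x.2 (List.ofFn_injective e)) fun y hy => ?_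
    simp only [o₁, d', Obs.and_val, Bool.and_eq_true] at hy
    obtain ⟨π, hl, hP, hpv⟩ := (words_val (qAlph k t) _ _ y).1 hy.1.2
    obtain ⟨π', hl', hR, hpv'⟩ := (words_val (qAlph k t) _ _ y).1 hy.2
    have e := ofFn_get π hl
    have e' := ofFn_get π' hl'
    refine ⟨⟨(fun a => π[a.1]'(hl ▸ a.2), fun a => π'[a.1]'(hl' ▸ a.2)), fun he => ?_⟩, ?_⟩
    · have hππ : π = π' := e.symm.trans ((congrArg List.ofFn he).trans e')
      exact hdis π' hR (hππ ▸ hP)
    · simp only [Obs.and_val, Bool.and_eq_true]
      exact ⟨by rw [e]; exact hpv, by rw [e']; exact hpv'⟩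
  obtain ⟨s₁, hs₁, hd₁⟩ := ho₁
  obtain ⟨s₂, hs₂, hd₂⟩ := inFam_words (g := g) (D := D) (u := u) (qAlph k t) M R
  have hctx : CtxS C g ↑(sites D u (s₁ ∪ s₂)) := ctx_fam hg hgs hem (A := qAlph k t) fun e he => by
    rcases mem_union.1 he with he | he
    exacts [hs₁ e he, hs₂ e he]
  have hdo := hd₁.mono (sites_mono (subset_union_left (s₂ := s₂)))
  have hdd := hd₂.mono (sites_mono (subset_union_right (s₁ := s₁)))
  have e2 : Same (Obs.diff o₁ (Obs.and o₁ d')) o₁ :=
    hnull.same_diff (ctx_of_commuting hctx) hdo.supp hdo.thru (det_and hdo hdd).supp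
      (det_and hdo hdd).thru
  refine (obs_slide hg b hp).com_both (e1.trans e2.symm) ?_
  refine com_excl (ctx_cell hg D u p) hctx (det_obs b (mem_cellFields p f))
    (det_obs _ (mem_cellFields p f.turn)) (det_diff hdo (det_and hdo hdd)) hdd hW (hle1 b hb)
    fun y _ hy => ?_
  simp only [Obs.diff_val, Obs.and_val] at hy
  cases hv : (words g D u (qAlph k t) M R).val y
  · rfl
  · simp [d', hv] at hy

omit D u in
/-- Two fields of one coset commute. -/
theorem com_fields (u : K) (v v' : Lat) (f f' : Fld k) :
    ComS C g (fldSite u v f) (fldSite u v' f') := by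
  by_cases hstd : f.std = f'.std
  · exact com_family hg hgs hem u v v' f f' hstd
  let m := univ.sup fun j : Fin 3 => (pt v' j - pt v j).natAbs
  have hm : ∀ j, |pt v' j - pt v j| ≤ (base k : ℤ) ^ m := by
    intro j
    have h1 : (pt v' j - pt v j).natAbs ≤ m :=
      le_sup (f := fun j : Fin 3 => (pt v' j - pt v j).natAbs) (mem_univ j)
    have h2 : m < base k ^ m := Nat.lt_pow_self (by unfold base; omega)
    rw [Int.abs_eq_natAbs]
    exact_mod_cast h1.trans h2.le
  obtain ⟨J, hJ⟩ := not_genuine_of_tracks_eq E hgs (m + 1)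
  let L₀ := max J (m + 2)
  let N₁ := L₀ + 1
  obtain ⟨M₀, hM₀⟩ := track_determines E N₁
  let M := max M₀ N₁
  obtain ⟨B, hB⟩ := exists_emit_bound E hem M
  refine com_of_depth hg u v v' f f' (max (M + 2) B) fun D hD b b' hb hb' => ?_
  have hN₁M : N₁ ≤ M := le_max_right _ _
  have hE : Enough (em := em) D E N₁ M := by
    refine ⟨hN₁M, by omega, fun w hw hn => ?_, fun y hy y' hy' s h =>
      hM₀ y hy y' hy' s fun j hj => h j (hj.trans_le (le_max_left _ _))⟩
    obtain ⟨L, h1, h2, h3⟩ := hB w hw hn
    exact ⟨L, by omega, h2, h3⟩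
  by_cases h1 : Live (C.tower D.x₀) f (pt v) N₁
  swap
  · exact com_null (ctx_one hg D u v' f') (det_obs b' (mem_singleton_self _))
      (null_dead hg u v hb (by omega) h1)
  by_cases h2 : Live (C.tower D.x₀) f' (pt v') N₁
  swap
  · exact (com_null (ctx_one hg D u v f) (det_obs b (mem_singleton_self _))
      (null_dead hg u v' hb' (by omega) h2)).symm
  rcases h1 with ⟨n, hn, hs⟩ | h1
  · exact com_short_any hg hgs hem hE hn hs hb f' b'
  rcases h2 with ⟨n, hn, hs⟩ | h2
  · exact (com_short_any hg hgs hem hE hn hs hb' f b).symm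
  have hJ' : ∀ w : List (Full k), L₀ ≤ w.length → ∀ s t, s ≠ t →
      (∀ (i : ℕ) (h : i < w.length), m + 1 ≤ i → w[i] s = w[i] t) → ¬ Genuine E w :=
    fun w hw => hJ w ((le_max_left _ _).trans hw)
  have hL₀ : m + 2 ≤ L₀ := le_max_right _ _
  have hm' : ∀ j, |pt v j - pt v' j| ≤ (base k : ℤ) ^ m := fun j => by
    rw [abs_sub_comm]; exact hm j
  cases f' with
  | Q i t => exact com_long hg hgs hem hE hL₀ (Nat.le_succ _) hJ' hm h1 h2 hb hb'
  | J i => cases f with
    | Q i t => exact (com_long hg hgs hem hE hL₀ (Nat.le_succ _) hJ' hm' h2 h1 hb' hb).symm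
    | J i' => exact absurd rfl hstd
    | B => exact absurd rfl hstd
  | B => cases f with
    | Q i t => exact (com_long hg hgs hem hE hL₀ (Nat.le_succ _) hJ' hm' h2 h1 hb' hb).symm
    | J i' => exact absurd rfl hstd
    | B => exact absurd rfl hstd

omit D u in
/-- Every finite set of cells of one coset is a context for whole letters. -/
theorem cosetsCtx : CosetsCtx C g := by
  intro u W
  let Es : Finset (Site k K) := (({u} : Finset K) ×ˢ W) ×ˢ univ
  have hc : CtxS C g ↑Es := by
    rintro ⟨⟨u₁, a⟩, p⟩ he ⟨⟨u₂, c⟩, p'⟩ he'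
    obtain rfl : u₁ = u := by simpa [Es] using (mem_product.1 (mem_product.1 (mem_coe.1 he)).1).1
    obtain rfl : u₂ = u₁ := by simpa [Es] using (mem_product.1 (mem_product.1 (mem_coe.1 he')).1).1
    cases p with
    | com =>
      cases p' with
      | com => exact com_common_coset _ a c
      | fld f' => exact (com_field_common hg _ _ c a f').symm
    | fld f =>
      cases p' with
      | com => exact com_field_common hg _ _ a c f
      | fld f' => exact com_fields hg hgs hem _ a c f f'
  refine ((ctx_of_commuting hc).mono fun x hx => ?_).coarsen fun x hx l l' h => ?_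
  · exact mem_cells (E := Es) (e := (x, .com)) (mem_product.2 ⟨hx, mem_univ _⟩)
  have hall := (cls_eq_iff Es x l l').1 h
  have hp : ∀ p, getP C p l = getP C p l' := fun p => hall p (mem_product.2 ⟨hx, mem_univ p⟩)
  have e1 : l.1 = l'.1 := com_of_getP (hp .com)
  have e2 : ∀ f, fval f l.2 = fval f l'.2 := fun f => fval_of_getP (hp (.fld f))
  have e3 : l.2 = l'.2 := by
    obtain ⟨_, J₁, B₁, Q₁⟩ := l
    obtain ⟨_, J₂, B₂, Q₂⟩ := l'
    have h1 : J₁ = J₂ := funext fun i => Sum.inl.inj (e2 (.J i))
    have h2 : B₁ = B₂ := Sum.inl.inj (e2 .B)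
    have h3 : Q₁ = Q₂ := funext fun i => funext fun s => Sum.inr.inj (e2 (.Q i s))
    simp [h1, h2, h3]
  exact Prod.ext e1 e3

end

end Vale.Agent.P193.W4.Rigid
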