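import Vale.Agent.P193.BH.Calc

/-!
P193, module W4, rigidity: events read from components of cells.

A site is a cell with one component of its letter. Finitely many sites whose values pairwise
commute form a context, and an event read from them is a function of their values.
-/

namespace Vale.Agent.P193.W4.Rigid

open BH BH.SFT Finset
open scoped Classical

noncomputable section

variable {Γ : Type} [Group Γ] {S : SFT Γ} {P Vl : Type} {get : P → S.A → Vl}

/-- The event that the component at a site has the value `b`. -/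
def site (get : P → S.A → Vl) (e : Γ × P) (b : Vl) : S.Obs := compObs e.1 (get e.2) b

/-- All values of the two sites commute. -/
def Com₂ (get : P → S.A → Vl) (e e' : Γ × P) : Prop :=
  ∀ b b', Com (site get e b) (site get e' b')

/-- The sites of the set pairwise commute. -/
def Commuting (get : P → S.A → Vl) (L : Set (Γ × P)) : Prop :=
  ∀ e ∈ L, ∀ e' ∈ L, Com₂ get e e'

/-- The classes of letters given by the sites of `E`. -/
def cls (get : P → S.A → Vl) (E : Finset (Γ × P)) : Γ → S.A → S.A :=
  coarse fun c l p => if (c, p) ∈ E then some (get p l) else none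

/-- The cells of the sites. -/
def cells (E : Finset (Γ × P)) : Finset Γ := E.image Prod.fst

/-- The two configurations have the same values at the sites. -/
def Agree (get : P → S.A → Vl) (E : Finset (Γ × P)) (x y : Γ → S.A) : Prop :=
  ∀ e ∈ E, get e.2 (x e.1) = get e.2 (y e.1)

/-- Each window extends the values at the sites to an allowed one. -/
def Adm (get : P → S.A → Vl) (E : Finset (Γ × P)) (x : Γ → S.A) : Prop :=
  ∀ γ, ∃ q : Γ → S.A, S.allowed (S.window q γ) ∧
    ∀ e ∈ E, (∃ w ∈ S.win, e.1 = γ * w) → get e.2 (q e.1) = get e.2 (x e.1)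

/-- The observable is a function of the values at the sites. -/
structure Det (get : P → S.A → Vl) (E : Finset (Γ × P)) (o : S.Obs) : Prop where
  supp : o.supp ⊆ cells E
  val : ∀ x y, Agree get E x y → o.val x = o.val y

lemma cls_eq_iff (E : Finset (Γ × P)) (c : Γ) (l l' : S.A) :
    cls get E c l = cls get E c l' ↔ ∀ p, (c, p) ∈ E → get p l = get p l' := by
  rw [cls, coarse_eq_iff, funext_iff]
  refine forall_congr' fun p => ?_
  by_cases h : (c, p) ∈ E <;> simp [h]

lemma agree_iff (E : Finset (Γ × P)) (x y : Γ → S.A) :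
    Agree get E x y ↔ ∀ c ∈ cells E, cls get E c (x c) = cls get E c (y c) := by
  constructor
  · exact fun h c _ => (cls_eq_iff E c _ _).2 fun p hp => h (c, p) hp
  · exact fun h e he =>
      (cls_eq_iff E e.1 _ _).1 (h e.1 (mem_image_of_mem _ he)) e.2 he

lemma Agree.mono {E E' : Finset (Γ × P)} (h : E ⊆ E') {x y : Γ → S.A} (ha : Agree get E' x y) :
    Agree get E x y :=
  fun e he => ha e (h he)

lemma Agree.symm {E : Finset (Γ × P)} {x y : Γ → S.A} (ha : Agree get E x y) : Agree get E y x :=
  fun e he => (ha e he).symm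

lemma Adm.mono {E E' : Finset (Γ × P)} (h : E ⊆ E') {x : Γ → S.A} (ha : Adm get E' x) :
    Adm get E x := fun γ => by
  obtain ⟨q, hq, e⟩ := ha γ
  exact ⟨q, hq, fun a he => e a (h he)⟩

lemma adm_of_class {E : Finset (Γ × P)} {x : Γ → S.A}
    (h : S.AdmissibleClass (cls get E) (cells E) x) : Adm get E x := fun γ => by
  obtain ⟨q, hq, e⟩ := h γ
  refine ⟨q, hq, fun a ha ⟨w, hw, hc⟩ => ?_⟩
  have hmem : a.1 ∈ cells E := mem_image_of_mem _ ha
  rw [hc] at hmem ⊢
  exact (cls_eq_iff E _ _ _).1 (e w hw hmem) a.2 (by rw [← hc]; exact ha)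

lemma Det.thru {E : Finset (Γ × P)} {o : S.Obs} (h : Det get E o) : o.Thru S (cls get E) := by
  intro x y hxy
  let z : Γ → S.A := fun c => if c ∈ o.supp then y c else x c
  have h1 : o.val x = o.val z := h.val x z fun e _ => by
    by_cases hm : e.1 ∈ o.supp
    · simpa [z, hm] using (cls_eq_iff E e.1 _ _).1 (hxy e.1 hm) e.2 (by assumption)
    · simp [z, hm]
  exact h1.trans (o.dep z y fun c hc => by simp [z, hc])

lemma Det.mono {E E' : Finset (Γ × P)} (h : E ⊆ E') {o : S.Obs} (ho : Det get E o) :
    Det get E' o :=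
  ⟨ho.supp.trans (image_subset_image h), fun x y a => ho.val x y (a.mono h)⟩

lemma det_site (e : Γ × P) (b : Vl) : Det get {e} (site get e b) :=
  ⟨by simp [site, cells], fun x y h => by simp [site, h e (mem_singleton_self e)]⟩

lemma Com₂.symm {e e' : Γ × P} (h : Com₂ get e e') : Com₂ get e' e :=
  fun b b' => Com.symm (h b' b)

/-- Sites of one cell commute. -/
lemma com₂_cell (c : Γ) (p p' : P) : Com₂ get (c, p) (c, p') :=
  fun _ _ => Der.cell _ _ c (by simp [site]) (by simp [site])

/-- Sites of one window commute. -/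
lemma com₂_window {e e' : Γ × P} (γ : Γ) {w w' : Γ} (hw : w ∈ S.win) (hw' : w' ∈ S.win)
    (he : e.1 = γ * w) (he' : e'.1 = γ * w') : Com₂ get e e' :=
  fun _ _ => Der.window _ _ γ fun d hd => by
    rcases hd with hd | hd <;> simp only [site, compObs_supp, mem_singleton] at hd <;> subst hd
    exacts [⟨w, hw, he⟩, ⟨w', hw', he'⟩]

lemma Commuting.mono {L L' : Set (Γ × P)} (h : L ⊆ L') (hc : Commuting get L') :
    Commuting get L :=
  fun e he e' he' => hc e (h he) e' (h he')

lemma commuting_cell (c : Γ) : Commuting get {e : Γ × P | e.1 = c} := by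
  intro e he e' he'
  obtain ⟨e1, e2⟩ := e
  obtain ⟨e1', e2'⟩ := e'
  have h1 : e1 = c := he
  have h2 : e1' = c := he'
  rw [h1, h2]
  exact com₂_cell c e2 e2'

lemma commuting_union {L L' : Set (Γ × P)} (h : Commuting get L) (h' : Commuting get L')
    (hx : ∀ e ∈ L, ∀ e' ∈ L', Com₂ get e e') : Commuting get (L ∪ L') := by
  rintro e (he | he) e' (he' | he')
  exacts [h e he e' he', hx e he e' he', (hx e' he' e he).symm, h' e he e' he']

/-- The classes of one cell are read from its sites. -/
lemma com_class {E : Finset (Γ × P)} {c : Γ} {l : S.A} {o' : S.Obs} {h : Γ → S.A → S.A}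
    (ho' : Ctx h o'.supp) (hto' : o'.Thru S h)
    (hcom : ∀ e ∈ E, e.1 = c → ∀ b, Com (site get e b) o') :
    Com (S.classObs (cls get E) c l) o' := by
  let ι : Type := {e // e ∈ E.filter fun e => e.1 = c}
  have : Fintype ι := inferInstanceAs (Fintype {e // e ∈ E.filter fun e => e.1 = c})
  refine com_of_determined (ι := ι) (fun e => site get e.1 (get e.1.2 l))
    (ctx_singleton (cls get E) c) (by simp) (thru_class _ c l)
    (fun e => by simp [site, (mem_filter.1 e.2).2])
    (fun e => ?_) ho' hto' (fun p q _ _ he => ?_)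
    fun e => hcom _ (mem_filter.1 e.2).1 (mem_filter.1 e.2).2 _
  · intro x y hxy
    have hm := mem_filter.1 e.2
    simp only [site, compObs_val]
    rw [(cls_eq_iff E e.1.1 _ _).1 (hxy e.1.1 (by simp [site])) e.1.2 hm.1]
  · simp only [classObs_val, decide_eq_decide]
    have key : ∀ x : Γ → S.A, cls get E c (x c) = l →
        ∀ e : ι, get e.1.2 (x c) = get e.1.2 l := by
      intro x hx e
      have hm := mem_filter.1 e.2
      have hinv : cls get E c (cls get E c (x c)) = cls get E c (x c) := by
        rw [cls_eq_iff]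
        intro p hp
        have := @Function.invFun_eq _ _ ⟨x c⟩
          (fun l p => if (c, p) ∈ E then some (get p l) else none)
          (fun p => if (c, p) ∈ E then some (get p (x c)) else none) ⟨x c, rfl⟩
        have h' := congrFun this p
        simp only [hp, if_true, Option.some.injEq] at h'
        exact h'
      rw [hx] at hinv
      exact ((cls_eq_iff E c _ _).1 (hinv.trans hx.symm) e.1.2 (by simpa [← hm.2] using hm.1)).symm
    have trans' : ∀ x y : Γ → S.A, (∀ e : ι, (site get e.1 (get e.1.2 l)).val x =
        (site get e.1 (get e.1.2 l)).val y) → cls get E c (x c) = l → cls get E c (y c) = l := by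
      intro x y hxy hx
      rw [← hx, cls_eq_iff]
      intro p hp
      have := hxy ⟨(c, p), mem_filter.2 ⟨hp, rfl⟩⟩
      simp only [site, compObs_val, key x hx ⟨(c, p), mem_filter.2 ⟨hp, rfl⟩⟩, decide_true] at this
      rw [key x hx ⟨(c, p), mem_filter.2 ⟨hp, rfl⟩⟩]
      exact of_decide_eq_true this.symm
    exact ⟨trans' p q he, trans' q p fun e => (he e).symm⟩

/-- Pairwise commuting sites form a context. -/
lemma ctx_of_commuting {E : Finset (Γ × P)} (h : Commuting get (↑E : Set (Γ × P))) :
    Ctx (cls get E) (cells E) := by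
  intro a _ b _ l l'
  refine com_class (ctx_singleton _ b) (thru_class _ b l') fun e he hea v => Com.symm ?_
  refine com_class (ctx_singleton (cls get E) e.1) ?_ fun e' he' _ v' => h e' he' e he v' v
  intro x y hxy
  simp only [site, compObs_val]
  rw [(cls_eq_iff E e.1 _ _).1 (hxy e.1 (by simp [site])) e.2 he]

lemma ctx_det {E : Finset (Γ × P)} (h : Commuting get (↑E : Set (Γ × P))) {o : S.Obs}
    (ho : Det get E o) : Ctx (cls get E) o.supp :=
  (ctx_of_commuting h).mono ho.supp

/-- Events of two sets of sites commute if the sites do. -/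
lemma com_det {E E' : Finset (Γ × P)} (h : Commuting get (↑E : Set (Γ × P)))
    (h' : Commuting get (↑E' : Set (Γ × P))) {o o' : S.Obs} (ho : Det get E o)
    (ho' : Det get E' o') (hx : ∀ e ∈ E, ∀ e' ∈ E', Com₂ get e e') : Com o o' := by
  refine com_of_classes (ctx_det h ho) ho.thru (ctx_det h' ho') ho'.thru fun a _ l => ?_
  refine com_class (ctx_det h' ho') ho'.thru fun e he _ b => Com.symm ?_
  refine com_of_classes (ctx_det h' ho') ho'.thru (h := cls get ({e} : Finset (Γ × P)))
    (by simpa [site] using ctx_singleton _ e.1) (det_site e b).thru fun a' _ l' => ?_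
  refine com_class (h := cls get ({e} : Finset (Γ × P)))
    (by simpa [site] using ctx_singleton _ e.1) (det_site e b).thru
    fun e' he' _ b' => (hx e he e' he').symm b' b

/-- An event commutes if, on admissible values, it is a function of commuting ones. -/
lemma com_det_of {ι : Type} [Fintype ι] {E E' : Finset (Γ × P)}
    (h : Commuting get (↑E : Set (Γ × P))) (h' : Commuting get (↑E' : Set (Γ × P))) {o o' : S.Obs}
    (ho : Det get E o) (ho' : Det get E' o') (ms : ι → S.Obs) (hms : ∀ i, Det get E (ms i))
    (hdet : ∀ p q, Adm get E p → Adm get E q → (∀ i, (ms i).val p = (ms i).val q) →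
      o.val p = o.val q)
    (hcom : ∀ i, Com (ms i) o') : Com o o' :=
  com_of_determined ms (ctx_of_commuting h) ho.supp ho.thru (fun i => (hms i).supp)
    (fun i => (hms i).thru) (ctx_det h' ho') ho'.thru
    (fun p q hp hq => hdet p q (adm_of_class hp) (adm_of_class hq)) hcom

/-- Events equal on admissible values are equal. -/
lemma same_det {E : Finset (Γ × P)} (h : Commuting get (↑E : Set (Γ × P))) {o o' : S.Obs}
    (ho : Det get E o) (ho' : Det get E o')
    (he : ∀ p, Adm get E p → o.val p = o'.val p) : Same o o' :=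
  same_of_agree (ctx_of_commuting h) ho.supp ho.thru ho'.supp ho'.thru
    fun p hp => he p (adm_of_class hp)

lemma same_det_refl {E : Finset (Γ × P)} (h : Commuting get (↑E : Set (Γ × P))) {o : S.Obs}
    (ho : Det get E o) : Same o o :=
  same_det h ho ho fun _ _ => rfl

/-- The same function of equal events gives equal events. -/
lemma same_map {ι : Type} [Fintype ι] {E E' : Finset (Γ × P)}
    (h : Commuting get (↑E : Set (Γ × P))) (h' : Commuting get (↑E' : Set (Γ × P))) {o o' : S.Obs}
    (ho : Det get E o) (ho' : Det get E' o') (ms ms' : ι → S.Obs) (F : (ι → Bool) → Bool)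
    (h1 : ∀ i, Det get E (ms i)) (h2 : ∀ i, Det get E' (ms' i))
    (hoU : ∀ p, Adm get E p → o.val p = F fun i => (ms i).val p)
    (hoW : ∀ p, Adm get E' p → o'.val p = F fun i => (ms' i).val p)
    (hs : ∀ i, Same (ms i) (ms' i)) : Same o o' :=
  same_of_fun ms ms' F (ctx_of_commuting h) (ctx_of_commuting h') ho.supp ho.thru ho'.supp ho'.thru
    (fun i => (h1 i).supp) (fun i => (h1 i).thru) (fun i => (h2 i).supp) (fun i => (h2 i).thru)
    (fun p hp => hoU p (adm_of_class hp)) (fun p hp => hoW p (adm_of_class hp)) hs

/-- Equal events separate an event below one from an event beside the other. -/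
lemma com_excl {E E' : Finset (Γ × P)} (h : Commuting get (↑E : Set (Γ × P)))
    (h' : Commuting get (↑E' : Set (Γ × P))) {o o' d d' : S.Obs} (ho : Det get E o)
    (hd : Det get E d) (ho' : Det get E' o') (hd' : Det get E' d') (hs : Same d d')
    (h1 : ∀ p, Adm get E p → o.val p = true → d.val p = true)
    (h2 : ∀ p, Adm get E' p → o'.val p = true → d'.val p = false) : Com o o' :=
  com_exclusive (ctx_of_commuting h) (ctx_of_commuting h') ho.supp ho.thru hd.supp hd.thru ho'.supp
    ho'.thru hd'.supp hd'.thru hs (fun p hp => h1 p (adm_of_class hp))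
    fun p hp => h2 p (adm_of_class hp)

/-! ### Events by predicates -/

/-- The event that the values at the sites of `E` satisfy `Q`. -/
def ev (get : P → S.A → Vl) (E : Finset (Γ × P)) (Q : (Γ → S.A) → Prop) : S.Obs where
  supp := cells E
  val x := decide (∃ y, Agree get E y x ∧ Q y)
  dep x y h := by
    refine decide_eq_decide.2 (exists_congr fun z => and_congr_left' ?_)
    exact forall₂_congr fun e he => by rw [h e.1 (mem_image_of_mem _ he)]

lemma det_ev (E : Finset (Γ × P)) (Q : (Γ → S.A) → Prop) : Det get E (ev get E Q) :=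
  ⟨subset_rfl, fun x y h => decide_eq_decide.2 (exists_congr fun _ => and_congr_left'
    ⟨fun a e he => (a e he).trans (h e he), fun a e he => (a e he).trans (h e he).symm⟩)⟩

lemma ev_val {E : Finset (Γ × P)} {Q : (Γ → S.A) → Prop}
    (hQ : ∀ x y, Agree get E x y → Q x → Q y) (x : Γ → S.A) :
    (ev get E Q).val x = true ↔ Q x := by
  simp only [ev, decide_eq_true_eq]
  exact ⟨fun ⟨y, hy, h⟩ => hQ y x hy h, fun h => ⟨x, fun _ _ => rfl, h⟩⟩

lemma det_and {E : Finset (Γ × P)} {o o' : S.Obs} (ho : Det get E o) (ho' : Det get E o') :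
    Det get E (Obs.and o o') :=
  ⟨by simpa [union_subset_iff] using ⟨ho.supp, ho'.supp⟩,
    fun x y h => by simp [ho.val x y h, ho'.val x y h]⟩

/-- Equal pairs have equal intersections. -/
lemma same_and {E E' : Finset (Γ × P)} (h : Commuting get (↑E : Set (Γ × P)))
    (h' : Commuting get (↑E' : Set (Γ × P))) {o o' d d' : S.Obs} (ho : Det get E o)
    (hd : Det get E d) (ho' : Det get E' o') (hd' : Det get E' d') (hso : Same o o')
    (hsd : Same d d') : Same (Obs.and o d) (Obs.and o' d') :=
  same_map (ι := Bool) h h' (det_and ho hd) (det_and ho' hd')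
    (fun b => if b then o else d) (fun b => if b then o' else d') (fun v => v true && v false)
    (fun b => by cases b; exacts [hd, ho]) (fun b => by cases b; exacts [hd', ho'])
    (fun p _ => by simp) (fun p _ => by simp) (fun b => by cases b; exacts [hsd, hso])

end

end Vale.Agent.P193.W4.Rigid
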