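import Vale.Agent.P193.W4.Coset.Spec
import Vale.Agent.P193.W4.Rigid.Atoms
import Vale.Agent.P193.W4.Rigid.Compact

/-!
P193, module W4, rigidity: the common layer inside the subshift with coset fields.

All common components commute. An event of common points read from finitely many cells of one
coset is equal to the same event read anywhere else.
-/

namespace Vale.Agent.P193.W4.Rigid

open BH BH.SFT Finset
open scoped Classical

/-- A field of a cell. -/
inductive Fld (k : ℕ) where
  | J (i : Fin 3)
  | B
  | Q (i : Fin 3) (s : Option (Fin k))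
deriving DecidableEq, Fintype

/-- A component of a cell. -/
inductive Part (k : ℕ) where
  | com
  | fld (f : Fld k)
deriving DecidableEq, Fintype

noncomputable section

variable {k : ℕ} {em : ℕ → Option (List (Full k))} {K : Type} [Group K]

/-- The values of the components. -/
abbrev Val (C : Common k em) : Type := C.S.A ⊕ (Option (Full k) ⊕ Option Bool)

/-- The component of a letter. -/
def getP (C : Common k em) : Part k → Letter C → Val C
  | .com, l => .inl l.1
  | .fld (.J i), l => .inr (.inl (l.2.J i))
  | .fld .B, l => .inr (.inl l.2.B)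
  | .fld (.Q i s), l => .inr (.inr (l.2.Q i s))

variable (C : Common k em) (g : Fin k → K)

/-- The component of a letter of the full layer. -/
def getS : Part k → (cosetSFT C g).A → Val C := fun p l => getP C p l

/-- A cell with one of its components. -/
abbrev Site (k : ℕ) (K : Type) : Type := (K × Lat) × Part k

/-- All values of two sites commute. -/
abbrev ComS (e e' : Site k K) : Prop := Com₂ (S := cosetSFT C g) (getS C g) e e'

/-- The sites pairwise commute. -/
abbrev CtxS (L : Set (Site k K)) : Prop := Commuting (S := cosetSFT C g) (getS C g) L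

/-- The values at the sites extend to allowed windows. -/
abbrev AdmS (E : Finset (Site k K)) (p : K × Lat → Letter C) : Prop :=
  Adm (S := cosetSFT C g) (getS C g) E p

/-- An observable of the common layer read in the coset `u`. -/
def liftObs (u : K) (o : C.S.Obs) : (cosetSFT C g).Obs where
  supp := o.supp.image fun v => (u, v)
  val x := o.val fun v => (x (u, v)).1
  dep x y h := o.dep _ _ fun c hc => by rw [h (u, c) (mem_image_of_mem (fun v => (u, v)) hc)]

/-- Classes of common letters read in the coset `u`. -/
def liftCls (u : K) (gC : Lat → C.S.A → C.S.A) :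
    K × Lat → (cosetSFT C g).A → (cosetSFT C g).A :=
  coarse fun c l => if c.1 = u then some (gC c.2 l.1) else none

variable {C g}

lemma site_val (e : Site k K) (b : Val C) (p : K × Lat → (cosetSFT C g).A) :
    (site (getS C g) e b).val p = true ↔ getP C e.2 (p e.1) = b := by
  unfold site
  rw [compObs_val]
  exact ⟨@of_decide_eq_true _ (_), @decide_eq_true _ (_)⟩

lemma getS_com (l : (cosetSFT C g).A) : getS C g .com l = Sum.inl l.1 := rfl

lemma liftCls_iff (u : K) (gC : Lat → C.S.A → C.S.A) (v : Lat) (l l' : (cosetSFT C g).A) :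
    liftCls C g u gC (u, v) l = liftCls C g u gC (u, v) l' ↔ gC v l.1 = gC v l'.1 := by
  rw [liftCls, coarse_eq_iff]
  simp

lemma thru_lift {u : K} {gC : Lat → C.S.A → C.S.A} {o : C.S.Obs} (h : o.Thru C.S gC) :
    (liftObs C g u o).Thru (cosetSFT C g) (liftCls C g u gC) :=
  fun x y hxy => h _ _ fun c hc =>
    (liftCls_iff u gC c _ _).1 (hxy (u, c) (mem_image_of_mem (fun v => (u, v)) hc))

lemma one_mem_cube : (1 : Lat) ∈ cube := Coset.pv_zero ▸ Coset.pv_mem_cube _

lemma win_none {w : Lat} (hw : w ∈ cube) : ((1 : K), w) ∈ (cosetSFT C g).win :=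
  Finset.mem_product.2 ⟨Finset.mem_image.2 ⟨none, Finset.mem_univ _, rfl⟩, hw⟩

lemma win_some (s : Fin k) {w : Lat} (hw : w ∈ cube) : (g s, w) ∈ (cosetSFT C g).win :=
  Finset.mem_product.2 ⟨Finset.mem_image.2 ⟨some s, Finset.mem_univ _, rfl⟩, hw⟩

lemma adm_lift {u : K} {gC : Lat → C.S.A → C.S.A} {U : Finset Lat}
    {p : K × Lat → (cosetSFT C g).A}
    (h : (cosetSFT C g).AdmissibleClass (liftCls C g u gC) (U.image fun v => (u, v)) p) :
    C.S.AdmissibleClass gC U fun v => (p (u, v)).1 := by
  intro γ
  obtain ⟨q, hq, e⟩ := h (u, γ)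
  have hq' : WinOK C (readWin C g ((cosetSFT C g).window q (u, γ))) := hq
  refine ⟨fun v => (q (u, v)).1, ?_, fun w hw hm => ?_⟩
  · have := hq'.common none
    have e2 : (fun w : C.S.win => (readWin C g ((cosetSFT C g).window q (u, γ)) none w).1) =
        C.S.window (fun v => (q (u, v)).1) γ := by
      funext w
      rw [Coset.readWin_window q u γ none (C.win_eq ▸ w.2)]
      simp [coset, SFT.window]
    rwa [e2] at this
  · have h1 : (u, γ) * ((1 : K), w) = (u, γ * w) := by simp
    have := e ((1 : K), w) (win_none (C.win_eq ▸ hw))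
      (by rw [h1]; exact mem_image_of_mem (fun v => (u, v)) hm)
    rw [h1] at this
    exact (liftCls_iff u gC _ _ _).1 this

lemma ctx_lift {u : K} {gC : Lat → C.S.A → C.S.A} {U : Finset Lat}
    (hIH : ∀ a ∈ U, ∀ b ∈ U, ∀ l l' : C.S.A,
      Com (liftObs C g u (C.S.classObs gC a l)) (liftObs C g u (C.S.classObs gC b l'))) :
    Ctx (liftCls C g u gC) (U.image fun v => (u, v)) := by
  have key : ∀ a ∈ U, ∀ (L : (cosetSFT C g).A) (o' : (cosetSFT C g).Obs) (h : K × Lat →
      (cosetSFT C g).A → (cosetSFT C g).A), Ctx h o'.supp → o'.Thru (cosetSFT C g) h →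
      (∀ l, Com (liftObs C g u (C.S.classObs gC a l)) o') →
        Com ((cosetSFT C g).classObs (liftCls C g u gC) (u, a) L) o' := by
    intro a _ L o' h ho' hto' hcom
    refine com_of_determined (fun l => liftObs C g u (C.S.classObs gC a l))
      (ctx_singleton (liftCls C g u gC) (u, a)) (by simp) (thru_class _ _ _)
      (fun l => by simp [liftObs]) (fun l => thru_lift (thru_class gC a l)) ho' hto'
      (fun p q _ _ he => ?_) hcom
    have h1 : gC a (p (u, a)).1 = gC a (q (u, a)).1 := by
      have := he (gC a (p (u, a)).1)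
      simp only [liftObs, classObs_val, decide_true] at this
      exact (of_decide_eq_true this.symm).symm
    simp only [classObs_val, (liftCls_iff u gC a _ _).2 h1]
  intro A hA B hB L L'
  obtain ⟨a, ha, rfl⟩ := mem_image.1 hA
  obtain ⟨b, hb, rfl⟩ := mem_image.1 hB
  refine key a ha L _ (liftCls C g u gC) (ctx_singleton _ _) (thru_class _ _ _) fun l =>
    Com.symm (key b hb L' _ (liftCls C g u gC) ?_ (thru_lift (thru_class gC a l)) fun l' =>
      hIH b hb a ha l' l)
  simpa [liftObs] using ctx_singleton (S := cosetSFT C g) (liftCls C g u gC) (u, a)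

/-- What is derived in the common layer holds in every coset. -/
lemma der_lift (u : K) {t : SFT.Kind} {o o' : C.S.Obs} (h : C.S.Der t o o') :
    (cosetSFT C g).Der t (liftObs C g u o) (liftObs C g u o') := by
  induction h with
  | window o o' γ h =>
    refine Der.window _ _ (u, γ) fun d hd => ?_
    rcases hd with hd | hd <;> obtain ⟨v, hv, rfl⟩ := mem_image.1 hd
    · obtain ⟨w, hw, rfl⟩ := h v (Or.inl hv)
      exact ⟨(1, w), win_none (C.win_eq ▸ hw), by simp⟩
    · obtain ⟨w, hw, rfl⟩ := h v (Or.inr hv)
      exact ⟨(1, w), win_none (C.win_eq ▸ hw), by simp⟩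
  | cell o o' γ h h' =>
    refine Der.cell _ _ (u, γ) ?_ ?_
    · intro d hd
      obtain ⟨v, hv, rfl⟩ := mem_image.1 hd
      simp [mem_singleton.1 (h hv)]
    · intro d hd
      obtain ⟨v, hv, rfl⟩ := mem_image.1 hd
      simp [mem_singleton.1 (h' hv)]
  | symm t o o' _ ih => exact Der.symm _ _ _ ih
  | agree o o' gC U hs hs' ht ht' _ he ih =>
    exact same_of_agree (ctx_lift ih) (image_subset_image hs) (thru_lift ht)
      (image_subset_image hs') (thru_lift ht') fun p hp => he _ (adm_lift hp)
  | trans o o' o'' _ _ ih ih' => exact Der.trans _ _ _ ih ih'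
  | congr o o' n ms ms' f gC hC U W hs hms hs' hms' ht htm ht' htm' _ _ he he' _ ihU ihW ih =>
    exact Der.congr _ _ n (fun i => liftObs C g u (ms i)) (fun i => liftObs C g u (ms' i)) f
      (liftCls C g u gC) (liftCls C g u hC) _ _ (image_subset_image hs)
      (fun i => image_subset_image (hms i)) (image_subset_image hs')
      (fun i => image_subset_image (hms' i)) (thru_lift ht) (fun i => thru_lift (htm i))
      (thru_lift ht') (fun i => thru_lift (htm' i)) (ctx_lift ihU) (ctx_lift ihW)
      (fun p hp => he _ (adm_lift hp)) (fun p hp => he' _ (adm_lift hp)) ih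
  | subst o o' o'' _ _ ih ih' => exact Der.subst _ _ _ ih ih'
  | derived o o' n ms f gC hC U hs hms ht htm ht' _ _ he _ ihU ihS ih =>
    exact Der.derived _ _ n (fun i => liftObs C g u (ms i)) f (liftCls C g u gC)
      (liftCls C g u hC) _ (image_subset_image hs) (fun i => image_subset_image (hms i))
      (thru_lift ht) (fun i => thru_lift (htm i)) (thru_lift ht') (ctx_lift ihU) (ctx_lift ihS)
      (fun p hp => he _ (adm_lift hp)) ih
  | exclusive o o' d d' gC hC U W hs hd hs' hd' ht htd ht' htd' _ _ _ he he' ihU ihW ih =>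
    exact Der.exclusive _ _ _ _ (liftCls C g u gC) (liftCls C g u hC) _ _ (image_subset_image hs)
      (image_subset_image hd) (image_subset_image hs') (image_subset_image hd') (thru_lift ht)
      (thru_lift htd) (thru_lift ht') (thru_lift htd') (ctx_lift ihU) (ctx_lift ihW) ih
      (fun p hp => he _ (adm_lift hp)) fun p hp => he' _ (adm_lift hp)

/-- The site of the common letter. -/
abbrev comSite (u : K) (v : Lat) : Site k K := ((u, v), .com)

lemma det_lift_cell (u : K) (v : Lat) (l : C.S.A) :
    Det (S := cosetSFT C g) (getS C g) ({comSite u v} : Finset (Site k K))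
      (liftObs C g u (C.S.cellObs v l)) := by
  refine ⟨by simp [liftObs, cells, SFT.cellObs], fun x y h => ?_⟩
  have := h (comSite u v) (mem_singleton_self _)
  simp only [getS_com, getP, Sum.inl.injEq] at this
  simp [liftObs, SFT.cellObs, this]

lemma com_common_coset (u : K) (a b : Lat) : ComS C g (comSite u a) (comSite u b) := by
  have single : ∀ e : Site k K, CtxS C g ↑({e} : Finset (Site k K)) := fun e =>
    (commuting_cell e.1).mono fun d hd => by
      rw [coe_singleton, Set.mem_singleton_iff] at hd
      rw [hd]; rfl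
  intro v v'
  refine com_det_of (single (comSite u a)) (single (comSite u b)) (det_site _ v) (det_site _ v')
    (fun l => liftObs C g u (C.S.cellObs a l)) (fun l => det_lift_cell u a l)
    (fun p q _ _ he => ?_) fun l => Com.symm ?_
  · have := he (p (u, a)).1
    simp only [liftObs, SFT.cellObs, decide_true] at this
    rw [Bool.eq_iff_iff, site_val, site_val]
    simp only [getP, of_decide_eq_true this.symm]
  · refine com_det_of (single (comSite u b)) (single (comSite u a)) (det_site _ v')
      (det_lift_cell u a l) (fun l' => liftObs C g u (C.S.cellObs b l'))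
      (fun l' => det_lift_cell u b l') (fun p q _ _ he => ?_) fun l' => der_lift u (C.rigid b a l' l)
    have := he (p (u, b)).1
    simp only [liftObs, SFT.cellObs, decide_true] at this
    rw [Bool.eq_iff_iff, site_val, site_val]
    simp only [getP, of_decide_eq_true this.symm]

lemma adm_window {E : Finset (Site k K)} {p : K × Lat → Letter C} (h : AdmS C g E p) (u : K)
    (v : Lat) :
    ∃ q : K × Lat → Letter C, WinOK C (fun o w => q (u * coset g o, v * w)) ∧
      ∀ e ∈ E, (∃ o, ∃ w ∈ cube, e.1 = (u * coset g o, v * w)) →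
        getP C e.2 (q e.1) = getP C e.2 (p e.1) := by
  obtain ⟨q, hq, he⟩ := h (u, v)
  have hq' : WinOK C (readWin C g ((cosetSFT C g).window q (u, v))) := hq
  have hr : ∀ o, ∀ w ∈ cube, readWin C g ((cosetSFT C g).window q (u, v)) o w =
      q (u * coset g o, v * w) := fun o w hw => Coset.readWin_window q u v o hw
  refine ⟨q, ⟨fun o => ?_, fun o w => ?_, fun s w => ?_, fun s w => ?_, fun o w b hb => ?_,
    fun o w a ha => ?_⟩, ?_⟩
  · have := hq'.common o
    have e : (fun w : C.S.win => (readWin C g ((cosetSFT C g).window q (u, v)) o w).1) =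
        fun w : C.S.win => (q (u * coset g o, v * w)).1 :=
      funext fun w => by rw [hr o w (C.win_eq ▸ w.2)]
    rwa [e] at this
  · have := hq'.cell o w
    rwa [hr o _ (Coset.pv_mem_cube w)] at this
  · have := hq'.equal s w
    rwa [hr _ _ (Coset.pv_mem_cube w), hr _ _ (Coset.pv_mem_cube w)] at this
  · have := hq'.edge s w
    rwa [hr _ _ (Coset.pv_mem_cube w), hr _ _ (Coset.pv_mem_cube w)] at this
  · have := hq'.plane o w b hb
    rwa [hr _ _ (Coset.pv_mem_cube w), hr _ _ (Coset.pv_mem_cube _)] at this
  · have := hq'.line o w a ha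
    rwa [hr _ _ (Coset.pv_mem_cube w), hr _ _ (Coset.pv_mem_cube _)] at this
  · rintro e hm ⟨o, w, hw, hc⟩
    exact he e hm ⟨(coset g o, w), Finset.mem_product.2
      ⟨Finset.mem_image.2 ⟨o, Finset.mem_univ o, rfl⟩, hw⟩, hc⟩

/-- The rules at one cell, read from a window. -/
lemma adm_cell {E : Finset (Site k K)} {p : K × Lat → Letter C} (h : AdmS C g E p) (u : K)
    (v : Lat) :
    ∃ q : Letter C, LetterOK C q ∧ ∀ pt, ((u, v), pt) ∈ E → getP C pt q = getP C pt (p (u, v)) := by
  obtain ⟨q, hq, he⟩ := adm_window h u v
  refine ⟨q (u, v), ?_, fun pt hm => he _ hm ⟨none, 1, one_mem_cube, by simp [coset]⟩⟩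
  have := hq.cell none (fun _ => false, fun _ => false)
  simpa [Coset.pv_zero, coset] using this

variable (C g) in
/-- The common letter is the same in all cosets. -/
lemma same_common (hg : Subgroup.closure (Set.range g) = ⊤) (u u' : K) (v : Lat) (b : Val C) :
    Same (S := cosetSFT C g) (site (getS C g) (comSite u v) b)
      (site (getS C g) (comSite u' v) b) := by
  have self : ∀ u, Same (S := cosetSFT C g) (site (getS C g) (comSite u v) b)
      (site (getS C g) (comSite u v) b) := fun u =>
    same_det_refl (E := {comSite (k := k) u v})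
      ((commuting_cell _).mono fun e he => by
        rw [coe_singleton, Set.mem_singleton_iff] at he; rw [he]; rfl) (det_site _ b)
  have step : ∀ u s, Same (S := cosetSFT C g) (site (getS C g) (comSite u v) b)
      (site (getS C g) (comSite (u * g s) v) b) := by
    intro u s
    let E : Finset (Site k K) := {comSite u v, comSite (u * g s) v}
    have hE : CtxS C g ↑E := by
      intro e he e' he'
      simp only [E, coe_insert, coe_singleton, Set.mem_insert_iff, Set.mem_singleton_iff] at he he'
      rcases he with rfl | rfl <;> rcases he' with rfl | rfl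
      · exact com₂_cell _ _ _
      · exact com₂_window (u, v) (win_none one_mem_cube) (win_some s one_mem_cube) (by simp)
          (by simp)
      · exact com₂_window (u, v) (win_some s one_mem_cube) (win_none one_mem_cube) (by simp)
          (by simp)
      · exact com₂_cell _ _ _
    refine same_det hE ((det_site _ b).mono (by simp [E])) ((det_site _ b).mono (by simp [E]))
      fun p hp => ?_
    obtain ⟨q, hq, he⟩ := adm_window hp u v
    have hw := hq.equal s (fun _ => false, fun _ => false)
    simp only [Coset.pv_zero, mul_one, coset] at hw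
    have h1 := he (comSite u v) (by simp [E]) ⟨none, 1, one_mem_cube, by simp [coset]⟩
    have h2 := he (comSite (u * g s) v) (by simp [E])
      ⟨some s, 1, one_mem_cube, by simp [coset]⟩
    simp only [getS_com, getP, Sum.inl.injEq] at h1 h2
    rw [Bool.eq_iff_iff, site_val, site_val]
    simp only [getP, ← h1, ← h2, hw]
  let H : Subgroup K :=
    { carrier := {t | ∀ u, Same (S := cosetSFT C g) (site (getS C g) (comSite u v) b)
        (site (getS C g) (comSite (u * t) v) b)}
      one_mem' := fun u => by rw [mul_one]; exact self u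
      mul_mem' := fun {a c} ha hc u => by rw [← mul_assoc]; exact (ha u).trans (hc (u * a))
      inv_mem' := fun {a} ha u => by
        have := ha (u * a⁻¹)
        rw [mul_assoc, inv_mul_cancel, mul_one] at this
        exact this.symm }
  have hle : Subgroup.closure (Set.range g) ≤ H :=
    (Subgroup.closure_le H).2 fun t ⟨s, hs⟩ u => hs ▸ step u s
  have := hle (hg ▸ Subgroup.mem_top (u⁻¹ * u')) u
  rwa [mul_inv_cancel_left] at this

variable (C g) in
/-- The common sites of all cosets commute. -/
theorem commuting_common (hg : Subgroup.closure (Set.range g) = ⊤) :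
    CtxS C g {e | e.2 = .com} := by
  rintro ⟨⟨u, a⟩, p⟩ hp ⟨⟨u', b⟩, p'⟩ hp'
  obtain rfl : p = .com := hp
  obtain rfl : p' = .com := hp'
  exact fun v v' => (same_common C g hg u u' a v).com (com_common_coset u' a b v v')

/-- The common sites of the coset `u` over `U`. -/
def comSites (u : K) (U : Finset Lat) : Finset (Site k K) := U.image (comSite u)

lemma mem_comSites {u : K} {U : Finset Lat} {e : Site k K} :
    e ∈ comSites u U ↔ ∃ v ∈ U, comSite u v = e := mem_image

lemma comSites_common (u : K) (U : Finset Lat) :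
    (↑(comSites (k := k) u U) : Set (Site k K)) ⊆ {e | e.2 = .com} := fun e he => by
  obtain ⟨v, -, rfl⟩ := mem_comSites.1 he
  rfl

variable (C) in
/-- The points with property `Q` are seen on `U`. -/
def Local (Q : C.S.X → Prop) (U : Finset Lat) : Prop :=
  ∀ x y : C.S.X, C.S.AgreeOn U x y → Q x → Q y

lemma Local.mono {Q : C.S.X → Prop} {U U' : Finset Lat} (h : Local C Q U) (hU : U ⊆ U') :
    Local C Q U' :=
  fun x y e => h x y fun c hc => e c (hU hc)

lemma agreeOn_symm {U : Finset Lat} {x y : C.S.X} (h : C.S.AgreeOn U x y) : C.S.AgreeOn U y x :=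
  fun c hc => (h c hc).symm

variable (C g) in
/-- The event of the common points with property `Q`, read on `U` in the coset `u`. -/
def cev (u : K) (U : Finset Lat) (Q : C.S.X → Prop) : (cosetSFT C g).Obs :=
  ev (S := cosetSFT C g) (getS C g) (comSites u U)
    fun p => ∃ x : C.S.X, (∀ v ∈ U, x.1 v = (p (u, v)).1) ∧ Q x

lemma det_cev (u : K) (U : Finset Lat) (Q : C.S.X → Prop) :
    Det (S := cosetSFT C g) (getS C g) (comSites u U) (cev C g u U Q) :=
  det_ev _ _

/-- An event of common points is evaluated at any point with the same letters. -/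
lemma cev_val {u : K} {U : Finset Lat} {Q : C.S.X → Prop} (hQ : Local C Q U)
    {p : K × Lat → Letter C} {x : C.S.X} (hx : ∀ v ∈ U, x.1 v = (p (u, v)).1) :
    (cev C g u U Q).val p = true ↔ Q x := by
  refine Iff.trans (ev_val (S := cosetSFT C g) (get := getS C g) ?_ p) ?_
  swap
  · exact ⟨fun ⟨y, hy, hQy⟩ => hQ y x (fun v hv => (hy v hv).trans (hx v hv).symm) hQy,
      fun h => ⟨x, hx, h⟩⟩
  · rintro a b hab ⟨y, hy, hQy⟩
    refine ⟨y, fun v hv => ?_, hQy⟩
    have := hab (comSite u v) (mem_comSites.2 ⟨v, hv, rfl⟩)
    simp only [getS_com, getP, Sum.inl.injEq] at this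
    rw [hy v hv, this]

variable (C g) in
/-- Admissible values on a large set of common sites show a point on a given one. -/
theorem exists_big (U : Finset Lat) : ∃ B : Finset Lat, U ⊆ B ∧ ∀ (u : K) (E : Finset (Site k K)),
    comSites u B ⊆ E → ∀ p, AdmS C g E p → ∃ x : C.S.X, ∀ v ∈ U, x.1 v = (p (u, v)).1 := by
  obtain ⟨B, hUB, hB⟩ := exists_point (S := C.S) U
  refine ⟨B, hUB, fun u E hE p hp => ?_⟩
  refine hB (fun v => (p (u, v)).1) fun γ hγ => ?_
  obtain ⟨q, hq, he⟩ := adm_window hp u γ
  have := hq.common none
  have e : (fun w : C.S.win => (q (u * coset g none, γ * w)).1) =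
      C.S.window (fun v => (p (u, v)).1) γ := by
    funext w
    have := he (comSite u (γ * w.1)) (hE (mem_comSites.2 ⟨_, hγ w.1 w.2, rfl⟩))
      ⟨none, w.1, C.win_eq ▸ w.2, by simp [coset]⟩
    simp only [getS_com, getP, Sum.inl.injEq] at this
    simpa [coset, SFT.window] using this
  rwa [e] at this

variable (C g) in
/-- Events of common points with the same points are equal, in all cosets. -/
theorem same_cev (hg : Subgroup.closure (Set.range g) = ⊤) (u u' : K) {U U' : Finset Lat}
    {Q Q' : C.S.X → Prop} (hQ : Local C Q U) (hQ' : Local C Q' U') (h : ∀ x, Q x ↔ Q' x) :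
    Same (cev C g u U Q) (cev C g u' U' Q') := by
  obtain ⟨B, hUB, hB⟩ := exists_big C g (U ∪ U')
  have hU : U ⊆ B := (subset_union_left).trans hUB
  have hU' : U' ⊆ B := (subset_union_right).trans hUB
  have hc : ∀ u : K, CtxS C g ↑(comSites (k := k) u B) := fun u =>
    (commuting_common C g hg).mono (comSites_common u B)
  have h1 : Same (cev C g u U Q) (cev C g u U' Q') := by
    refine same_det (hc u) ((det_cev u U Q).mono (image_subset_image hU))
      ((det_cev u U' Q').mono (image_subset_image hU')) fun p hp => ?_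
    obtain ⟨x, hx⟩ := hB u _ subset_rfl p hp
    rw [Bool.eq_iff_iff, cev_val hQ fun v hv => hx v (mem_union_left _ hv),
      cev_val hQ' fun v hv => hx v (mem_union_right _ hv), h x]
  refine h1.trans ?_
  have hfun : ∀ (u : K) (p : K × Lat → Letter C), (cev C g u U' Q').val p =
      (fun w : U' × C.S.A → Bool => decide (∃ x : C.S.X, (∀ v : U', w (v, x.1 v) = true) ∧ Q' x))
        (fun i => (site (S := cosetSFT C g) (getS C g) (comSite (k := k) u i.1.1) (.inl i.2)).val p) := by
    intro u p
    rw [Bool.eq_iff_iff, decide_eq_true_iff]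
    refine Iff.trans (ev_val (S := cosetSFT C g) (get := getS C g) ?_ p) ?_
    swap
    · exact exists_congr fun x => and_congr_left'
        ⟨fun h v => (site_val _ _ _).2 (congrArg Sum.inl (h v.1 v.2).symm),
          fun h v hv => (Sum.inl.inj ((site_val _ _ _).1 (h ⟨v, hv⟩))).symm⟩
    · rintro a b hab ⟨y, hy, hQy⟩
      refine ⟨y, fun v hv => ?_, hQy⟩
      have := hab (comSite u v) (mem_comSites.2 ⟨v, hv, rfl⟩)
      simp only [getS_com, getP, Sum.inl.injEq] at this
      rw [hy v hv, this]
  exact same_map (ι := U' × C.S.A) (hc u) (hc u') ((det_cev u U' Q').mono (image_subset_image hU'))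
    ((det_cev u' U' Q').mono (image_subset_image hU'))
    (fun i => site (getS C g) (comSite u i.1.1) (.inl i.2))
    (fun i => site (getS C g) (comSite u' i.1.1) (.inl i.2))
    (fun w => decide (∃ x : C.S.X, (∀ v : U', w (v, x.1 v) = true) ∧ Q' x))
    (fun i => (det_site _ _).mono (singleton_subset_iff.2 (mem_comSites.2 ⟨_, hU' i.1.2, rfl⟩)))
    (fun i => (det_site _ _).mono (singleton_subset_iff.2 (mem_comSites.2 ⟨_, hU' i.1.2, rfl⟩)))
    (fun p _ => hfun u p) (fun p _ => hfun u' p) fun i => same_common C g hg u u' i.1.1 _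

end

end Vale.Agent.P193.W4.Rigid
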