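import Vale.Agent.P193.W4.Rigid.Split

/-!
P193, module W4, rigidity: two fields of one family commute.

Different symbols are told apart by the slot of the common prefix, a short field crosses the other
one, and two long fields with the same symbols sit in one cell, unless their bridge tracks agree
far up, when their word is not genuine.
-/

namespace Vale.Agent.P193.W4.Rigid

open BH BH.SFT Finset Coset Vale.Agent.P193.Action
open scoped Classical

noncomputable section

variable {k : ℕ} {em : ℕ → Option (List (Full k))}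

lemma Fld.isLet_std (f : Fld k) {z : Option (Mid k)} : f.std.IsLet z ↔ f.IsLet z := by
  cases f <;> exact Iff.rfl

lemma Fld.mark_of_std {f f' : Fld k} (h : f.std = f'.std) : f.mark = f'.mark := by
  rw [← Fld.mark_std f, h, Fld.mark_std]

lemma Fld.isLet_of_std {f f' : Fld k} (h : f.std = f'.std) {z : Option (Mid k)}
    (hz : f'.IsLet z) : f.IsLet z := by
  rw [← Fld.isLet_std f, h, Fld.isLet_std]
  exact hz

lemma Fld.lval_of_std {f f' : Fld k} (h : f.std = f'.std) (z : Option (Mid k)) :
    f.lval z = f'.lval z := by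
  rw [← Fld.lval_std f, h, Fld.lval_std]

/-- The symbols on a key of a long field. -/
lemma key_sym {T : Tower k em} {f : Fld k} {v : Fin 3 → ℤ} {N : ℕ} (h : Long T f v N) {j : Fin 3}
    (hj : j = f.ax ∨ j = f.ax + 1) :
    (∀ l, l < N → T.zs v l j = T.zs v l f.ax) ∨
      f = .B ∧ j = 1 ∧ ∃ s, ∀ l, l < N → ∀ d, T.zs v l f.ax = some (.full d) →
        T.zs v l j = some (.pad (d s)) := by
  rcases hj with rfl | rfl
  · exact .inl fun l _ => rfl
  obtain ⟨s, hs⟩ := h.track
  cases f with
  | B =>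
    refine .inr ⟨rfl, rfl, s, fun l hl d hd => ?_⟩
    rw [hs l hl, hd]
    rfl
  | J i => exact .inl fun l hl => (hs l hl).trans (by simp only [Fld.ax]; cases T.zs v l i <;> rfl)
  | Q i t => exact .inl fun l hl => (hs l hl).trans (by simp only [Fld.ax]; cases T.zs v l i <;> rfl)

/-- Two cells with a common cell on their lines, or a shared key with different coordinates. -/
lemma exists_meet (f f' : Fld k) (v v' : Lat) :
    (∃ q, q ∈ keys f v ∧ q ∈ keys f' v') ∨
      ∃ j, (j = f.ax ∨ j = f.ax + 1) ∧ (j = f'.ax ∨ j = f'.ax + 1) ∧ pt v j ≠ pt v' j := by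
  by_cases h : ∃ j, (j = f.ax ∨ j = f.ax + 1) ∧ (j = f'.ax ∨ j = f'.ax + 1) ∧ pt v j ≠ pt v' j
  · exact .inr h
  push Not at h
  refine .inl ⟨Multiplicative.ofAdd (fun j => if j = f.ax ∨ j = f.ax + 1 then pt v j else pt v' j, 0),
    ⟨?_, ?_⟩, ⟨?_, ?_⟩⟩ <;>
    simp only [pt, toAdd_ofAdd] <;> split
  all_goals first
    | rfl
    | exact h _ (by assumption) (.inl rfl)
    | exact h _ (by assumption) (.inr rfl)
    | simp_all

variable {K : Type} [Group K] {C : Common k em} {g : Fin k → K}
  (hg : Subgroup.closure (Set.range g) = ⊤) {D : Depth C} {u : K}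

include hg

/-- Different symbols separate two fields of one family. -/
lemma com_differ {v v' : Lat} {f f' : Fld k} (hstd : f.std = f'.std) {l : ℕ} (hl : l < D.N)
    (h1 : ∀ j, j ≤ l → f.IsLet ((C.tower D.x₀).zs (pt v) j f.ax))
    (h2 : ∀ j, j ≤ l → f'.IsLet ((C.tower D.x₀).zs (pt v') j f'.ax))
    (heq : ∀ j, j < l → (C.tower D.x₀).zs (pt v) j f.ax = (C.tower D.x₀).zs (pt v') j f'.ax)
    (hne : (C.tower D.x₀).zs (pt v) l f.ax ≠ (C.tower D.x₀).zs (pt v') l f'.ax) {b b' : FVal k}
    (hb : fsome b = true) (hb' : fsome b' = true) :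
    Com (obs g D u v f b) (obs g D u v' f' b') := by
  obtain ⟨p, hp, hs, hle⟩ := exists_below hg (u := u) (v := v) f hl h1
  obtain ⟨p', hp', hs', hle'⟩ := exists_below hg (u := u) (v := v') f' hl h2
  have hw : word D f v l = word D f' v' l := congrArg List.ofFn <| funext fun j : Fin l => by
    rw [heq j j.2, Fld.mark_of_std hstd]
  refine (obs_slide hg b hp).com_both (obs_slide hg b' hp') ?_
  refine com_excl (ctx_cell hg D u p) (ctx_cell hg D u p')
    (det_obs b (mem_cellFields p f)) (det_obs (f.lval _) (mem_cellFields p f.turn))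
    (det_obs b' (mem_cellFields p' f'))
    (det_obs (f.lval ((C.tower D.x₀).zs (pt v) l f.ax)) (mem_cellFields p' f'.turn))
    ((hs _).trans (by rw [hw, hstd]; exact (hs' _).symm)) (hle b hb) fun y hy hv => ?_
  by_contra hn
  have e1 := ((obs_val ..).1 (by simpa using hn)).1
  have e2 := ((obs_val ..).1 (hle' b' hb' y hy hv)).1
  rw [e1, ← Fld.lval_of_std hstd] at e2
  exact hne (Fld.lval_inj (h1 l le_rfl) (Fld.isLet_of_std hstd (h2 l le_rfl)) e2)

/-- A short field and one with the same symbols below its marker. -/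
lemma com_short {v v' : Lat} {f f' : Fld k} (hstd : f.std = f'.std) {n : ℕ} (hn : n < D.N)
    (hs : Short (C.tower D.x₀) f (pt v) n)
    (h2 : Short (C.tower D.x₀) f' (pt v') n ∨
      ∀ j, j ≤ n → f'.IsLet ((C.tower D.x₀).zs (pt v') j f'.ax))
    (heq : ∀ j, j < n → (C.tower D.x₀).zs (pt v) j f.ax = (C.tower D.x₀).zs (pt v') j f'.ax)
    (b b' : FVal k) : Com (obs g D u v f b) (obs g D u v' f' b') := by
  have hw : word D f v n = word D f' v' n := congrArg List.ofFn <| funext fun j : Fin n => by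
    rw [heq j j.2, Fld.mark_of_std hstd]
  have h1 := same_slot hg (u := u) b hn.le hs
  rw [hw, hstd] at h1
  rcases h2 with h2 | h2
  · exact h1.com_both (same_slot hg b' hn.le h2) (cell_com hg _ _ _ _ _)
  · obtain ⟨p', hp', hs', -⟩ := exists_below hg (u := u) (v := v') f' hn h2
    exact (h1.trans (hs' b).symm).com_both (obs_slide hg b' hp') (cell_com hg _ _ _ _ _)

/-- A bridge over a word that is not genuine is absent. -/
lemma null_bridge {v : Lat} {τ : List (Full k)} (hτ : τ ≠ []) {L : ℕ} (hlen : τ.length ≤ L)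
    (he : em L = some τ) (hL : L ≤ D.N) (hn : τ.length < D.N) {f : Fld k} (hf : f.std = .J 0)
    (hz : ∀ l (h : l < τ.length), (C.tower D.x₀).zs (pt v) l f.ax = some (.full τ[l]))
    (htop : f.IsLet ((C.tower D.x₀).zs (pt v) τ.length f.ax)) {b : FVal k} (hb : fsome b = true) :
    Null (obs g D u v f b) := by
  have hlet : ∀ j, j ≤ τ.length → f.IsLet ((C.tower D.x₀).zs (pt v) j f.ax) := by
    intro j hj
    rcases Nat.lt_or_eq_of_le hj with hj | rfl
    · rw [hz j hj]; cases f <;> first | exact ⟨_, rfl⟩ | simp [Fld.std] at hf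
    · exact htop
  obtain ⟨p, hp, hs, hle⟩ := exists_below hg (u := u) (v := v) f hn hlet
  have hw : word D f v τ.length = τ.map Mid.full := by
    refine List.ext_getElem (by simp [word]) fun i h1 h2 => ?_
    simp only [word, List.getElem_ofFn, List.getElem_map]
    rw [hz i (by simpa using h2)]
    rfl
  have hz' := hs (f.lval ((C.tower D.x₀).zs (pt v) τ.length f.ax))
  rw [hf, hw] at hz'
  have hnull := Null.of_same hz' (null_killed hg u hτ hlen he hL (Fld.lval_present htop))
  refine Null.of_same (obs_slide hg b hp) ?_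
  refine null_of_le (ι := Unit) (fun _ => obs g D u p f.turn _)
    (ctx_of_commuting (ctx_cell hg D u p)) (det_obs b (mem_cellFields p f)).supp
    (det_obs b (mem_cellFields p f)).thru (fun _ => (det_obs _ (mem_cellFields p f.turn)).supp)
    (fun _ => (det_obs _ (mem_cellFields p f.turn)).thru) (fun _ => hnull)
    fun y hy hv => ⟨(), hle b hb y (adm_of_class hy) hv⟩

omit hg

variable {E : EffAction K g}

/-- Two fields of one family commute. -/
theorem com_family (hg : Subgroup.closure (Set.range g) = ⊤) (hgs : Function.Injective (gs g))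
    (hem : ∀ w, NoExt E w → ∃ L, w.length ≤ L ∧ em L = some w) (u : K) (v v' : Lat)
    (f f' : Fld k) (hstd : f.std = f'.std) : ComS C g (fldSite u v f) (fldSite u v' f') := by
  let m := univ.sup fun j : Fin 3 => (pt v' j - pt v j).natAbs
  have hm : ∀ j, |pt v' j - pt v j| ≤ (base k : ℤ) ^ m := by
    intro j
    have h1 : (pt v' j - pt v j).natAbs ≤ m :=
      le_sup (f := fun j : Fin 3 => (pt v' j - pt v j).natAbs) (mem_univ j)
    have h2 : m < base k ^ m := Nat.lt_pow_self (by unfold base; omega)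
    rw [Int.abs_eq_natAbs]
    exact_mod_cast h1.trans h2.le
  obtain ⟨J, hJ⟩ := not_genuine_of_tracks_eq E hgs (m + 1)
  obtain ⟨B, hB⟩ := exists_emit_bound E hem J
  let N := max (J + 1) (m + 2)
  refine com_of_depth hg u v v' f f' (max N B + 1) fun D hD b b' hb hb' => ?_
  have hN : N < D.N := by omega
  have hJN : J < N := by omega
  have hmN : m + 1 < N := by omega
  by_cases h1 : Live (C.tower D.x₀) f (pt v) N
  swap
  · exact com_null (ctx_one hg D u v' f') (det_obs b' (mem_singleton_self _))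
      (null_dead hg u v hb hN.le h1)
  by_cases h2 : Live (C.tower D.x₀) f' (pt v') N
  swap
  · exact (com_null (ctx_one hg D u v f) (det_obs b (mem_singleton_self _))
      (null_dead hg u v' hb' hN.le h2)).symm
  let T := C.tower D.x₀
  obtain ⟨n, hn, hl1, hk1⟩ : ∃ n, n ≤ N ∧ (∀ l, l < n → f.IsLet (T.zs (pt v) l f.ax)) ∧
      ((n < N ∧ Short T f (pt v) n) ∨ (n = N ∧ Long T f (pt v) N)) := by
    rcases h1 with ⟨n, hn, hs⟩ | hl
    exacts [⟨n, hn.le, hs.letters, .inl ⟨hn, hs⟩⟩, ⟨N, le_rfl, hl.letters, .inr ⟨rfl, hl⟩⟩]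
  obtain ⟨n', hn', hl2, hk2⟩ : ∃ n, n ≤ N ∧ (∀ l, l < n → f'.IsLet (T.zs (pt v') l f'.ax)) ∧
      ((n < N ∧ Short T f' (pt v') n) ∨ (n = N ∧ Long T f' (pt v') N)) := by
    rcases h2 with ⟨n, hn, hs⟩ | hl
    exacts [⟨n, hn.le, hs.letters, .inl ⟨hn, hs⟩⟩, ⟨N, le_rfl, hl.letters, .inr ⟨rfl, hl⟩⟩]
  by_cases hex : ∃ l, l < n ∧ l < n' ∧ T.zs (pt v) l f.ax ≠ T.zs (pt v') l f'.ax
  · obtain ⟨a1, a2, a3⟩ := Nat.find_spec hex
    refine com_differ hg hstd (show Nat.find hex < D.N by omega)
      (fun j hj => hl1 j (by omega)) (fun j hj => hl2 j (by omega)) (fun j hj => ?_) a3 hb hb'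
    by_contra hne
    exact Nat.find_min hex hj ⟨by omega, by omega, hne⟩
  push Not at hex
  rcases hk1 with ⟨hs1, hk1⟩ | ⟨rfl, hk1⟩
  · rcases lt_or_ge n' n with hlt | hle
    · rcases hk2 with ⟨-, hk2⟩ | ⟨e, -⟩
      · exact (com_short hg hstd.symm (by omega) hk2 (.inr fun j hj => hl1 j (by omega))
          (fun j hj => (hex j (by omega) hj).symm) b' b).symm
      · omega
    · refine com_short hg hstd (by omega) hk1 ?_ (fun j hj => hex j hj (by omega)) b b'
      rcases Nat.eq_or_lt_of_le hle with e | e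
      · rcases hk2 with ⟨-, hk2⟩ | ⟨e', -⟩
        · exact .inl (e ▸ hk2)
        · omega
      · exact .inr fun j hj => hl2 j (by omega)
  rcases hk2 with ⟨hs2, hk2⟩ | ⟨rfl, hk2⟩
  · exact (com_short hg hstd.symm (by omega) hk2 (.inr fun j hj => hl1 j (by omega))
      (fun j hj => (hex j (by omega) hj).symm) b' b).symm
  rcases exists_meet f f' v v' with ⟨q, hq, hq'⟩ | ⟨j, hj, hj', hne⟩
  · exact (obs_slide hg b hq).com_both (obs_slide hg b' hq') (cell_com hg _ _ _ _ _)
  obtain ⟨⟨l, hl, hdiff⟩, hhigh⟩ := differ (T := T) (N := N) hmN.le (hm j)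
    (fun l hl => by
      rcases hj with rfl | rfl
      exacts [(hk1.letters l hl).isSome, hk1.second hl]) hne
  have hz : ∀ l, l < N → T.zs (pt v) l f.ax = T.zs (pt v') l f'.ax := fun l hl => hex l hl hl
  have full : f.std = .J 0 → ∀ l, l < N → ∃ d, T.zs (pt v) l f.ax = some (.full d) := by
    intro h l hl
    have := hk1.letters l hl
    cases f <;> first | exact this | simp [Fld.std] at h
  rcases key_sym hk1 hj with e | ⟨rfl, rfl, s, e⟩ <;>
    rcases key_sym hk2 hj' with e' | ⟨e0, e1, s', e'⟩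
  · exact absurd (by rw [e l hl, e' l hl, hz l hl]) hdiff
  · subst e0
    obtain ⟨d, hd⟩ := full hstd (m + 1) hmN
    have := hhigh (m + 1) (Nat.lt_succ_self m)
    rw [e _ hmN, hd, e' _ hmN d (by rw [← hz _ hmN]; exact hd)] at this
    simp at this
  · obtain ⟨d, hd⟩ := full rfl (m + 1) hmN
    have := hhigh (m + 1) (Nat.lt_succ_self m)
    rw [e _ hmN d hd, e' _ hmN, ← hz _ hmN, hd] at this
    simp at this
  · subst e0
    by_cases hss : s = s'
    · obtain ⟨d, hd⟩ := full rfl l hl
      exact absurd (by rw [e l hl d hd, e' l hl d (by rw [← hz l hl]; exact hd), hss]) hdiff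
    choose d hd using full rfl
    let τ : List (Full k) := List.ofFn fun i : Fin J => d i (i.2.trans hJN)
    have hτl : τ.length = J := List.length_ofFn
    have hbad : ¬ Genuine E τ := by
      refine hJ τ hτl.ge s s' hss fun i hi hmi => ?_
      have hiN : i < N := by omega
      have := hhigh i (Nat.lt_of_succ_le hmi)
      rw [e i hiN _ (hd i hiN), e' i hiN _ (by rw [← hz i hiN]; exact hd i hiN)] at this
      simpa [τ] using this
    have hne' : τ ≠ [] := fun h0 => hbad (h0 ▸ genuine_nil E)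
    obtain ⟨L, hL, hlen, heL⟩ := hB τ hτl hbad
    refine com_null (ctx_one hg D u v' .B) (det_obs b' (mem_singleton_self _))
      (null_bridge hg hne' hlen heL (by omega) (by omega) (f := .B) rfl (fun i hi => ?_) ?_ hb)
    · rw [hd i (by omega)]; simp [τ]
    · exact ⟨_, hd τ.length (by omega)⟩

end

end Vale.Agent.P193.W4.Rigid
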