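import Vale.Agent.P193.W4.Rigid.Line

/-!
P193, module W4, rigidity: one field commutes with every common letter of its coset.

A short field is moved through crossings to a cell with three markers near the common cell. A long
field sees every cell at a bounded offset, as its keys are middle far below the top.
-/

namespace Vale.Agent.P193.W4

open BH

variable {k : ℕ} {em : ℕ → Option (List (Full k))}

namespace Rigid

open BH.SFT Finset Coset
open scoped Classical

noncomputable section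

variable {T : Tower k em}

/-- Symbols of a coordinate. -/
lemma zs_congr {v w : Fin 3 → ℤ} {i : Fin 3} (h : v i = w i) (l : ℕ) :
    T.zs v l i = T.zs w l i := by
  rw [Tower.zs_eq, Tower.zs_eq, h]

lemma Short.move {f : Fld k} {v w : Fin 3 → ℤ} {n : ℕ} (h : Short T f v n)
    (h0 : v f.ax = w f.ax) (h1 : v (f.ax + 1) = w (f.ax + 1)) : Short T f w n :=
  ⟨by rw [← zs_congr h0]; exact h.mark, fun l hl => by rw [← zs_congr h0]; exact h.letters l hl,
    h.track.imp fun s e l hl => by rw [← zs_congr h1, ← zs_congr h0]; exact e l hl,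
    on_keys h0 h1 h.present⟩

/-- At a marker equal on the free axis the field equals the one it is turned to. -/
lemma Short.turn {f : Fld k} {p : Fin 3 → ℤ} {n : ℕ} (h : Short T f p n)
    (he : ∀ l, l ≤ n → T.zs p l (f.ax + 2) = T.zs p l f.ax) :
    Short T f.turn p n ∧ ∀ c, CellOK (T.zs p 0) (T.stAt p 0).flags (T.stAt p 0).hit c →
      fval f c = fval f.turn c := by
  have hlet : ∀ l, l < n → f.turn.IsLet (T.zs p l f.turn.ax) := fun l hl => by
    rw [Fld.isLet_turn, Fld.ax_turn, he l hl.le]; exact h.letters l hl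
  have hsec : ∃ s, ∀ l, l < n →
      T.zs p l (f.turn.ax + 1) = (T.zs p l f.turn.ax).map (f.turn.sec s) := ⟨none, fun l hl => by
    rw [Fld.ax_turn, (fin3_turn f.ax).1, he l hl.le, funext (Fld.sec_turn f none)]
    simp⟩
  have hmark : T.zs p n f.turn.ax = some f.turn.mark := by
    rw [Fld.ax_turn, Fld.mark_turn, he n le_rfl]; exact h.mark
  suffices key : f.turn.On (T.stAt p 0).flags ∧
      ∀ c, CellOK (T.zs p 0) (T.stAt p 0).flags (T.stAt p 0).hit c →
        fval f c = fval f.turn c from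
    ⟨⟨hmark, hlet, hsec, key.1⟩, key.2⟩
  have hle := h.letters
  cases f with
  | J i =>
    simp only [Fld.ax, Fld.IsLet, Fld.mark, Fld.turn] at he hle hmark
    choose d hd using hle
    have e3 := (fin3_turn i).1
    have hσ : (List.ofFn fun l : Fin n => d l l.2).length = n := List.length_ofFn
    have hL : T.Line p (i + 2) (List.ofFn fun l : Fin n => d l l.2) := by
      refine ⟨by rw [hσ]; exact hmark, fun l hl => ?_⟩
      have hl' : l < n := hσ ▸ hl
      simp only [List.getElem_ofFn]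
      exact ⟨(he l hl'.le).trans (hd l hl'), by rw [e3]; exact hd l hl'⟩
    obtain ⟨heq, hrel⟩ := hL.flags 0 (Nat.zero_le _)
    refine ⟨heq, fun c hc => ?_⟩
    have hn := hc.nested (i + 2) heq (by rw [e3]; exact h.present)
    rw [hrel, e3, hσ, show T.zs p n i = some .hash from h.mark] at hn
    simp only [Tower.relTop, if_true, Rel.Holds] at hn
    exact congrArg Sum.inl hn.symm
  | B =>
    simp only [Fld.ax, Fld.IsLet, Fld.mark, Fld.turn] at he hle hmark
    choose d hd using hle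
    have hσ : (List.ofFn fun l : Fin n => d l l.2).length = n := List.length_ofFn
    have hL : T.Line p 2 (List.ofFn fun l : Fin n => d l l.2) := by
      refine ⟨by rw [hσ]; exact hmark, fun l hl => ?_⟩
      have hl' : l < n := hσ ▸ hl
      simp only [List.getElem_ofFn]
      exact ⟨(he l hl'.le).trans (hd l hl'), hd l hl'⟩
    obtain ⟨heq, hrel⟩ := hL.flags 0 (Nat.zero_le _)
    refine ⟨heq, fun c hc => ?_⟩
    have hn := hc.nestedB heq h.present
    rw [hrel, hσ, show T.zs p n (2 + 1) = some .hash from h.mark] at hn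
    simp only [Tower.relTop, if_true, Rel.Holds] at hn
    exact congrArg Sum.inl hn.symm
  | Q i s =>
    simp only [Fld.ax, Fld.IsLet, Fld.mark, Fld.turn] at he hle hmark
    choose d hd using hle
    have e3 := (fin3_turn i).1
    have hσ : (List.ofFn fun l : Fin n => d l l.2).length = n := List.length_ofFn
    have hL : T.PLine p (i + 2) (List.ofFn fun l : Fin n => d l l.2) := by
      refine ⟨by rw [hσ]; exact hmark, fun l hl => ?_⟩
      have hl' : l < n := hσ ▸ hl
      simp only [List.getElem_ofFn]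
      exact ⟨(he l hl'.le).trans (hd l hl'), by rw [e3]; exact hd l hl'⟩
    obtain ⟨heq, hrel⟩ := hL.flags 0 (Nat.zero_le _)
    refine ⟨heq, fun c hc => ?_⟩
    have hn := hc.nestedQ (i + 2) s heq (by rw [e3]; exact h.present)
    rw [hrel, e3, hσ, show T.zs p n i = some .phash from h.mark] at hn
    simp only [Tower.relTop, if_true, Rel.Holds] at hn
    exact congrArg Sum.inr hn.symm

variable {K : Type} [Group K] {C : Common k em} {g : Fin k → K}

lemma Ph.middle {n m : ℕ} {x₀ x : C.S.X} {v : Fin 3 → ℤ} {j : Fin 3} (h : Ph C n x₀ x)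
    (hm : m ≤ n + 1) (hs : (C.tower x₀).MiddleBelow v m j) :
    (C.tower x).MiddleBelow v m j := fun l hl => by
  rw [h.digit v (show l ≤ n by omega)]
  exact hs l hl

/-- An event seen through middle keys is read on the line. -/
lemma exists_seen {f : Fld k} {v : Lat} {n m : ℕ} {x₀ : C.S.X} (hnm : n ≤ m)
    (hmid : ∀ x, Ph C n x₀ x → ∀ j, j = f.ax ∨ j = f.ax + 1 →
      (C.tower x).MiddleBelow (pt v) m j)
    {W : Finset Lat} {R : C.S.X → Prop} (hR : Local C R W)
    (hW : ∀ x, Ph C n x₀ x → ∀ c ∈ W, ∀ j, j = f.ax ∨ j = f.ax + 1 →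
      (C.tower x).tile (pt v) m j = (C.tower x).tile (pt c) m j) :
    ∃ F : Finset Lat, ↑F ⊆ keys f v ∧ v ∈ F ∧ Local C (fun x => Ph C n x₀ x ∧ R x) F := by
  obtain ⟨U₀, hU₀⟩ := exists_local_ph C n x₀
  let Q : C.S.X → Prop := fun x => Ph C n x₀ x ∧ R x
  have hQ : Local C Q (U₀ ∪ W) := fun x y e h =>
    ⟨hU₀.mono subset_union_left x y e h.1, hR.mono subset_union_right x y e h.2⟩
  let P : (Lat → C.S.A) → Prop := fun p => ∃ x : C.S.X, (∀ c ∈ U₀ ∪ W, x.1 c = p c) ∧ Q x
  have hP : ∀ x : C.S.X, P x.1 ↔ Q x :=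
    fun x => ⟨fun ⟨z, hz, hQz⟩ => hQ z x hz hQz, fun h => ⟨x, fun _ _ => rfl, h⟩⟩
  obtain ⟨F, hF, hdet⟩ := exists_finite_det (S := C.S) (keys f v) (U₀ ∪ W) P
    (fun p q e ⟨x, hx, hQx⟩ => ⟨x, fun c hc => (hx c hc).trans (e c hc), hQx⟩) fun x y e hx => by
      obtain ⟨hph, hr⟩ := (hP x).1 hx
      obtain ⟨hd, hc⟩ := C.visible m f.ax (Multiplicative.toAdd v) x y (hmid x hph)
        fun b h0 h1 => e _ ⟨h0, h1⟩
      refine (hP y).2 ⟨fun l hl => ?_, hR x y (fun c hcW => ?_) hr⟩
      · rw [← hph l hl]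
        exact (Tower.same_digit _ _ _ (fun i hi => hd i (hi.trans hnm)) 0 l hl).symm
      · exact hc (Multiplicative.toAdd c) (hW x hph c hcW)
  refine ⟨insert v F, ?_, mem_insert_self v F, ?_⟩
  · rw [coe_insert]
    exact Set.insert_subset (mem_keys_self f v) hF
  · intro x y e h
    exact (hP y).1 (hdet x y (fun c hc => e c (mem_insert_of_mem hc)) ((hP x).2 h))

lemma exists_seen_ph {f : Fld k} {v : Lat} {n m : ℕ} {x₀ : C.S.X} (hnm : n ≤ m) (hm : m ≤ n + 1)
    (hl : Long (C.tower x₀) f (pt v) m) :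
    ∃ F : Finset Lat, ↑F ⊆ keys f v ∧ v ∈ F ∧ Local C (Ph C n x₀) F := by
  obtain ⟨F, h1, h2, h3⟩ := exists_seen (f := f) (v := v) hnm
    (fun x hx => (hx.long hm hl).middle) (W := ∅) (R := fun _ => True)
    (fun _ _ _ _ => trivial) (by simp)
  exact ⟨F, h1, h2, fun x y e h => (h3 x y e ⟨h, trivial⟩).1⟩

variable (hg : Subgroup.closure (Set.range g) = ⊤)

include hg

/-- Turning at a marker. -/
lemma same_turn (u : K) {p : Lat} {f : Fld k} (b : FVal k) {n : ℕ} {x₀ : C.S.X}
    (hs : Short (C.tower x₀) f (pt p) n)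
    (he : ∀ l, l ≤ n → (C.tower x₀).zs (pt p) l (f.ax + 2) = (C.tower x₀).zs (pt p) l f.ax)
    {F : Finset Lat} (hF : ↑F ⊆ keys f p) (hp : p ∈ F) (hQ : Local C (Ph C n x₀) F) :
    ∃ F' : Finset Lat, ↑F' ⊆ keys f.turn p ∧ p ∈ F' ∧ Local C (Ph C n x₀) F' ∧
      Short (C.tower x₀) f.turn (pt p) n ∧
      Same (cond C g u p f b F (Ph C n x₀)) (cond C g u p f.turn b F' (Ph C n x₀)) := by
  have ht := (hs.turn he).1
  obtain ⟨F', hF', hp', hQ'⟩ :=
    exists_seen_ph (f := f.turn) (v := p) le_rfl (Nat.le_succ n) ht.long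
  refine ⟨F', hF', hp', hQ', ht, cond_cross hg u p b hF hF' hQ hQ' hp hp' fun x hx q hq e => ?_⟩
  refine ((hx.short hs).turn fun l hl => ?_).2 _ (cellOK_tower hq e)
  rw [hx.zs _ hl, hx.zs _ hl]
  exact he l hl

/-- Moving along the line. -/
lemma same_move (u : K) {v w : Lat} {f : Fld k} (b : FVal k) {n : ℕ} {x₀ : C.S.X}
    (hs : Short (C.tower x₀) f (pt v) n) (hw : w ∈ keys f v) {F : Finset Lat}
    (hF : ↑F ⊆ keys f v) (hQ : Local C (Ph C n x₀) F) :
    ∃ F' : Finset Lat, ↑F' ⊆ keys f w ∧ w ∈ F' ∧ Local C (Ph C n x₀) F' ∧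
      Short (C.tower x₀) f (pt w) n ∧
      Same (cond C g u v f b F (Ph C n x₀)) (cond C g u w f b F' (Ph C n x₀)) := by
  refine ⟨insert w F, ?_, mem_insert_self w F, hQ.mono (subset_insert w F),
    hs.move hw.1.symm hw.2.symm, cond_congr hg u b hw hF ?_ hQ (hQ.mono (subset_insert w F))⟩
  · rw [coe_insert, keys_eq hw]; exact Set.insert_subset hw hF
  · rw [coe_insert]; exact Set.insert_subset hw hF

/-- A short field is moved to any cell with the same marker on all axes. -/
lemma same_route (u : K) {v h : Lat} {f : Fld k} (b : FVal k) {n : ℕ} {x₀ : C.S.X}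
    (hs : Short (C.tower x₀) f (pt v) n)
    (hh : ∀ l, l ≤ n → ∀ j, (C.tower x₀).zs (pt h) l j = (C.tower x₀).zs (pt v) l f.ax)
    {F : Finset Lat} (hF : ↑F ⊆ keys f v) (hQ : Local C (Ph C n x₀) F) :
    ∃ F' : Finset Lat, ↑F' ⊆ keys f.turn.turn h ∧ h ∈ F' ∧ Local C (Ph C n x₀) F' ∧
      Short (C.tower x₀) f.turn.turn (pt h) n ∧
      Same (cond C g u v f b F (Ph C n x₀)) (cond C g u h f.turn.turn b F' (Ph C n x₀)) := by
  obtain ⟨e1, e2, e3, n1, n2, n3, -⟩ := fin3_turn f.ax
  let p : Lat := Multiplicative.ofAdd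
    (Function.update (pt v) (f.ax + 2) (pt h (f.ax + 2)), (Multiplicative.toAdd v).2)
  let q : Lat := Multiplicative.ofAdd
    (Function.update (pt p) (f.ax + 1) (pt h (f.ax + 1)), (Multiplicative.toAdd v).2)
  have hp : pt p = Function.update (pt v) (f.ax + 2) (pt h (f.ax + 2)) := rfl
  have hq : pt q = Function.update (pt p) (f.ax + 1) (pt h (f.ax + 1)) := rfl
  have p0 : pt p f.ax = pt v f.ax := by rw [hp, Function.update_of_ne n2.symm]
  have p1 : pt p (f.ax + 1) = pt v (f.ax + 1) := by rw [hp, Function.update_of_ne n3.symm]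
  have p2 : pt p (f.ax + 2) = pt h (f.ax + 2) := by rw [hp, Function.update_self]
  have q1 : pt q (f.ax + 1) = pt h (f.ax + 1) := by rw [hq, Function.update_self]
  have q2 : pt q (f.ax + 2) = pt p (f.ax + 2) := by rw [hq, Function.update_of_ne n3]
  have q0 : pt q f.ax = pt p f.ax := by rw [hq, Function.update_of_ne n1.symm]
  obtain ⟨F1, a1, b1, c1, s1, r1⟩ := same_move hg u b hs (w := p) ⟨p0, p1⟩ hF hQ
  obtain ⟨F2, a2, b2, c2, s2, r2⟩ := same_turn hg u b s1 (fun l hl => by
    rw [zs_congr p2, zs_congr p0, hh l hl]) a1 b1 c1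
  obtain ⟨F3, a3, b3, c3, s3, r3⟩ := same_move hg u b s2 (w := q)
    ⟨by rw [Fld.ax_turn]; exact q2, by rw [Fld.ax_turn, e1]; exact q0⟩ a2 c2
  obtain ⟨F4, a4, b4, c4, s4, r4⟩ := same_turn hg u b s3 (fun l hl => by
    rw [Fld.ax_turn, e2, zs_congr q1, zs_congr (q2.trans p2), hh l hl, hh l hl]) a3 b3 c3
  obtain ⟨F5, a5, b5, c5, s5, r5⟩ := same_move hg u b s4 (w := h)
    ⟨by rw [Fld.ax_turn, Fld.ax_turn, e2]; exact q1.symm, by
      rw [Fld.ax_turn, Fld.ax_turn, e2, add_assoc]; exact (q2.trans p2).symm⟩ a4 c4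
  exact ⟨F5, a5, b5, c5, s5, r1.trans (r2.trans (r3.trans (r4.trans r5)))⟩

/-- A field commutes with a common cell in the tiles it sees. -/
lemma com_visible {u : K} {v c : Lat} {f : Fld k} {b : FVal k} {n m : ℕ} {x₀ : C.S.X}
    (hnm : n ≤ m) (hm : m ≤ n + 1)
    (hl : ∀ j, j = f.ax ∨ j = f.ax + 1 → (C.tower x₀).MiddleBelow (pt v) m j)
    (hc : ∀ j, j = f.ax ∨ j = f.ax + 1 →
      (C.tower x₀).tile (pt v) m j = (C.tower x₀).tile (pt c) m j)
    {F : Finset Lat} (hF : ↑F ⊆ keys f v) (hQ : Local C (Ph C n x₀) F) (a : C.S.A) :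
    Com (cond C g u v f b F (Ph C n x₀))
      (site (getS C g) (comSite u c) (Sum.inl a)) := by
  have hs := fun l : C.S.A => exists_seen (f := f) (v := v) hnm
    (fun x hx j hj => hx.middle hm (hl j hj)) (W := ({c} : Finset Lat)) (R := fun x => x.1 c = l)
    (fun x y e h => (e c (mem_singleton_self c)).symm.trans h) fun x hx d hd j hj => by
      rw [mem_singleton.1 hd, hx.tile _ hm, hx.tile _ hm]
      exact hc j hj
  choose Fl hFl _ hQl using hs
  let G : Finset Lat := F ∪ univ.biUnion Fl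
  have hG : ↑G ⊆ keys f v := by
    simp only [G, coe_union, Set.union_subset_iff, coe_biUnion, Set.iUnion_subset_iff]
    exact ⟨hF, fun l _ => hFl l⟩
  refine (cond_congr hg u b (mem_keys_self f v) hF hG hQ (hQ.mono subset_union_left)).com ?_
  refine com_det_of (ι := C.S.A) (ctx_line hg hG) (single_ctx _) (det_cond ..) (det_site _ _)
    (fun l => cond C g u v f b G fun x => Ph C n x₀ x ∧ x.1 c = l) (fun l => det_cond ..)
    (fun p q hp hq he => ?_) fun l => ?_
  · have key : ∀ p, (cond C g u v f b G (Ph C n x₀)).val p = true ↔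
        ∃ l, (cond C g u v f b G fun x => Ph C n x₀ x ∧ x.1 c = l).val p = true := by
      intro p
      constructor
      · intro h
        obtain ⟨h1, x, hx, hP⟩ := (cond_val ..).1 h
        exact ⟨x.1 c, (cond_val ..).2 ⟨h1, x, hx, hP, rfl⟩⟩
      · rintro ⟨l, h⟩
        obtain ⟨h1, x, hx, hP, -⟩ := (cond_val ..).1 h
        exact (cond_val ..).2 ⟨h1, x, hx, hP⟩
    rw [Bool.eq_iff_iff, key p, key q]
    simp [he]
  obtain ⟨U₀, hU₀⟩ := exists_local_ph C n x₀
  have hQlG : Local C (fun x => Ph C n x₀ x ∧ x.1 c = l) G :=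
    (hQl l).mono ((subset_biUnion_of_mem Fl (mem_univ l)).trans subset_union_right)
  have hQlU : Local C (fun x => Ph C n x₀ x ∧ x.1 c = l) (insert c U₀) :=
    fun x y e h => ⟨hU₀.mono (subset_insert c U₀) x y e h.1,
      (e c (mem_insert_self c U₀)).symm.trans h.2⟩
  have other : ∀ a, a ≠ l → Com (cond C g u v f b G fun x => Ph C n x₀ x ∧ x.1 c = l)
      (site (getS C g) (comSite u c) (Sum.inl a)) := by
    intro a ha
    refine com_excl (ctx_line hg hG) ((commuting_common C g hg).mono (comSites_common u _))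
      (det_cond ..) ((det_cev u G _).mono (subset_insert _ _))
      ((det_site _ _).mono (singleton_subset_iff.2 (mem_comSites.2 ⟨c, mem_insert_self c U₀, rfl⟩)))
      (det_cev u (insert c U₀) _) (same_cev C g hg u u hQlG hQlU fun _ => Iff.rfl) (fun p _ h => ?_)
      fun p _ h => ?_
    · obtain ⟨-, hx⟩ := (cond_val ..).1 h
      exact (cev_iff ..).2 hx
    · by_contra hn
      obtain ⟨x, hx, -, hxl⟩ := (cev_iff ..).1 (by simpa using hn)
      have h1 : (p (u, c)).1 = a := Sum.inl.inj ((site_val _ _ _).1 h)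
      exact ha (h1.symm.trans ((hx c (mem_insert_self c U₀)).symm.trans hxl))
  by_cases hal : a = l
  · subst hal
    refine Com.symm (com_det_of (ι := {a' // a' ≠ a}) (single_ctx _) (ctx_line hg hG)
      (det_site _ _) (det_cond ..) (fun a' => site (getS C g) (comSite u c) (Sum.inl a'.1))
      (fun a' => det_site _ _) (fun p q _ _ he => ?_) fun a' => (other a'.1 a'.2).symm)
    have key : ∀ p : K × Lat → Letter C,
        (site (getS C g) (comSite u c) (Sum.inl a)).val p = true ↔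
          ∀ a' : {a' // a' ≠ a},
            ¬ (site (getS C g) (comSite u c) (Sum.inl a'.1)).val p = true := by
      intro p
      refine (site_val _ _ _).trans ⟨fun h a' h' => a'.2 ?_, fun h => ?_⟩
      · exact Sum.inl.inj (((site_val _ _ _).1 h').symm.trans h)
      · by_contra hne
        exact h ⟨(p (u, c)).1, fun e => hne (congrArg Sum.inl e)⟩ ((site_val _ _ _).2 rfl)
    rw [Bool.eq_iff_iff, key p, key q]
    simp [he]
  · exact other a hal

/-- A field with a value commutes with any common letter. -/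
lemma com_fev_common (u : K) (v c : Lat) (f : Fld k) {b : FVal k} (hb : fsome b = true)
    (a : C.S.A) : Com (fev C g u v f b) (site (getS C g) (comSite u c) (Sum.inl a)) := by
  let r := (pt c 0 - pt v 0).natAbs + (pt c 1 - pt v 1).natAbs + (pt c 2 - pt v 2).natAbs
  have hr : ∀ j, |pt c j - pt v j| ≤ (base k : ℤ) ^ r := by
    intro j
    have h1 : (pt c j - pt v j).natAbs ≤ r := by fin_cases j <;> simp [r] <;> omega
    have h2 : r < base k ^ r := Nat.lt_pow_self (by unfold base; omega)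
    rw [Int.abs_eq_natAbs]
    exact_mod_cast h1.trans h2.le
  let N := r + 1
  let ι := Σ n : Fin (N + 1), (Fin (n.val + 1) → Fin 3 → Fin (base k))
  let Case : ℕ → C.S.X → Prop := fun n x =>
    (n < N ∧ Short (C.tower x) f (pt v) n) ∨ (n = N ∧ Long (C.tower x) f (pt v) N)
  let Q : ι → C.S.X → Prop := fun i x =>
    (∀ m : Fin (i.1.val + 1), (C.tower x).digit 0 m = i.2 m) ∧ Case i.1 x
  have hrep : ∀ i x₀, Q i x₀ → ∀ x, Q i x ↔ Ph C i.1 x₀ x := by
    refine fun i x₀ h0 x => ⟨fun h m hm => (h.1 ⟨m, by omega⟩).trans (h0.1 ⟨m, by omega⟩).symm,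
      fun h => ⟨fun m => (h m (Nat.lt_succ_iff.1 m.2)).trans (h0.1 m), ?_⟩⟩
    rcases h0.2 with ⟨hn, hs⟩ | ⟨hn, hl⟩
    · exact .inl ⟨hn, h.short hs⟩
    · exact .inr ⟨hn, h.long (by omega) hl⟩
  have hlong : ∀ i x₀, Q i x₀ → Long (C.tower x₀) f (pt v) i.1 := by
    intro i x₀ h0
    rcases h0.2 with ⟨-, hs⟩ | ⟨hn, hl⟩
    exacts [hs.long, by rw [hn]; exact hl]
  have hex : ∀ i, ∃ F : Finset Lat, ↑F ⊆ keys f v ∧ Local C (Q i) F := by
    intro i
    by_cases h : ∃ x₀, Q i x₀
    · obtain ⟨x₀, h0⟩ := h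
      obtain ⟨F, hF, -, hQ⟩ :=
        exists_seen_ph (f := f) (v := v) le_rfl (Nat.le_succ _) (hlong i x₀ h0)
      exact ⟨F, hF, fun x y e hx => (hrep i x₀ h0 y).2 (hQ x y e ((hrep i x₀ h0 x).1 hx))⟩
    · exact ⟨∅, by simp, fun x _ _ hx => absurd ⟨x, hx⟩ h⟩
  choose Fi hFi hQi using hex
  let F : Finset Lat := insert v (univ.biUnion Fi)
  have hF : ↑F ⊆ keys f v := by
    simp only [F, coe_insert, coe_biUnion, Set.insert_subset_iff, Set.iUnion_subset_iff]
    exact ⟨mem_keys_self f v, fun i _ => hFi i⟩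
  refine com_of_cover hg hF (mem_insert_self _ _) Q (fun x q hq hx hv => ?_) (single_ctx _)
    (det_site _ _) fun i => ?_
  · have hon := fval_absent (cellOK_tower hq hx) (by rw [hv]; exact hb)
    rcases on_cases f (pt v) hon N with ⟨n, hn, hs⟩ | hl
    · exact ⟨⟨⟨n, by omega⟩, fun m => (C.tower x).digit 0 m⟩, fun _ => rfl, .inl ⟨hn, hs⟩⟩
    · exact ⟨⟨Fin.last N, fun m => (C.tower x).digit 0 m⟩, fun _ => rfl, .inr ⟨rfl, hl⟩⟩
  by_cases h : ∃ x₀, Q i x₀
  swap
  · refine com_det_of (ι := Empty) (ctx_line hg hF) (single_ctx _) (det_cond ..) (det_site _ _)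
      Empty.elim (fun j => j.elim) (fun p q _ _ _ => ?_) fun j => j.elim
    have hne : ∀ p, (cond C g u v f b F (Q i)).val p = false := fun p => by
      by_contra hn
      obtain ⟨-, x, -, hx⟩ := (cond_val ..).1 (by simpa using hn)
      exact h ⟨x, hx⟩
    rw [hne, hne]
  obtain ⟨x₀, h0⟩ := h
  have heq : Same (cond C g u v f b F (Q i)) (cond C g u v f b F (Ph C i.1 x₀)) := by
    refine same_det (ctx_line hg hF) (det_cond ..) (det_cond ..) fun p _ => ?_
    refine Bool.eq_iff_iff.2 ((cond_val ..).trans (Iff.trans ?_ (cond_val ..).symm))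
    simp [hrep i x₀ h0]
  refine heq.com ?_
  have hQ : Local C (Ph C i.1 x₀) F := fun x y e hx => (hrep i x₀ h0 y).1
    ((hQi i).mono ((subset_biUnion_of_mem Fi (mem_univ i)).trans (subset_insert _ _)) x y e
      ((hrep i x₀ h0 x).2 hx))
  rcases h0.2 with ⟨-, hs⟩ | ⟨hn, hl⟩
  · obtain ⟨w, hw, hwd⟩ := (C.tower x₀).exists_cell (i.1.val + 1)
      ((C.tower x₀).tile (pt c) (i.1.val + 1)) fun l _ => (C.tower x₀).digit (pt v) l f.ax
    have hz : ∀ l, l ≤ i.1.val → ∀ j,
        (C.tower x₀).zs w l j = (C.tower x₀).zs (pt v) l f.ax := fun l hl j => by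
      rw [Tower.zs, hwd l (by omega) j, Tower.zs]
    obtain ⟨F', hF', -, hQ', hs', hsame⟩ :=
      same_route hg u b hs (h := Multiplicative.ofAdd (w, 0)) hz hF hQ
    refine hsame.com (com_visible hg (Nat.le_succ _) le_rfl (fun j _ => ?_)
      (fun j _ => congrFun hw j) hF' hQ' a)
    refine Tower.middleBelow_of_zs fun l hl => ?_
    rw [show pt (Multiplicative.ofAdd ((w, 0) : V)) = w from rfl, hz l (by omega)]
    rcases Nat.lt_succ_iff_lt_or_eq.1 hl with hl | rfl
    · exact (hs.letters l hl).isSome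
    · rw [hs.mark]; rfl
  · refine com_visible hg le_rfl (Nat.le_succ _) ?_ ?_ hF hQ a <;> rw [hn]
    exacts [hl.middle, fun j hj =>
      (Tower.MiddleBelow.tile_eq _ (hl.middle j hj) (Nat.lt_succ_self r) (hr j)).symm]

end

end Rigid

end Vale.Agent.P193.W4
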