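import Vale.Agent.P193.W4.Rigid.Phase

/-!
P193, module W4, rigidity: a field on its line, and events of common points read on the line.
-/

namespace Vale.Agent.P193.W4.Rigid

open BH BH.SFT Finset Coset
open scoped Classical

noncomputable section

variable {k : ℕ} {em : ℕ → Option (List (Full k))} {K : Type} [Group K]

/-- The values of the fields. -/
abbrev FVal (k : ℕ) : Type := Option (Full k) ⊕ Option Bool

/-- The value of a field. -/
def fval : Fld k → JCell k → FVal k
  | .J i, c => .inl (c.J i)
  | .B, c => .inl c.B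
  | .Q i s, c => .inr (c.Q i s)

/-- The value is not empty. -/
def fsome : FVal k → Bool
  | .inl o => o.isSome
  | .inr o => o.isSome

lemma fval_line {f : Fld k} {a : Fin 3} {c c' : JCell k} (h : LineOK a c c')
    (ha : a = f.ax + 2) : fval f c = fval f c' := by
  cases f with
  | J i => exact congrArg Sum.inl (h.1 i ha.symm).1
  | B => exact congrArg Sum.inl (h.2 ha)
  | Q i s => exact congrArg Sum.inr (congrFun (h.1 i ha.symm).2 s)

variable {C : Common k em}

lemma getP_fld (f : Fld k) (l : Letter C) : getP C (.fld f) l = Sum.inr (fval f l.2) := by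
  cases f <;> rfl

lemma fval_absent {f : Fld k} {z : Fin 3 → Option (Mid k)} {fl : Flags k} {m : Bool}
    {c : JCell k} (h : CellOK z fl m c) (hs : fsome (fval f c) = true) : f.On fl := by
  by_contra hn
  cases f with
  | J i => simp [fval, fsome, h.absentJ i (by simpa [Fld.On] using hn)] at hs
  | B => simp [fval, fsome, h.absentB hn] at hs
  | Q i s => simp [fval, fsome, h.absentQ i s (by simpa [Fld.On] using hn)] at hs

lemma fval_of_getP {f : Fld k} {l l' : Letter C}
    (h : getP C (.fld f) l = getP C (.fld f) l') : fval f l.2 = fval f l'.2 :=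
  Sum.inr.inj ((getP_fld f l).symm.trans (h.trans (getP_fld f l')))

lemma com_of_getP {l l' : Letter C}
    (h : getP C (.com : Part k) l = getP C (.com : Part k) l') : l.1 = l'.1 :=
  Sum.inl.inj h

/-- The counters of a cell. -/
abbrev pt (v : Lat) : Fin 3 → ℤ := (Multiplicative.toAdd v).1

/-- The letter at a cell of a point shows the tower. -/
lemma cellOK_tower {x : C.S.X} {v : Lat} {q : Letter C} (hq : LetterOK C q)
    (h : q.1 = x.1 v) :
    CellOK ((C.tower x).zs (pt v) 0) ((C.tower x).stAt (pt v) 0).flags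
      ((C.tower x).stAt (pt v) 0).hit q.2 := by
  unfold LetterOK at hq
  rw [h, show v = Multiplicative.ofAdd (Multiplicative.toAdd v) from rfl, C.own_tower,
    C.flags_tower, C.hit_tower] at hq
  exact hq

/-- The cells on the line of a field. -/
def keys (f : Fld k) (v : Lat) : Set Lat :=
  {w | pt w f.ax = pt v f.ax ∧ pt w (f.ax + 1) = pt v (f.ax + 1)}

lemma mem_keys_self (f : Fld k) (v : Lat) : v ∈ keys f v := ⟨rfl, rfl⟩

lemma keys_eq {f : Fld k} {v w : Lat} (h : w ∈ keys f v) : keys f w = keys f v := by
  ext z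
  simp only [keys, Set.mem_setOf_eq] at h ⊢
  rw [h.1, h.2]

/-- The site of a field. -/
abbrev fldSite (u : K) (v : Lat) (f : Fld k) : Site k K := ((u, v), .fld f)

variable (C) (g : Fin k → K)

/-- The event that the field has the value `b`. -/
abbrev fev (u : K) (v : Lat) (f : Fld k) (b : FVal k) : (cosetSFT C g).Obs :=
  site (getS C g) (fldSite u v f) (Sum.inr b)

variable {C g}

lemma fev_val (u : K) (v : Lat) (f : Fld k) (b : FVal k) (p : K × Lat → Letter C) :
    (fev C g u v f b).val p = true ↔ fval f (p (u, v)).2 = b := by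
  refine Iff.trans (site_val _ _ p) ?_
  simp [getP_fld]

lemma single_ctx (e : Site k K) : CtxS C g ↑({e} : Finset (Site k K)) :=
  (commuting_cell e.1).mono fun d hd => by
    rw [coe_singleton, Set.mem_singleton_iff] at hd
    rw [hd]; rfl

lemma same_unit (u : K) (z : Lat) (f : Fld k) (b : FVal k) (e : Lat)
    (he : e = unitC (f.ax + 2) ∨ ∃ c, e = unitP c) :
    Same (fev C g u z f b) (fev C g u (z * e) f b) := by
  have hpv : ∃ w : Place, pv w = e := by
    rcases he with rfl | ⟨c, rfl⟩
    · exact ⟨_, (pv_update_fst (fun _ => false, fun _ => false) _ rfl).trans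
        (by rw [pv_zero, one_mul])⟩
    · exact ⟨_, (pv_update_snd (fun _ => false, fun _ => false) _ rfl).trans
        (by rw [pv_zero, one_mul])⟩
  obtain ⟨w, hw⟩ := hpv
  have hwc : e ∈ cube := hw ▸ pv_mem_cube w
  let E : Finset (Site k K) := {fldSite u z f, fldSite u (z * e) f}
  have hE : CtxS C g ↑E := by
    intro a ha a' ha'
    simp only [E, coe_insert, coe_singleton, Set.mem_insert_iff, Set.mem_singleton_iff] at ha ha'
    rcases ha with rfl | rfl <;> rcases ha' with rfl | rfl
    · exact com₂_cell _ _ _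
    · exact com₂_window (u, z) (win_none one_mem_cube) (win_none hwc) (by simp) (by simp)
    · exact com₂_window (u, z) (win_none hwc) (win_none one_mem_cube) (by simp) (by simp)
    · exact com₂_cell _ _ _
  refine same_det hE ((det_site _ _).mono (by simp [E])) ((det_site _ _).mono (by simp [E]))
    fun p hp => ?_
  obtain ⟨q, hq, he'⟩ := adm_window hp u z
  have h1 := he' (fldSite u z f) (by simp [E]) ⟨none, 1, one_mem_cube, by simp [coset]⟩
  have h2 := he' (fldSite u (z * e) f) (by simp [E]) ⟨none, e, hwc, by simp [coset]⟩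
  replace h1 := fval_of_getP h1
  replace h2 := fval_of_getP h2
  have h3 : fval f (q (u, z)).2 = fval f (q (u, z * e)).2 := by
    rcases he with rfl | ⟨c, rfl⟩
    · have := hq.line none (fun _ => false, fun _ => false) (f.ax + 2) rfl
      rw [pv_update_fst (fun _ => false, fun _ => false) _ rfl] at this
      simp only [pv_zero, one_mul, mul_one, coset] at this
      exact fval_line this rfl
    · have := hq.plane none (fun _ => false, fun _ => false) c rfl
      rw [pv_update_snd (fun _ => false, fun _ => false) _ rfl] at this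
      simp only [pv_zero, one_mul, mul_one, coset] at this
      rw [this]
  refine Bool.eq_iff_iff.2 ((fev_val ..).trans (Iff.trans ?_ (fev_val ..).symm))
  rw [← h1, ← h2, h3]

/-- A field is the same on its line. -/
lemma same_slide (u : K) {v w : Lat} {f : Fld k} (h : w ∈ keys f v) (b : FVal k) :
    Same (fev C g u v f b) (fev C g u w f b) := by
  let H : Subgroup Lat :=
    { carrier := {t | ∀ z, Same (fev C g u z f b) (fev C g u (z * t) f b)}
      one_mem' := fun z => by rw [mul_one]; exact same_det_refl (single_ctx _) (det_site _ _)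
      mul_mem' := fun {a c} ha hc z => by rw [← mul_assoc]; exact (ha z).trans (hc (z * a))
      inv_mem' := fun {a} ha z => by
        have := ha (z * a⁻¹)
        rw [mul_assoc, inv_mul_cancel, mul_one] at this
        exact this.symm }
  have hc : unitC (f.ax + 2) ∈ H := fun z => same_unit u z f b _ (.inl rfl)
  have hp : ∀ c, unitP c ∈ H := fun c z => same_unit u z f b _ (.inr ⟨c, rfl⟩)
  let d := Multiplicative.toAdd w - Multiplicative.toAdd v
  have hd : w = v * (unitC (f.ax + 2) ^ d.1 (f.ax + 2) * unitP 0 ^ d.2 0 * unitP 1 ^ d.2 1) := by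
    apply Multiplicative.toAdd.injective
    simp only [toAdd_mul, toAdd_zpow, unitC, unitP, toAdd_ofAdd]
    ext i
    · rcases (fin3_turn f.ax).2.2.2.2.2.2 i with rfl | rfl | rfl
      · simp [Pi.single_eq_of_ne (fin3_turn f.ax).2.2.2.2.1.symm, h.1]
      · simp [Pi.single_eq_of_ne (fin3_turn f.ax).2.2.2.2.2.1.symm, h.2]
      · simp [d]
    · fin_cases i <;> simp [d]
  have := H.mul_mem (H.mul_mem (H.zpow_mem hc (d.1 (f.ax + 2))) (H.zpow_mem (hp 0) (d.2 0)))
    (H.zpow_mem (hp 1) (d.2 1)) v
  rwa [← hd] at this

/-- A field commutes with the common letters of its line. -/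
lemma com_line (u : K) {v w : Lat} {f : Fld k} (h : w ∈ keys f v) :
    ComS C g (fldSite u v f) (comSite u w) := by
  intro a a'
  rcases a with a | b
  · refine com_det_of (ι := Empty) (single_ctx _) (single_ctx _) (det_site _ _) (det_site _ _)
      Empty.elim (fun i => i.elim) (fun p q _ _ _ => ?_) fun i => i.elim
    rw [Bool.eq_iff_iff, site_val, site_val]
    exact iff_of_false (fun h => absurd ((getP_fld f _).symm.trans h) (by simp))
      (fun h => absurd ((getP_fld f _).symm.trans h) (by simp))
  · exact (same_slide u h b).com (com₂_cell _ _ _ _ _)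

/-- A field with common letters on its line. -/
def lineSites (u : K) (v : Lat) (f : Fld k) (F : Finset Lat) : Finset (Site k K) :=
  insert (fldSite u v f) (comSites u F)

lemma fld_mem_line (u : K) (v : Lat) (f : Fld k) (F : Finset Lat) :
    fldSite u v f ∈ lineSites u v f F := mem_insert_self _ _

lemma com_mem_line (u : K) (v : Lat) (f : Fld k) {F : Finset Lat} {w : Lat} (h : w ∈ F) :
    comSite u w ∈ lineSites u v f F :=
  mem_insert_of_mem (mem_comSites.2 ⟨w, h, rfl⟩)

variable (C g) in
/-- A field with the value `b` at an event of common points. -/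
def cond (u : K) (v : Lat) (f : Fld k) (b : FVal k) (F : Finset Lat) (Q : C.S.X → Prop) :
    (cosetSFT C g).Obs :=
  Obs.and (fev C g u v f b) (cev C g u F Q)

lemma det_cond (u : K) (v : Lat) (f : Fld k) (b : FVal k) (F : Finset Lat) (Q : C.S.X → Prop) :
    Det (S := cosetSFT C g) (getS C g) (lineSites u v f F) (cond C g u v f b F Q) :=
  det_and ((det_site _ _).mono (singleton_subset_iff.2 (fld_mem_line u v f F)))
    ((det_cev u F Q).mono (subset_insert _ _))

lemma cev_iff (u : K) (F : Finset Lat) (Q : C.S.X → Prop) (p : K × Lat → Letter C) :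
    (cev C g u F Q).val p = true ↔ ∃ x : C.S.X, (∀ v ∈ F, x.1 v = (p (u, v)).1) ∧ Q x := by
  refine ev_val (S := cosetSFT C g) (get := getS C g) ?_ p
  rintro a b hab ⟨y, hy, hQy⟩
  refine ⟨y, fun v hv => ?_, hQy⟩
  have := hab (comSite u v) (mem_comSites.2 ⟨v, hv, rfl⟩)
  simp only [getS_com, getP, Sum.inl.injEq] at this
  rw [hy v hv, this]

lemma cond_val (u : K) (v : Lat) (f : Fld k) (b : FVal k) (F : Finset Lat) (Q : C.S.X → Prop)
    (p : K × Lat → Letter C) : (cond C g u v f b F Q).val p = true ↔
      fval f (p (u, v)).2 = b ∧ ∃ x : C.S.X, (∀ w ∈ F, x.1 w = (p (u, w)).1) ∧ Q x := by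
  refine Iff.trans ?_ (and_congr (fev_val (g := g) u v f b p) (cev_iff (g := g) u F Q p))
  exact Bool.and_eq_true_iff

lemma ctx_line {u : K} {v : Lat} {f : Fld k} {F : Finset Lat}
    (hg : Subgroup.closure (Set.range g) = ⊤) (hF : ↑F ⊆ keys f v) :
    CtxS C g ↑(lineSites u v f F) := by
  rw [lineSites, coe_insert, Set.insert_eq]
  refine commuting_union (by simpa using single_ctx (C := C) (g := g) (fldSite u v f))
    ((commuting_common C g hg).mono (comSites_common u F)) ?_
  intro e he e' he'
  rw [Set.mem_singleton_iff] at he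
  obtain ⟨w, hw, rfl⟩ := mem_comSites.1 he'
  subst he
  exact com_line u (hF hw)

variable (hg : Subgroup.closure (Set.range g) = ⊤)

include hg

/-- The same event along the line. -/
lemma cond_congr (u : K) {v w : Lat} {f : Fld k} (b : FVal k) {F F' : Finset Lat}
    {Q : C.S.X → Prop} (hw : w ∈ keys f v) (hF : ↑F ⊆ keys f v) (hF' : ↑F' ⊆ keys f v)
    (hQ : Local C Q F) (hQ' : Local C Q F') :
    Same (cond C g u v f b F Q) (cond C g u w f b F' Q) :=
  same_and (ctx_line hg hF) (ctx_line hg (by rw [keys_eq hw]; exact hF'))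
    ((det_site _ _).mono (singleton_subset_iff.2 (fld_mem_line u v f F)))
    ((det_cev u F Q).mono (subset_insert _ _))
    ((det_site _ _).mono (singleton_subset_iff.2 (fld_mem_line u w f F')))
    ((det_cev u F' Q).mono (subset_insert _ _))
    (same_slide u hw b) (same_cev C g hg u u hQ hQ' fun _ => Iff.rfl)

/-- A field commutes if it does in each case of a cover. -/
lemma com_of_cover {u : K} {v : Lat} {f : Fld k} {b : FVal k} {ι : Type} [Fintype ι]
    {F : Finset Lat} (hF : ↑F ⊆ keys f v) (hv : v ∈ F) (Q : ι → C.S.X → Prop)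
    (hcover : ∀ (x : C.S.X) (q : Letter C), LetterOK C q → q.1 = x.1 v → fval f q.2 = b →
      ∃ i, Q i x)
    {E' : Finset (Site k K)} (hE' : CtxS C g ↑E') {o' : (cosetSFT C g).Obs}
    (ho' : Det (S := cosetSFT C g) (getS C g) E' o')
    (hcom : ∀ i, Com (cond C g u v f b F (Q i)) o') : Com (fev C g u v f b) o' := by
  have x₀ : C.S.X := Classical.choice C.nonempty
  have hfe : ∀ F : Finset Lat, Det (S := cosetSFT C g) (getS C g) (lineSites u v f F)
      (fev C g u v f b) := fun F =>
    (det_site _ _).mono (singleton_subset_iff.2 (fld_mem_line u v f F))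
  have hempty : ↑(∅ : Finset Lat) ⊆ keys f v := by simp
  have htriv : ∀ F : Finset Lat, Local C (fun _ => True) F := fun _ _ _ _ _ => trivial
  have s1 : Same (fev C g u v f b) (cond C g u v f b ∅ fun _ => True) := by
    refine same_det (ctx_line hg hempty) (hfe ∅) (det_cond u v f b ∅ _) fun p _ => ?_
    refine Bool.eq_iff_iff.2 ((fev_val ..).trans (Iff.trans ?_ (cond_val ..).symm))
    exact ⟨fun h => ⟨h, x₀, by simp, trivial⟩, And.left⟩
  refine (s1.trans (cond_congr hg u b (mem_keys_self f v) hempty hF (htriv _) (htriv _))).com ?_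
  refine com_det_of (ι := ι) (ctx_line hg hF) hE' (det_cond u v f b F _) ho'
    (fun i => cond C g u v f b F (Q i)) (fun i => det_cond u v f b F _)
    (fun p q hp hq he => ?_) hcom
  have key : ∀ p, AdmS C g (lineSites u v f F) p →
      ((cond C g u v f b F fun _ => True).val p = true ↔
        ∃ i, (cond C g u v f b F (Q i)).val p = true) := by
    intro p hp
    constructor
    · intro h
      obtain ⟨h1, x, hx, -⟩ := (cond_val ..).1 h
      obtain ⟨l, hl, hlp⟩ := adm_cell hp u v
      have e1 := com_of_getP (hlp .com (com_mem_line u v f hv))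
      have e2 := fval_of_getP (hlp (.fld f) (fld_mem_line u v f F))
      obtain ⟨i, hi⟩ := hcover x l hl (e1.trans (hx v hv).symm) (e2.trans h1)
      exact ⟨i, (cond_val ..).2 ⟨h1, x, hx, hi⟩⟩
    · rintro ⟨i, h⟩
      obtain ⟨h1, x, hx, -⟩ := (cond_val ..).1 h
      exact (cond_val ..).2 ⟨h1, x, hx, trivial⟩
  rw [Bool.eq_iff_iff, key p hp, key q hq]
  simp [he]

/-- Two fields of one cell that agree wherever `Q` holds. -/
lemma cond_cross (u : K) (p : Lat) {f f' : Fld k} (b : FVal k) {F F' : Finset Lat}
    {Q : C.S.X → Prop} (hF : ↑F ⊆ keys f p) (hF' : ↑F' ⊆ keys f' p) (hQ : Local C Q F)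
    (hQ' : Local C Q F') (hp : p ∈ F) (hp' : p ∈ F')
    (heq : ∀ x, Q x → ∀ q : Letter C, LetterOK C q → q.1 = x.1 p → fval f q.2 = fval f' q.2) :
    Same (cond C g u p f b F Q) (cond C g u p f' b F' Q) := by
  let R : C.S.X → Prop := fun y => ∀ q : Letter C, LetterOK C q → q.1 = y.1 p →
    fval f q.2 = fval f' q.2
  let d (f : Fld k) : (cosetSFT C g).Obs := Obs.and (fev C g u p f b) (cev C g u {p} R)
  have hd : ∀ (f : Fld k) (F : Finset Lat), p ∈ F →
      Det (S := cosetSFT C g) (getS C g) (lineSites u p f F) (d f) := fun f F h =>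
    det_and ((det_site _ _).mono (singleton_subset_iff.2 (fld_mem_line u p f F)))
      ((det_cev u {p} R).mono ((image_subset_image (singleton_subset_iff.2 h)).trans
        (subset_insert _ _)))
  have step : ∀ (f : Fld k) (F : Finset Lat), ↑F ⊆ keys f p → p ∈ F →
      Same (cond C g u p f b F Q) (Obs.and (d f) (cev C g u F Q)) := by
    intro f F hF hp
    refine same_det (ctx_line hg hF) (det_cond ..)
      (det_and (hd f F hp) ((det_cev u F Q).mono (subset_insert _ _))) fun y _ => ?_
    simp only [cond, d, Obs.and_val]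
    cases h1 : (cev C g u F Q).val y
    · simp
    · obtain ⟨x, hx, hQx⟩ := (cev_iff u F Q y).1 h1
      have : (cev C g u {p} R).val y = true :=
        (cev_iff u {p} R y).2 ⟨x, by simpa using hx p hp, heq x hQx⟩
      simp [this]
  refine (step f F hF hp).trans (Same.trans ?_ (step f' F' hF' hp').symm)
  refine same_and (ctx_line hg hF) (ctx_line hg hF') (hd f F hp)
    ((det_cev u F Q).mono (subset_insert _ _)) (hd f' F' hp')
    ((det_cev u F' Q).mono (subset_insert _ _)) ?_ (same_cev C g hg u u hQ hQ' fun _ => Iff.rfl)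
  let E : Finset (Site k K) := {fldSite u p f, fldSite u p f', comSite u p}
  have hE : CtxS C g ↑E := (commuting_cell (u, p)).mono fun e he => by
    simp only [E, coe_insert, coe_singleton, Set.mem_insert_iff, Set.mem_singleton_iff] at he
    rcases he with rfl | rfl | rfl <;> rfl
  have hdE : ∀ f'' : Fld k, fldSite u p f'' ∈ E →
      Det (S := cosetSFT C g) (getS C g) E (d f'') := fun f'' h =>
    det_and ((det_site _ _).mono (singleton_subset_iff.2 h))
      ((det_cev u {p} R).mono (by simp [comSites, E]))
  refine same_det hE (hdE f (by simp [E])) (hdE f' (by simp [E])) fun y hy => ?_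
  simp only [d, Obs.and_val]
  cases h1 : (cev C g u {p} R).val y
  · simp
  · obtain ⟨x, hx, hR⟩ := (cev_iff u {p} R y).1 h1
    obtain ⟨l, hl, hlp⟩ := adm_cell hy u p
    have e1 := com_of_getP (hlp .com (by simp [E]))
    have e2 := fval_of_getP (hlp (.fld f) (by simp [E]))
    have e3 := fval_of_getP (hlp (.fld f') (by simp [E]))
    have := hR l hl (e1.trans (hx p (mem_singleton_self p)).symm)
    rw [Bool.and_true, Bool.and_true]
    refine Bool.eq_iff_iff.2 ((fev_val ..).trans (Iff.trans ?_ (fev_val ..).symm))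
    rw [← e2, ← e3, this]

end

end Vale.Agent.P193.W4.Rigid
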