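import Vale.Agent.P193.W4.Rigid.Field

/-!
P193, module W4, rigidity: fields at an atom of the common layer.

As one field commutes with the common layer, all parts of one cell and all common letters form a
context; inside it the rules of the cell relate the fields at an atom of phases.
-/

namespace Vale.Agent.P193.W4.Rigid

open BH BH.SFT Finset Coset
open scoped Classical

noncomputable section

variable {k : ℕ} {em : ℕ → Option (List (Full k))} {K : Type} [Group K]

lemma fval_eq_of_none (f : Fld k) {c c' : JCell k} (h : fsome (fval f c) = false)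
    (h' : fsome (fval f c') = false) : fval f c = fval f c' := by
  cases f <;> simp_all [fval, fsome]

variable {C : Common k em} {g : Fin k → K}

/-- It is enough to treat the values that are present. -/
lemma com_of_present {u : K} {v : Lat} {f : Fld k} {E' : Finset (Site k K)} (hE' : CtxS C g ↑E')
    {o' : (cosetSFT C g).Obs} (ho' : Det (S := cosetSFT C g) (getS C g) E' o')
    (h : ∀ b, fsome b = true → Com (fev C g u v f b) o') (a : Val C) :
    Com (site (getS C g) (fldSite u v f) a) o' := by
  by_cases hb : ∃ b, a = Sum.inr b ∧ fsome b = true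
  · obtain ⟨b, rfl, hb⟩ := hb
    exact h b hb
  refine com_det_of (ι := {b : FVal k // fsome b = true}) (single_ctx _) hE' (det_site _ _) ho'
    (fun b => fev C g u v f b.1) (fun b => det_site _ _) (fun p q _ _ he => ?_) fun b => h b.1 b.2
  rcases a with l | b
  · rw [Bool.eq_iff_iff, site_val, site_val]
    exact iff_of_false (fun h => absurd ((getP_fld f _).symm.trans h) (by simp))
      (fun h => absurd ((getP_fld f _).symm.trans h) (by simp))
  have hn : fsome b = false := by simpa using fun h' => hb ⟨b, rfl, h'⟩
  have key : ∀ p q : K × Lat → Letter C,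
      (∀ b : {b : FVal k // fsome b = true},
        (fev C g u v f b.1).val p = (fev C g u v f b.1).val q) →
      fval f (p (u, v)).2 = b → fval f (q (u, v)).2 = b := by
    intro p q he hp
    cases hs : fsome (fval f (q (u, v)).2)
    · exact (fval_eq_of_none f hs (by rw [hp]; exact hn)).trans hp
    · have h1 := he ⟨_, hs⟩
      rw [(fev_val u v f _ q).2 rfl] at h1
      have h2 : fval f (q (u, v)).2 = b := ((fev_val u v f _ p).1 h1).symm.trans hp
      rw [h2, hn] at hs
      simp at hs
  exact Bool.eq_iff_iff.2 ((fev_val ..).trans ((Iff.intro (key p q he)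
    (key q p fun b => (he b).symm)).trans (fev_val ..).symm))

variable (hg : Subgroup.closure (Set.range g) = ⊤)

include hg

/-- A field commutes with all common letters. -/
theorem com_field_common (u u' : K) (v c : Lat) (f : Fld k) :
    ComS C g (fldSite u v f) (comSite u' c) := by
  intro a a'
  refine com_of_present (single_ctx _) (det_site _ _) (fun b hb => ?_) a
  rcases a' with l | b'
  · exact (same_common C g hg u' u c (Sum.inl l)).com (com_fev_common hg u v c f hb l).symm
      |>.symm
  · refine Com.symm (com_det_of (ι := Empty) (single_ctx _) (single_ctx _) (det_site _ _)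
      (det_site _ _) Empty.elim (fun i => i.elim) (fun p q _ _ _ => ?_) fun i => i.elim)
    rw [Bool.eq_iff_iff, site_val, site_val]
    exact iff_of_false (fun h => by cases h) (fun h => by cases h)

omit hg

variable (C) in
/-- An atom of phases and cells on which it is seen. -/
structure Depth where
  N : ℕ
  x₀ : C.S.X
  U : Finset Lat
  loc : Local C (Ph C N x₀) U

/-- The sites of some fields with the common letters of their cells and of an atom. -/
def sites (D : Depth C) (u : K) (s : Finset (Lat × Fld k)) : Finset (Site k K) :=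
  (s.image fun e => fldSite u e.1 e.2) ∪ comSites u (s.image Prod.fst ∪ D.U)

variable (g) in
/-- A field with the value `b` at an atom. -/
def obs (D : Depth C) (u : K) (v : Lat) (f : Fld k) (b : FVal k) : (cosetSFT C g).Obs :=
  cond C g u v f b (insert v D.U) (Ph C D.N D.x₀)

lemma det_obs {D : Depth C} {u : K} {v : Lat} {f : Fld k} (b : FVal k)
    {s : Finset (Lat × Fld k)} (h : (v, f) ∈ s) :
    Det (S := cosetSFT C g) (getS C g) (sites D u s) (obs g D u v f b) := by
  refine (det_cond u v f b _ _).mono (insert_subset ?_ ?_)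
  · exact mem_union_left _ (mem_image.2 ⟨(v, f), h, rfl⟩)
  · refine (image_subset_image ?_).trans subset_union_right
    exact insert_subset (mem_union_left _ (mem_image.2 ⟨(v, f), h, rfl⟩)) subset_union_right

/-- All fields of one cell. -/
def cellFields (k : ℕ) (p : Lat) : Finset (Lat × Fld k) := univ.image fun f => (p, f)

lemma mem_cellFields (p : Lat) (f : Fld k) : (p, f) ∈ cellFields k p :=
  mem_image.2 ⟨f, mem_univ f, rfl⟩

include hg

lemma ctx_sites {D : Depth C} {u : K} {s : Finset (Lat × Fld k)}
    (h : ∀ e ∈ s, ∀ e' ∈ s, ComS C g (fldSite u e.1 e.2) (fldSite u e'.1 e'.2)) :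
    CtxS C g ↑(sites D u s) := by
  rw [sites, coe_union]
  refine commuting_union ?_ ((commuting_common C g hg).mono (comSites_common u _)) ?_
  · intro a ha a' ha'
    obtain ⟨e, he, rfl⟩ := mem_image.1 ha
    obtain ⟨e', he', rfl⟩ := mem_image.1 ha'
    exact h e he e' he'
  · intro a ha a' ha'
    obtain ⟨e, he, rfl⟩ := mem_image.1 ha
    obtain ⟨c, hc, rfl⟩ := mem_comSites.1 ha'
    exact com_field_common hg u u e.1 c e.2

lemma ctx_cell (D : Depth C) (u : K) (p : Lat) : CtxS C g ↑(sites D u (cellFields k p)) :=
  ctx_sites hg fun e he e' he' => by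
    obtain ⟨f, -, rfl⟩ := mem_image.1 he
    obtain ⟨f', -, rfl⟩ := mem_image.1 he'
    exact com₂_cell _ _ _

lemma ctx_one (D : Depth C) (u : K) (v : Lat) (f : Fld k) : CtxS C g ↑(sites D u {(v, f)}) :=
  ctx_sites hg fun e he e' he' => by
    rw [mem_singleton] at he he'
    subst he he'
    exact com₂_cell _ _ _

omit hg

variable {D : Depth C} {u : K}

lemma obs_val (v : Lat) (f : Fld k) (b : FVal k) (p : K × Lat → Letter C) :
    (obs g D u v f b).val p = true ↔ fval f (p (u, v)).2 = b ∧
      ∃ x : C.S.X, (∀ w ∈ insert v D.U, x.1 w = (p (u, w)).1) ∧ Ph C D.N D.x₀ x :=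
  cond_val ..

/-- The rules of one cell at an atom. -/
lemma cell_data {p : Lat} {y : K × Lat → Letter C} (hy : AdmS C g (sites D u (cellFields k p)) y)
    {f : Fld k} {b : FVal k} (h : (obs g D u p f b).val y = true) :
    ∃ x : C.S.X, Ph C D.N D.x₀ x ∧ (∀ w ∈ insert p D.U, x.1 w = (y (u, w)).1) ∧ ∃ c : JCell k,
      CellOK ((C.tower x).zs (pt p) 0) ((C.tower x).stAt (pt p) 0).flags
        ((C.tower x).stAt (pt p) 0).hit c ∧
      ∀ f : Fld k, fval f c = fval f (y (u, p)).2 := by
  obtain ⟨-, x, hx, hP⟩ := (obs_val ..).1 h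
  obtain ⟨l, hl, hlp⟩ := adm_cell hy u p
  refine ⟨x, hP, hx, l.2, cellOK_tower hl ?_, fun f => ?_⟩
  · refine (com_of_getP (hlp .com ?_)).trans (hx p (mem_insert_self p _)).symm
    exact mem_union_right _ (mem_comSites.2
      ⟨p, mem_union_left _ (mem_image.2 ⟨_, mem_cellFields p .B, rfl⟩), rfl⟩)
  · exact fval_of_getP (hlp (.fld f)
      (mem_union_left _ (mem_image.2 ⟨_, mem_cellFields p f, rfl⟩)))

/-- One field value implies another in a cell. -/
lemma cell_le {p : Lat} {f f' : Fld k} {b b' : FVal k}
    (h : ∀ x, Ph C D.N D.x₀ x → ∀ c, CellOK ((C.tower x).zs (pt p) 0)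
      ((C.tower x).stAt (pt p) 0).flags ((C.tower x).stAt (pt p) 0).hit c →
      fval f c = b → fval f' c = b')
    {y : K × Lat → Letter C} (hy : AdmS C g (sites D u (cellFields k p)) y)
    (hv : (obs g D u p f b).val y = true) : (obs g D u p f' b').val y = true := by
  obtain ⟨x, hP, hx, c, hc, hcy⟩ := cell_data hy hv
  refine (obs_val ..).2 ⟨?_, x, hx, hP⟩
  rw [← hcy f']
  exact h x hP c hc ((hcy f).trans ((obs_val ..).1 hv).1)

include hg

lemma cell_same {p : Lat} {f f' : Fld k} {b b' : FVal k}
    (h : ∀ x, Ph C D.N D.x₀ x → ∀ c, CellOK ((C.tower x).zs (pt p) 0)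
      ((C.tower x).stAt (pt p) 0).flags ((C.tower x).stAt (pt p) 0).hit c →
      (fval f c = b ↔ fval f' c = b')) :
    Same (obs g D u p f b) (obs g D u p f' b') :=
  same_det (ctx_cell hg D u p) (det_obs b (mem_cellFields p f)) (det_obs b' (mem_cellFields p f'))
    fun _ hy => Bool.eq_iff_iff.2 ⟨cell_le (fun x hx c hc => (h x hx c hc).1) hy,
      cell_le (fun x hx c hc => (h x hx c hc).2) hy⟩

lemma cell_com (p : Lat) (f f' : Fld k) (b b' : FVal k) :
    Com (obs g D u p f b) (obs g D u p f' b') :=
  com_det (ctx_cell hg D u p) (ctx_cell hg D u p) (det_obs b (mem_cellFields p f))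
    (det_obs b' (mem_cellFields p f')) fun e he e' he' => ctx_cell hg D u p e he e' he'

lemma cell_null {p : Lat} {f : Fld k} {b : FVal k}
    (h : ∀ x, Ph C D.N D.x₀ x → ∀ c, CellOK ((C.tower x).zs (pt p) 0)
      ((C.tower x).stAt (pt p) 0).flags ((C.tower x).stAt (pt p) 0).hit c → fval f c ≠ b) :
    Null (obs g D u p f b) := by
  have hd := det_obs (g := g) (D := D) (u := u) b (mem_cellFields p f)
  refine null_of_false (ctx_of_commuting (ctx_cell hg D u p)) hd.supp hd.thru fun y hy => ?_
  by_contra hn
  obtain ⟨x, hP, -, c, hc, hcy⟩ := cell_data (adm_of_class hy) (by simpa using hn)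
  exact h x hP c hc ((hcy f).trans ((obs_val ..).1 (by simpa using hn)).1)

omit hg in
lemma com_null {o o' : (cosetSFT C g).Obs} {E' : Finset (Site k K)} (hE' : CtxS C g ↑E')
    (ho' : Det (S := cosetSFT C g) (getS C g) E' o') (h : Null o) : Com o o' :=
  h.com (ctx_det hE' ho') ho'.thru

/-- A field at an atom is the same on its line. -/
lemma obs_slide {v w : Lat} {f : Fld k} (b : FVal k) (h : w ∈ keys f v) :
    Same (obs g D u v f b) (obs g D u w f b) := by
  have hfv : (v, f) ∈ ({(v, f)} : Finset (Lat × Fld k)) := mem_singleton_self _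
  have hfw : (w, f) ∈ ({(w, f)} : Finset (Lat × Fld k)) := mem_singleton_self _
  have hL : ∀ (v : Lat) (F : Finset Lat), CtxS C g ↑(lineSites u v f F) := by
    intro v F
    rw [lineSites, coe_insert, Set.insert_eq]
    refine commuting_union (by simpa using single_ctx (C := C) (g := g) (fldSite u v f))
      ((commuting_common C g hg).mono (comSites_common u F)) ?_
    intro e he e' he'
    rw [Set.mem_singleton_iff] at he
    obtain ⟨c, -, rfl⟩ := mem_comSites.1 he'
    subst he
    exact com_field_common hg u u v c f
  exact same_and (hL v _) (hL w _)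
    ((det_site _ _).mono (singleton_subset_iff.2 (fld_mem_line u v f _)))
    ((det_cev u _ _).mono (subset_insert _ _))
    ((det_site _ _).mono (singleton_subset_iff.2 (fld_mem_line u w f _)))
    ((det_cev u _ _).mono (subset_insert _ _)) (same_slide u h b)
    (same_cev C g hg u u (D.loc.mono (subset_insert v _)) (D.loc.mono (subset_insert w _))
      fun _ => Iff.rfl)

end

end Vale.Agent.P193.W4.Rigid
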