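import Vale.Agent.P193.W4.Tower.Line
import Vale.Agent.P193.W4.Coset.Fold
import Vale.Agent.P193.W4.Rigid.Common

/-!
P193, module W4, rigidity: phases of a tower up to a level, and what a field needs to be present.
-/

namespace Vale.Agent.P193.W4

open BH
open scoped Classical

variable {k : ℕ} {em : ℕ → Option (List (Full k))}

namespace Tower

/-- The digits of one cell up to a level determine the tiles of all cells up to the level above. -/
lemma same_phase (T T' : Tower k em) (a : Fin 3 → ℤ) :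
    ∀ {n}, (∀ m, m ≤ n → T.digit a m = T'.digit a m) →
      ∀ m, m ≤ n + 1 → ∀ v, T.tile v m = T'.tile v m := by
  intro n h m
  induction m with
  | zero => intro _ v; rfl
  | succ m ih =>
    intro hm v
    have hs : ∀ i, T.shift m i = T'.shift m i := fun i => by
      have e : (T.tile a m i + (T.shift m i).val) % (base k : ℤ) =
          (T'.tile a m i + (T'.shift m i).val) % (base k : ℤ) := by
        have hb : (base k : ℤ) ≠ 0 := (base_pos_int k).ne'
        have := congrArg (fun d => (Fin.val d : ℤ)) (congrFun (h m (by omega)) i)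
        simpa [digit, Int.toNat_of_nonneg, Int.emod_nonneg _ hb] using this
      rw [ih (by omega) a] at e
      have e2 := (Int.ModEq.add_left_cancel' _ e).eq
      rw [Int.emod_eq_of_lt (Int.natCast_nonneg _) (by exact_mod_cast (T.shift m i).isLt),
        Int.emod_eq_of_lt (Int.natCast_nonneg _) (by exact_mod_cast (T'.shift m i).isLt)] at e2
      exact Fin.ext (by exact_mod_cast e2)
    funext i
    show (T.tile v m i + _) / _ = (T'.tile v m i + _) / _
    rw [ih (by omega) v, hs i]

/-- The digits of one cell up to a level determine those of all cells. -/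
lemma same_digit (T T' : Tower k em) (a : Fin 3 → ℤ) {n : ℕ}
    (h : ∀ m, m ≤ n → T.digit a m = T'.digit a m) (v : Fin 3 → ℤ) :
    ∀ m, m ≤ n → T.digit v m = T'.digit v m := by
  intro m hm
  funext i
  have e0 := T.same_phase T' a h m (by omega)
  have e1 := congrFun (T.same_phase T' a h (m + 1) (by omega) v) i
  have hT := Axis.step_eq (fun l => T.shift l i) (v i) m
  have hT' := Axis.step_eq (fun l => T'.shift l i) (v i) m
  have ha := Axis.step_eq (fun l => T.shift l i) (a i) m
  have ha' := Axis.step_eq (fun l => T'.shift l i) (a i) m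
  have hd : (T.digit a m i).val = (T'.digit a m i).val := by rw [h m hm]
  have hp := congrFun (T.same_phase T' a h (m + 1) (by omega) a) i
  have h0v := congrFun (e0 v) i
  have h0a := congrFun (e0 a) i
  simp only [tile_eq_up] at e1 hp h0v h0a
  simp only [digit_eq_dig] at hd ⊢
  refine Fin.ext ?_
  have hdz : ((Axis.dig (fun l => T.shift l i) (a i) m).val : ℤ) =
      (Axis.dig (fun l => T'.shift l i) (a i) m).val := by exact_mod_cast hd
  rw [e1, h0v] at hT
  rw [hp, h0a] at ha
  omega

/-- A symbol is a middle digit. -/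
lemma middleBelow_of_zs {T : Tower k em} {v : Fin 3 → ℤ} {n : ℕ} {i : Fin 3}
    (h : ∀ m, m < n → (T.zs v m i).isSome) : T.MiddleBelow v n i := fun m hm => by
  obtain ⟨s, hs⟩ := Option.isSome_iff_exists.1 (h m hm)
  exact sym_middle hs

end Tower

namespace Rigid

/-- The key axis of a field; the next axis is its other key. -/
def Fld.ax : Fld k → Fin 3
  | .J i => i
  | .B => 0
  | .Q i _ => i

/-- The field crossed on the free axis at a marker. -/
def Fld.turn : Fld k → Fld k
  | .J i => .J (i + 2)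
  | .B => .J 2
  | .Q i s => .Q (i + 2) s

lemma Fld.ax_turn (f : Fld k) : f.turn.ax = f.ax + 2 := by cases f <;> rfl

/-- The marker of a field. -/
def Fld.mark : Fld k → Mid k
  | .J _ => .hash
  | .B => .hash
  | .Q _ _ => .phash

lemma Fld.mark_turn (f : Fld k) : f.turn.mark = f.mark := by cases f <;> rfl

/-- A symbol on the key axis of a field below its marker. -/
def Fld.IsLet : Fld k → Option (Mid k) → Prop
  | .Q _ _, z => ∃ b, z = some (.pad b)
  | _, z => ∃ d, z = some (.full d)

lemma Fld.isLet_turn (f : Fld k) {z : Option (Mid k)} : f.turn.IsLet z ↔ f.IsLet z := by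
  cases f <;> exact Iff.rfl

lemma Fld.IsLet.isSome {f : Fld k} {z : Option (Mid k)} (h : f.IsLet z) : z.isSome := by
  cases f <;> obtain ⟨d, rfl⟩ := h <;> rfl

/-- The symbol on the second key of a field from the one on its key; `s` is the track of a
bridge. -/
def Fld.sec : Fld k → Option (Fin k) → Mid k → Mid k
  | .B, s, .full d => .pad (d s)
  | _, _, z => z

lemma Fld.sec_turn (f : Fld k) (s : Option (Fin k)) (z : Mid k) : f.turn.sec s z = z := by
  cases f <;> rfl

/-- The flag of a field; a bridge has one for each track. -/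
def Fld.bit : Fld k → Option (Fin k) → Flags k → Bool
  | .J i, _, f => f.eq i
  | .B, s, f => f.br s
  | .Q i _, _, f => f.peq i

/-- The field is present. -/
def Fld.On : Fld k → Flags k → Prop
  | .J i, f => f.eq i = true
  | .B, f => f.HasB
  | .Q i _, f => f.peq i = true

lemma fin3_turn (i : Fin 3) : i + 2 + 1 = i ∧ i + 2 + 2 = i + 1 ∧ i + 1 + 2 = i ∧
    i + 1 ≠ i ∧ i + 2 ≠ i ∧ i + 2 ≠ i + 1 ∧ ∀ j, j = i ∨ j = i + 1 ∨ j = i + 2 := by
  revert i; decide

lemma descend {F A B : ℕ → Prop} (h : ∀ n, F n → A n ∨ B n ∧ F (n + 1)) (h0 : F 0) :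
    ∀ N, (∃ n, n < N ∧ A n ∧ ∀ l, l < n → B l) ∨ ((∀ l, l < N → B l) ∧ F N)
  | 0 => .inr ⟨fun l hl => absurd hl (Nat.not_lt_zero l), h0⟩
  | N + 1 => by
    rcases descend h h0 N with ⟨n, hn, ha, hb⟩ | ⟨hb, hF⟩
    · exact .inl ⟨n, by omega, ha, hb⟩
    · rcases h N hF with ha | ⟨hB, hF'⟩
      · exact .inl ⟨N, by omega, ha, hb⟩
      · refine .inr ⟨fun l hl => ?_, hF'⟩
        rcases Nat.lt_succ_iff_lt_or_eq.1 hl with hl | rfl
        exacts [hb l hl, hB]

variable (T : Tower k em)

/-- The field at `v` has its marker at level `n`. -/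
structure Short (f : Fld k) (v : Fin 3 → ℤ) (n : ℕ) : Prop where
  mark : T.zs v n f.ax = some f.mark
  letters : ∀ l, l < n → f.IsLet (T.zs v l f.ax)
  track : ∃ s, ∀ l, l < n → T.zs v l (f.ax + 1) = (T.zs v l f.ax).map (f.sec s)
  present : f.On (T.stAt v 0).flags

/-- The field at `v` shows symbols on its keys below level `n`. -/
structure Long (f : Fld k) (v : Fin 3 → ℤ) (n : ℕ) : Prop where
  letters : ∀ l, l < n → f.IsLet (T.zs v l f.ax)
  track : ∃ s, ∀ l, l < n → T.zs v l (f.ax + 1) = (T.zs v l f.ax).map (f.sec s)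

variable {T}

lemma Long.second {f : Fld k} {v : Fin 3 → ℤ} {n : ℕ} (h : Long T f v n) {l : ℕ} (hl : l < n) :
    (T.zs v l (f.ax + 1)).isSome := by
  obtain ⟨s, hs⟩ := h.track
  rw [hs l hl, Option.isSome_map]
  exact (h.letters l hl).isSome

lemma Short.second {f : Fld k} {v : Fin 3 → ℤ} {n : ℕ} (h : Short T f v n) {l : ℕ} (hl : l < n) :
    (T.zs v l (f.ax + 1)).isSome := by
  obtain ⟨s, hs⟩ := h.track
  rw [hs l hl, Option.isSome_map]
  exact (h.letters l hl).isSome

lemma on_step {f : Fld k} {s : Option (Fin k)} {n : ℕ} {v : Fin 3 → ℤ}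
    (h : f.bit s (T.stAt v n).flags = true) :
    T.zs v n f.ax = some f.mark ∨ (f.IsLet (T.zs v n f.ax) ∧
      T.zs v n (f.ax + 1) = (T.zs v n f.ax).map (f.sec s)) ∧
      f.bit s (T.stAt v (n + 1)).flags = true := by
  cases f with
  | J i =>
    simp only [Fld.ax, Fld.mark, Fld.IsLet, Fld.bit] at h ⊢
    rw [T.flags_step] at h
    simp only [Flags.step] at h
    rcases hz : T.zs v n i with _ | m <;> rw [hz] at h
    · simp at h
    cases m with
    | hash => exact .inl rfl
    | full d =>
      simp only [Bool.and_eq_true, decide_eq_true_eq] at h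
      exact .inr ⟨⟨⟨d, rfl⟩, by rw [h.2]; rfl⟩, h.1⟩
    | _ => simp at h
  | B =>
    simp only [Fld.ax, Fld.mark, Fld.IsLet, Fld.bit] at h ⊢
    rw [T.flags_step] at h
    simp only [Flags.step] at h
    rcases hz : T.zs v n 0 with _ | m <;> rw [hz] at h
    · simp at h
    cases m with
    | hash => exact .inl rfl
    | full d =>
      simp only [Bool.and_eq_true, decide_eq_true_eq] at h
      exact .inr ⟨⟨⟨d, rfl⟩, by rw [show (0 : Fin 3) + 1 = 1 from rfl, h.2]; rfl⟩, h.1⟩
    | _ => simp at h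
  | Q i t =>
    simp only [Fld.ax, Fld.mark, Fld.IsLet, Fld.bit] at h ⊢
    rw [T.flags_step] at h
    simp only [Flags.step] at h
    rcases hz : T.zs v n i with _ | m <;> rw [hz] at h
    · simp at h
    cases m with
    | phash => exact .inl rfl
    | pad b =>
      simp only [Bool.and_eq_true, decide_eq_true_eq] at h
      exact .inr ⟨⟨⟨b, rfl⟩, by rw [h.2]; rfl⟩, h.1⟩
    | _ => simp at h

/-- A present field has a marker below any level or symbols below it. -/
lemma on_cases (f : Fld k) (v : Fin 3 → ℤ) (h : f.On (T.stAt v 0).flags) (N : ℕ) :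
    (∃ n, n < N ∧ Short T f v n) ∨ Long T f v N := by
  obtain ⟨s, hs⟩ : ∃ s, f.bit s (T.stAt v 0).flags = true := by
    cases f with
    | J i => exact ⟨none, h⟩
    | B => exact h
    | Q i t => exact ⟨none, h⟩
  rcases descend (F := fun n => f.bit s (T.stAt v n).flags = true)
    (A := fun n => T.zs v n f.ax = some f.mark)
    (B := fun n => f.IsLet (T.zs v n f.ax) ∧
      T.zs v n (f.ax + 1) = (T.zs v n f.ax).map (f.sec s))
    (fun n hn => on_step hn) hs N with ⟨n, hn, ha, hb⟩ | ⟨hb, -⟩
  · exact .inl ⟨n, hn, ha, fun l hl => (hb l hl).1, ⟨s, fun l hl => (hb l hl).2⟩, h⟩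
  · exact .inr ⟨fun l hl => (hb l hl).1, ⟨s, fun l hl => (hb l hl).2⟩⟩

lemma Long.middle {f : Fld k} {v : Fin 3 → ℤ} {n : ℕ} (h : Long T f v n) :
    ∀ j, j = f.ax ∨ j = f.ax + 1 → T.MiddleBelow v n j := by
  rintro j (rfl | rfl) <;> refine Tower.middleBelow_of_zs fun m hm => ?_
  exacts [(h.letters m hm).isSome, h.second hm]

lemma Short.long {f : Fld k} {v : Fin 3 → ℤ} {n : ℕ} (h : Short T f v n) : Long T f v n :=
  ⟨h.letters, h.track⟩

/-- Below its marker a field is decided by the symbols there. -/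
lemma on_congr {T' : Tower k em} {f : Fld k} {v v' : Fin 3 → ℤ} {n : ℕ}
    (hz : ∀ l, l ≤ n → ∀ j, j = f.ax ∨ j = f.ax + 1 → T.zs v l j = T'.zs v' l j)
    (hm : T.zs v n f.ax = some f.mark) (h : f.On (T.stAt v 0).flags) :
    f.On (T'.stAt v' 0).flags := by
  cases f with
  | J i =>
    simp only [Fld.On, Fld.ax, Fld.mark] at h hm hz ⊢
    suffices key : ∀ l ≤ n, (T.stAt v l).flags.eq i = (T'.stAt v' l).flags.eq i by
      rw [← key 0 (Nat.zero_le n)]; exact h
    intro l hl
    induction hl using Nat.decreasingInduction with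
    | self =>
      rw [Tower.flags_step T v n, Tower.flags_step T' v' n]
      simp [Flags.step, ← hz n le_rfl i (.inl rfl), hm]
    | of_succ l hl ih =>
      rw [Tower.flags_step T v l, Tower.flags_step T' v' l]
      simp [Flags.step, ih,
        hz l hl.le i (.inl rfl), hz l hl.le (i + 1) (.inr rfl)]
  | B =>
    simp only [Fld.On, Fld.ax, Fld.mark] at h hm hz ⊢
    suffices key : ∀ l ≤ n, ∀ s, (T.stAt v l).flags.br s = (T'.stAt v' l).flags.br s by
      obtain ⟨s, hs⟩ := h
      exact ⟨s, by rw [← key 0 (Nat.zero_le n) s]; exact hs⟩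
    intro l hl
    induction hl using Nat.decreasingInduction with
    | self =>
      intro s
      rw [Tower.flags_step T v n, Tower.flags_step T' v' n]
      simp [Flags.step, ← hz n le_rfl 0 (.inl rfl),
        ← hz n le_rfl 1 (.inr rfl), hm]
    | of_succ l hl ih =>
      intro s
      rw [Tower.flags_step T v l, Tower.flags_step T' v' l]
      simp [Flags.step, ih s,
        hz l hl.le 0 (.inl rfl), hz l hl.le 1 (.inr rfl)]
  | Q i t =>
    simp only [Fld.On, Fld.ax, Fld.mark] at h hm hz ⊢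
    suffices key : ∀ l ≤ n, (T.stAt v l).flags.peq i = (T'.stAt v' l).flags.peq i by
      rw [← key 0 (Nat.zero_le n)]; exact h
    intro l hl
    induction hl using Nat.decreasingInduction with
    | self =>
      rw [Tower.flags_step T v n, Tower.flags_step T' v' n]
      simp [Flags.step, ← hz n le_rfl i (.inl rfl), hm]
    | of_succ l hl ih =>
      rw [Tower.flags_step T v l, Tower.flags_step T' v' l]
      simp [Flags.step, ih,
        hz l hl.le i (.inl rfl), hz l hl.le (i + 1) (.inr rfl)]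

/-- Fields are decided by their keys. -/
lemma on_keys {f : Fld k} {v w : Fin 3 → ℤ} (h0 : v f.ax = w f.ax)
    (h1 : v (f.ax + 1) = w (f.ax + 1)) (h : f.On (T.stAt v 0).flags) :
    f.On (T.stAt w 0).flags := by
  cases f with
  | J i =>
    show (T.st 0 w).flags.eq i = true
    rw [← (T.kind_congr 0 (i := i) (t := v) (t' := w) h0 h1).1]
    exact h
  | B =>
    obtain ⟨s, hs⟩ := h
    refine ⟨s, ?_⟩
    show (T.st 0 w).flags.br s = true
    rw [← T.br_congr 0 (t := v) (t' := w) h0 h1]
    exact hs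
  | Q i s =>
    show (T.st 0 w).flags.peq i = true
    rw [← (T.kind_congr 0 (i := i) (t := v) (t' := w) h0 h1).2.1]
    exact h

variable {C : Common k em}

variable (C) in
/-- The points with the phases of `x₀` up to level `n`. -/
def Ph (n : ℕ) (x₀ x : C.S.X) : Prop :=
  ∀ m, m ≤ n → (C.tower x).digit 0 m = (C.tower x₀).digit 0 m

lemma Ph.digit {n : ℕ} {x₀ x : C.S.X} (h : Ph C n x₀ x) (v : Fin 3 → ℤ) {m : ℕ} (hm : m ≤ n) :
    (C.tower x).digit v m = (C.tower x₀).digit v m :=
  Tower.same_digit _ _ 0 h v m hm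

lemma Ph.zs {n : ℕ} {x₀ x : C.S.X} (h : Ph C n x₀ x) (v : Fin 3 → ℤ) {m : ℕ} (hm : m ≤ n)
    (i : Fin 3) : (C.tower x).zs v m i = (C.tower x₀).zs v m i := by
  rw [Tower.zs, h.digit v hm, Tower.zs]

lemma Ph.tile {n : ℕ} {x₀ x : C.S.X} (h : Ph C n x₀ x) (v : Fin 3 → ℤ) {m : ℕ} (hm : m ≤ n + 1) :
    (C.tower x).tile v m = (C.tower x₀).tile v m :=
  Tower.same_phase _ _ 0 h m hm v

lemma Ph.mono {n n' : ℕ} {x₀ x : C.S.X} (h : Ph C n x₀ x) (hn : n' ≤ n) : Ph C n' x₀ x :=
  fun m hm => h m (hm.trans hn)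

lemma Ph.short {n : ℕ} {x₀ x : C.S.X} {f : Fld k} {v : Fin 3 → ℤ} (h : Ph C n x₀ x)
    (hs : Short (C.tower x₀) f v n) : Short (C.tower x) f v n :=
  ⟨by rw [h.zs v le_rfl]; exact hs.mark, fun l hl => by rw [h.zs v hl.le]; exact hs.letters l hl,
    hs.track.imp fun s e l hl => by rw [h.zs v hl.le, h.zs v hl.le]; exact e l hl,
    on_congr (fun l hl j _ => (h.zs v hl j).symm) hs.mark hs.present⟩

lemma Ph.long {n m : ℕ} {x₀ x : C.S.X} {f : Fld k} {v : Fin 3 → ℤ} (h : Ph C n x₀ x)
    (hm : m ≤ n + 1) (hs : Long (C.tower x₀) f v m) : Long (C.tower x) f v m :=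
  ⟨fun l hl => by rw [h.zs v (by omega)]; exact hs.letters l hl,
    hs.track.imp fun s e l hl => by
      rw [h.zs v (show l ≤ n by omega), h.zs v (show l ≤ n by omega)]; exact e l hl⟩

variable (C) in
lemma exists_local_ph (n : ℕ) (x₀ : C.S.X) : ∃ U, Local C (Ph C n x₀) U := by
  obtain ⟨U, hU⟩ := C.local_tower ((0, 0) : V) n
  exact ⟨U, fun x y e h m hm => ((hU x y e).1 m hm).symm.trans (h m hm)⟩

end Rigid

end Vale.Agent.P193.W4
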