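import Vale.Agent.P193.W4.Rigid.Pair

/-!
P193, module W4, rigidity: a short field is the slot of its word, and every field is below the slot
of each shorter word of its symbols.
-/

namespace Vale.Agent.P193.W4.Rigid

open BH BH.SFT Finset Coset
open scoped Classical

noncomputable section

variable {k : ℕ} {em : ℕ → Option (List (Full k))}

/-- The field standing for a family. -/
def Fld.std : Fld k → Fld k
  | .J _ => .J 0
  | .B => .J 0
  | .Q _ s => .Q 0 s

lemma Fld.std_turn (f : Fld k) : f.turn.std = f.std := by cases f <;> rfl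

lemma Fld.mark_std (f : Fld k) : f.std.mark = f.mark := by cases f <;> rfl

/-- The value given by a symbol. -/
def Fld.lval : Fld k → Option (Mid k) → FVal k
  | .Q _ _, z => .inr (z.bind Tower.padOf)
  | _, z => .inl (z.bind Tower.fullOf)

lemma Fld.lval_turn (f : Fld k) (z : Option (Mid k)) : f.turn.lval z = f.lval z := by
  cases f <;> rfl

lemma Fld.lval_std (f : Fld k) (z : Option (Mid k)) : f.std.lval z = f.lval z := by
  cases f <;> rfl

lemma Fld.lval_present {f : Fld k} {z : Option (Mid k)} (h : f.IsLet z) :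
    fsome (f.lval z) = true := by
  cases f <;> obtain ⟨d, rfl⟩ := h <;> rfl

lemma Fld.lval_inj {f : Fld k} {z z' : Option (Mid k)} (h : f.IsLet z) (h' : f.IsLet z')
    (e : f.lval z = f.lval z') : z = z' := by
  cases f <;> obtain ⟨d, rfl⟩ := h <;> obtain ⟨d', rfl⟩ := h' <;>
    simp_all [Fld.lval, Tower.fullOf, Tower.padOf]

variable {T : Tower k em}

/-- At a marker on the free axis the field turned to is decided by the next symbol. -/
lemma cross {f : Fld k} {p : Fin 3 → ℤ} {n : ℕ} (hm : T.zs p n (f.ax + 2) = some f.mark)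
    (he : ∀ l, l < n → T.zs p l (f.ax + 2) = T.zs p l f.ax)
    (hl : ∀ l, l ≤ n → f.IsLet (T.zs p l f.ax)) :
    Short T f.turn p n ∧ ∀ c, CellOK (T.zs p 0) (T.stAt p 0).flags (T.stAt p 0).hit c →
      (fsome (fval f c) = true → fval f.turn c = f.lval (T.zs p n f.ax)) ∧
      (T.zs p (n + 1) f.ax = some f.mark → f.On (T.stAt p 0).flags →
        (fval f.turn c = f.lval (T.zs p n f.ax) ↔ fsome (fval f c) = true)) := by
  have hlet : ∀ l, l < n → f.turn.IsLet (T.zs p l f.turn.ax) := fun l h => by
    rw [Fld.isLet_turn, Fld.ax_turn, he l h]; exact hl l h.le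
  have htr : ∃ s, ∀ l, l < n →
      T.zs p l (f.turn.ax + 1) = (T.zs p l f.turn.ax).map (f.turn.sec s) := ⟨none, fun l h => by
    rw [Fld.ax_turn, (fin3_turn f.ax).1, he l h, funext (Fld.sec_turn f none)]
    simp⟩
  have hmark : T.zs p n f.turn.ax = some f.turn.mark := by
    rw [Fld.ax_turn, Fld.mark_turn]; exact hm
  suffices key : f.turn.On (T.stAt p 0).flags ∧
      ∀ c, CellOK (T.zs p 0) (T.stAt p 0).flags (T.stAt p 0).hit c →
      (fsome (fval f c) = true → fval f.turn c = f.lval (T.zs p n f.ax)) ∧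
      (T.zs p (n + 1) f.ax = some f.mark → f.On (T.stAt p 0).flags →
        (fval f.turn c = f.lval (T.zs p n f.ax) ↔ fsome (fval f c) = true)) from
    ⟨⟨hmark, hlet, htr, key.1⟩, key.2⟩
  cases f with
  | J i =>
    simp only [Fld.ax, Fld.IsLet, Fld.mark, Fld.turn] at he hl hm
    choose d hd using fun l (h : l < n) => hl l h.le
    obtain ⟨e, he'⟩ := hl n le_rfl
    have e3 := (fin3_turn i).1
    have hσ : (List.ofFn fun l : Fin n => d l l.2).length = n := List.length_ofFn
    have hL : T.Line p (i + 2) (List.ofFn fun l : Fin n => d l l.2) := by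
      refine ⟨by rw [hσ]; exact hm, fun l h => ?_⟩
      have h' : l < n := hσ ▸ h
      simp only [List.getElem_ofFn]
      exact ⟨(he l h').trans (hd l h'), by rw [e3]; exact hd l h'⟩
    obtain ⟨heq, hrel⟩ := hL.flags 0 (Nat.zero_le _)
    refine ⟨heq, fun c hc => ?_⟩
    have hn : (T.stAt p 0).flags.eq i = true → (if T.zs p (n + 1) i = some .hash
        then (Rel.next e) else (Rel.later e)).Holds (c.J (i + 2)) (c.J i) := by
      intro hon
      have := hc.nested (i + 2) heq (by rw [e3]; exact hon)
      rw [hrel, e3, hσ, he'] at this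
      simpa [Tower.relTop, Tower.fullOf] using this
    simp only [fval, fsome, Fld.lval, Fld.ax, Fld.mark, Fld.On, Fld.turn, he', Option.bind_some,
      Tower.fullOf, Sum.inl.injEq]
    refine ⟨fun h => ?_, fun hh hon => ?_⟩
    · have h1 := hn (by by_contra h0; simp [hc.absentJ i (by simpa using h0)] at h)
      split at h1
      exacts [h1.2 h, h1 h]
    · have h1 := hn hon
      rw [if_pos hh] at h1
      exact h1
  | B =>
    simp only [Fld.ax, Fld.IsLet, Fld.mark, Fld.turn] at he hl hm
    choose d hd using fun l (h : l < n) => hl l h.le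
    obtain ⟨e, he'⟩ := hl n le_rfl
    have hσ : (List.ofFn fun l : Fin n => d l l.2).length = n := List.length_ofFn
    have hL : T.Line p 2 (List.ofFn fun l : Fin n => d l l.2) := by
      refine ⟨by rw [hσ]; exact hm, fun l h => ?_⟩
      have h' : l < n := hσ ▸ h
      simp only [List.getElem_ofFn]
      exact ⟨(he l h').trans (hd l h'), hd l h'⟩
    obtain ⟨heq, hrel⟩ := hL.flags 0 (Nat.zero_le _)
    refine ⟨heq, fun c hc => ?_⟩
    have hn : (T.stAt p 0).flags.HasB → (if T.zs p (n + 1) 0 = some .hash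
        then (Rel.next e) else (Rel.later e)).Holds (c.J 2) c.B := by
      intro hon
      have := hc.nestedB heq hon
      rw [hrel, hσ, show (2 : Fin 3) + 1 = 0 from rfl, he'] at this
      simpa [Tower.relTop, Tower.fullOf] using this
    simp only [fval, fsome, Fld.lval, Fld.ax, Fld.mark, Fld.On, Fld.turn, he', Option.bind_some,
      Tower.fullOf, Sum.inl.injEq]
    refine ⟨fun h => ?_, fun hh hon => ?_⟩
    · have h1 := hn (by by_contra h0; simp [hc.absentB h0] at h)
      split at h1
      exacts [h1.2 h, h1 h]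
    · have h1 := hn hon
      rw [if_pos hh] at h1
      exact h1
  | Q i s =>
    simp only [Fld.ax, Fld.IsLet, Fld.mark, Fld.turn] at he hl hm
    choose d hd using fun l (h : l < n) => hl l h.le
    obtain ⟨e, he'⟩ := hl n le_rfl
    have e3 := (fin3_turn i).1
    have hσ : (List.ofFn fun l : Fin n => d l l.2).length = n := List.length_ofFn
    have hL : T.PLine p (i + 2) (List.ofFn fun l : Fin n => d l l.2) := by
      refine ⟨by rw [hσ]; exact hm, fun l h => ?_⟩
      have h' : l < n := hσ ▸ h
      simp only [List.getElem_ofFn]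
      exact ⟨(he l h').trans (hd l h'), by rw [e3]; exact hd l h'⟩
    obtain ⟨heq, hrel⟩ := hL.flags 0 (Nat.zero_le _)
    refine ⟨heq, fun c hc => ?_⟩
    have hn : (T.stAt p 0).flags.peq i = true → (if T.zs p (n + 1) i = some .phash
        then (Rel.next e) else (Rel.later e)).Holds (c.Q (i + 2) s) (c.Q i s) := by
      intro hon
      have := hc.nestedQ (i + 2) s heq (by rw [e3]; exact hon)
      rw [hrel, e3, hσ, he'] at this
      simpa [Tower.relTop, Tower.padOf] using this
    simp only [fval, fsome, Fld.lval, Fld.ax, Fld.mark, Fld.On, Fld.turn, he', Option.bind_some,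
      Tower.padOf, Sum.inr.injEq]
    refine ⟨fun h => ?_, fun hh hon => ?_⟩
    · have h1 := hn (by by_contra h0; simp [hc.absentQ i s (by simpa using h0)] at h)
      split at h1
      exacts [h1.2 h, h1 h]
    · have h1 := hn hon
      rw [if_pos hh] at h1
      exact h1

variable {K : Type} [Group K] {C : Common k em} {g : Fin k → K}

/-- A cell with the marker above the symbols `w` on all axes. -/
def mcell (D : Depth C) (mk : Mid k) (w : List (Mid k)) : Lat :=
  Multiplicative.ofAdd (fun i =>
    ((C.tower D.x₀).exists_symCoord i (fun l => (w[l]?).getD mk) (w.length + 1) 0).choose, 0)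

/-- The symbols of a field below a level. -/
def word (D : Depth C) (f : Fld k) (v : Lat) (n : ℕ) : List (Mid k) :=
  List.ofFn fun l : Fin n => ((C.tower D.x₀).zs (pt v) l f.ax).getD f.mark

lemma length_word (D : Depth C) (f : Fld k) (v : Lat) (n : ℕ) : (word D f v n).length = n :=
  List.length_ofFn

lemma zs_mcell (D : Depth C) (mk : Mid k) (w : List (Mid k)) {l : ℕ} (hl : l ≤ w.length)
    (i : Fin 3) : (C.tower D.x₀).zs (pt (mcell D mk w)) l i = some ((w[l]?).getD mk) := by
  rw [Tower.zs_eq]
  exact ((C.tower D.x₀).exists_symCoord i (fun l => (w[l]?).getD mk) (w.length + 1)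
    0).choose_spec.2 l (Nat.lt_succ_of_le hl)

lemma zs_mcell_top (D : Depth C) (mk : Mid k) (w : List (Mid k)) (i : Fin 3) :
    (C.tower D.x₀).zs (pt (mcell D mk w)) w.length i = some mk := by
  rw [zs_mcell D mk w le_rfl]
  simp

lemma word_get {D : Depth C} {f : Fld k} {v : Lat} {n l : ℕ} (hl : l < n)
    (h : f.IsLet ((C.tower D.x₀).zs (pt v) l f.ax)) :
    some (((word D f v n)[l]?).getD f.mark) = (C.tower D.x₀).zs (pt v) l f.ax := by
  obtain ⟨z, hz⟩ := Option.isSome_iff_exists.1 h.isSome
  simp [word, hl, hz]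

variable (g) in
/-- The slot of a word. -/
def slot (D : Depth C) (u : K) (f : Fld k) (w : List (Mid k)) (b : FVal k) :
    (cosetSFT C g).Obs :=
  obs g D u (mcell D f.mark w) f b

variable (hg : Subgroup.closure (Set.range g) = ⊤) {D : Depth C} {u : K}

include hg

lemma obs_turn {p : Lat} {f : Fld k} (b : FVal k) {n : ℕ} (hn : n ≤ D.N)
    (hs : Short (C.tower D.x₀) f (pt p) n)
    (he : ∀ l, l ≤ n → (C.tower D.x₀).zs (pt p) l (f.ax + 2) = (C.tower D.x₀).zs (pt p) l f.ax) :
    Same (obs g D u p f b) (obs g D u p f.turn b) ∧ Short (C.tower D.x₀) f.turn (pt p) n := by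
  refine ⟨cell_same hg fun x hx c hc => ?_, (hs.turn he).1⟩
  rw [(((hx.mono hn).short hs).turn fun l hl => by
    rw [hx.zs _ (hl.trans hn), hx.zs _ (hl.trans hn)]; exact he l hl).2 c hc]

/-- A short field is the slot of its word. -/
lemma same_slot {v : Lat} {f : Fld k} (b : FVal k) {n : ℕ} (hn : n ≤ D.N)
    (hs : Short (C.tower D.x₀) f (pt v) n) :
    Same (obs g D u v f b) (slot g D u f.std (word D f v n) b) := by
  obtain ⟨e1, e2, e3, n1, n2, n3, -⟩ := fin3_turn f.ax
  let h : Lat := mcell D f.mark (word D f v n)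
  have hh : ∀ l, l ≤ n → ∀ j, (C.tower D.x₀).zs (pt h) l j =
      (C.tower D.x₀).zs (pt v) l f.ax := by
    intro l hl j
    rw [zs_mcell D _ _ (by rw [length_word]; exact hl)]
    rcases Nat.eq_or_lt_of_le hl with rfl | hl'
    · rw [hs.mark]; simp [word]
    · exact word_get hl' (hs.letters l hl')
  let p : Lat := Multiplicative.ofAdd
    (Function.update (pt v) (f.ax + 2) (pt h (f.ax + 2)), (Multiplicative.toAdd v).2)
  let q : Lat := Multiplicative.ofAdd
    (Function.update (pt p) (f.ax + 1) (pt h (f.ax + 1)), (Multiplicative.toAdd v).2)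
  have hp : pt p = Function.update (pt v) (f.ax + 2) (pt h (f.ax + 2)) := rfl
  have hq : pt q = Function.update (pt p) (f.ax + 1) (pt h (f.ax + 1)) := rfl
  have p0 : pt p f.ax = pt v f.ax := by rw [hp, Function.update_of_ne n2.symm]
  have p1 : pt p (f.ax + 1) = pt v (f.ax + 1) := by rw [hp, Function.update_of_ne n3.symm]
  have p2 : pt p (f.ax + 2) = pt h (f.ax + 2) := by rw [hp, Function.update_self]
  have q1 : pt q (f.ax + 1) = pt h (f.ax + 1) := by rw [hq, Function.update_self]
  have q2 : pt q (f.ax + 2) = pt p (f.ax + 2) := by rw [hq, Function.update_of_ne n3]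
  have q0 : pt q f.ax = pt p f.ax := by rw [hq, Function.update_of_ne n1.symm]
  have s1 : Short (C.tower D.x₀) f (pt p) n := hs.move p0.symm p1.symm
  obtain ⟨r2, s2⟩ := obs_turn hg (u := u) b hn s1 fun l hl => by
    rw [zs_congr p2, zs_congr p0, hh l hl]
  have m3 : q ∈ keys f.turn p := ⟨by rw [Fld.ax_turn]; exact q2, by
    rw [Fld.ax_turn, e1]; exact q0⟩
  obtain ⟨r4, s4⟩ := obs_turn hg (u := u) b hn (s2.move m3.1.symm m3.2.symm) fun l hl => by
    rw [Fld.ax_turn, e2, zs_congr q1, zs_congr (q2.trans p2), hh l hl, hh l hl]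
  have m5 : h ∈ keys f.turn.turn q := ⟨by rw [Fld.ax_turn, Fld.ax_turn, e2]; exact q1.symm, by
    rw [Fld.ax_turn, Fld.ax_turn, e2, add_assoc]; exact (q2.trans p2).symm⟩
  have s5 := s4.move m5.1.symm m5.2.symm
  refine (obs_slide hg b (w := p) ⟨p0, p1⟩).trans (r2.trans ((obs_slide hg b m3).trans
    (r4.trans ((obs_slide hg b m5).trans ?_))))
  have he : ∀ f' : Fld k, ∀ l, l ≤ n → (C.tower D.x₀).zs (pt h) l (f'.ax + 2) =
      (C.tower D.x₀).zs (pt h) l f'.ax := fun f' l hl => by rw [hh l hl, hh l hl]
  obtain ⟨r6, s6⟩ := obs_turn hg (u := u) b hn s5 (he _)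
  obtain ⟨r7, -⟩ := obs_turn hg (u := u) b hn s6 (he _)
  have refl' : Same (obs g D u h f.turn.turn b) (obs g D u h f.turn.turn b) := r6.trans r6.symm
  rw [slot, Fld.mark_std]
  show Same _ (obs g D u h f.std b)
  clear_value h
  revert refl' r6 r7
  cases f with
  | J i => fin_cases i <;> intro r6 r7 refl' <;> first | exact refl' | exact r6 | exact r6.trans r7
  | B => intro r6 r7 refl'; exact r6
  | Q i s => fin_cases i <;> intro r6 r7 refl' <;> first | exact refl' | exact r6 | exact r6.trans r7

/-- A field is below the slot of each shorter word of its symbols. -/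
lemma exists_below {v : Lat} (f : Fld k) {l : ℕ} (hl : l < D.N)
    (hlet : ∀ j, j ≤ l → f.IsLet ((C.tower D.x₀).zs (pt v) j f.ax)) :
    ∃ p, p ∈ keys f v ∧
      (∀ b, Same (obs g D u p f.turn b) (slot g D u f.std (word D f v l) b)) ∧
      ∀ b, fsome b = true → ∀ y, AdmS C g (sites D u (cellFields k p)) y →
        (obs g D u p f b).val y = true →
        (obs g D u p f.turn (f.lval ((C.tower D.x₀).zs (pt v) l f.ax))).val y = true := by
  obtain ⟨-, -, -, -, n2, n3, -⟩ := fin3_turn f.ax
  let h : Lat := mcell D f.mark (word D f v l)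
  let p : Lat := Multiplicative.ofAdd
    (Function.update (pt v) (f.ax + 2) (pt h (f.ax + 2)), (Multiplicative.toAdd v).2)
  have hp : pt p = Function.update (pt v) (f.ax + 2) (pt h (f.ax + 2)) := rfl
  have p0 : pt p f.ax = pt v f.ax := by rw [hp, Function.update_of_ne n2.symm]
  have p1 : pt p (f.ax + 1) = pt v (f.ax + 1) := by rw [hp, Function.update_of_ne n3.symm]
  have p2 : pt p (f.ax + 2) = pt h (f.ax + 2) := by rw [hp, Function.update_self]
  have hm : (C.tower D.x₀).zs (pt p) l (f.ax + 2) = some f.mark := by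
    rw [zs_congr p2, show l = (word D f v l).length from (length_word D f v l).symm]
    exact zs_mcell_top D _ _ _
  have hsame : ∀ j, j < l → (C.tower D.x₀).zs (pt p) j (f.ax + 2) =
      (C.tower D.x₀).zs (pt p) j f.ax := fun j hj => by
    rw [zs_congr p2, zs_congr p0, zs_mcell D _ _ (by rw [length_word]; exact hj.le)]
    exact word_get hj (hlet j hj.le)
  have hlp : ∀ j, j ≤ l → f.IsLet ((C.tower D.x₀).zs (pt p) j f.ax) := fun j hj => by
    rw [zs_congr p0]; exact hlet j hj
  refine ⟨p, ⟨p0, p1⟩, fun b => ?_, fun b hb y hy hv => ?_⟩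
  · have hs := (cross hm hsame hlp).1
    have hw : word D f.turn p l = word D f v l := by
      refine congrArg List.ofFn (funext fun j : Fin l => ?_)
      rw [Fld.ax_turn, hsame j j.2, Fld.mark_turn, zs_congr p0]
    have := same_slot hg (u := u) b hl.le hs
    rwa [Fld.std_turn, hw] at this
  · refine cell_le (fun x hx c hc hfc => ?_) hy hv
    have hz : ∀ j, j ≤ l → ∀ i, (C.tower x).zs (pt p) j i = (C.tower D.x₀).zs (pt p) j i :=
      fun j hj i => hx.zs _ (hj.trans hl.le) i
    have := (((cross (T := C.tower x) (f := f) (n := l) (p := pt p)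
      (by rw [hz l le_rfl]; exact hm) (fun j hj => by rw [hz j hj.le, hz j hj.le]; exact hsame j hj)
      (fun j hj => by rw [hz j hj]; exact hlp j hj)).2 c hc).1 (by rw [hfc]; exact hb))
    rwa [hz l le_rfl, zs_congr p0] at this

end

end Vale.Agent.P193.W4.Rigid
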