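import Vale.Agent.P193.W4.Rigid.Slot
import Vale.Agent.P193.W4.Code.Path

/-!
P193, module W4, rigidity: splitting two fields into atoms, dead fields, killed slots and offsets.
-/

namespace Vale.Agent.P193.W4

open BH Vale.Agent.P193.Action

variable {k : ℕ} {em : ℕ → Option (List (Full k))}

namespace Rigid

/-- Words that are not genuine are shown below a bound for each length. -/
lemma exists_emit_bound {K : Type} [Group K] {g : Fin k → K} (E : EffAction K g)
    (hem : ∀ w, Coset.NoExt E w → ∃ L, w.length ≤ L ∧ em L = some w) (n : ℕ) :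
    ∃ B, ∀ w : List (Full k), w.length = n → ¬ Genuine E w →
      ∃ L, L ≤ B ∧ w.length ≤ L ∧ em L = some w := by
  classical
  have h : ∀ τ : Fin n → Full k, ∃ L, ¬ Genuine E (List.ofFn τ) →
      (List.ofFn τ).length ≤ L ∧ em L = some (List.ofFn τ) := fun τ => by
    by_cases hτ : Genuine E (List.ofFn τ)
    · exact ⟨0, fun h => absurd hτ h⟩
    · obtain ⟨L, h1, h2⟩ := hem _ ((noExt_iff E _).2 hτ)
      exact ⟨L, fun _ => ⟨h1, h2⟩⟩
  choose L hL using h
  refine ⟨Finset.univ.sup L, fun w hw hg => ?_⟩
  subst hw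
  have e := List.ofFn_getElem (xs := w)
  exact ⟨_, Finset.le_sup (Finset.mem_univ (fun i : Fin w.length => w[i.1])),
    by have := hL (fun i : Fin w.length => w[i.1]) (by rwa [e]); rwa [e] at this⟩

variable {T : Tower k em}

lemma zs_ne_of_digit {v w : Fin 3 → ℤ} {l : ℕ} {j : Fin 3} (hv : (T.zs v l j).isSome)
    (h : T.digit v l j ≠ T.digit w l j) : T.zs v l j ≠ T.zs w l j := by
  intro e
  obtain ⟨s, hs⟩ := Option.isSome_iff_exists.1 hv
  rw [hs] at e
  exact h ((sym_eq_some.1 hs).symm.trans (sym_eq_some.1 e.symm))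

/-- Two short apart coordinates with symbols differ at some level and agree high up. -/
lemma differ {v w : Fin 3 → ℤ} {j : Fin 3} {m N : ℕ} (hm : m + 1 ≤ N)
    (hd : |w j - v j| ≤ (base k : ℤ) ^ m) (hv : ∀ l, l < N → (T.zs v l j).isSome)
    (hne : v j ≠ w j) :
    (∃ l, l < N ∧ T.zs v l j ≠ T.zs w l j) ∧
      ∀ l, m < l → T.zs v l j = T.zs w l j := by
  have hmid : T.MiddleBelow v (m + 1) j :=
    Tower.middleBelow_of_zs fun l hl => hv l (hl.trans_le hm)
  have ht : T.tile w (m + 1) j = T.tile v (m + 1) j :=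
    Tower.MiddleBelow.tile_eq _ hmid (Nat.lt_succ_self m) hd
  refine ⟨?_, fun l hl => congrArg sym (T.digit_above ht hl).symm⟩
  by_contra! hall
  exact hne (T.eq_of_digits ht.symm fun l hl => by
    by_contra hdig
    exact zs_ne_of_digit (hv l (hl.trans_le hm)) hdig (hall l (hl.trans_le hm)))

open BH.SFT Finset Coset
open scoped Classical

noncomputable section

variable {K : Type} [Group K] {C : Common k em} {g : Fin k → K}

/-- The field is short below `N` or has symbols below `N`. -/
def Live (T : Tower k em) (f : Fld k) (v : Fin 3 → ℤ) (N : ℕ) : Prop :=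
  (∃ n, n < N ∧ Short T f v n) ∨ Long T f v N

variable (hg : Subgroup.closure (Set.range g) = ⊤)

include hg

/-- A present field which is neither is absent at the atom. -/
lemma null_dead {D : Depth C} (u : K) (v : Lat) {f : Fld k} {b : FVal k} (hb : fsome b = true)
    {N : ℕ} (hN : N ≤ D.N) (hd : ¬ Live (C.tower D.x₀) f (pt v) N) :
    Null (obs g D u v f b) := by
  refine cell_null hg fun x hx c hc hfc => hd ?_
  have hsymm : Ph C D.N x D.x₀ := fun m hm => (hx m hm).symm
  rcases on_cases f (pt v) (fval_absent hc (by rw [hfc]; exact hb)) N with ⟨n, hn, hs⟩ | hl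
  · exact .inl ⟨n, hn, (hsymm.mono (hn.le.trans hN)).short hs⟩
  · exact .inr (hsymm.long (hN.trans (Nat.le_succ _)) hl)

/-- An emitted word is no slot. -/
lemma null_killed {D : Depth C} (u : K) {τ : List (Full k)} (hτ : τ ≠ []) {L : ℕ}
    (hlen : τ.length ≤ L) (he : em L = some τ) (hL : L ≤ D.N) {b : FVal k}
    (hb : fsome b = true) : Null (slot g D u (.J 0) (τ.map Mid.full) b) := by
  let h := mcell D Mid.hash (τ.map Mid.full)
  obtain ⟨y, -, hy⟩ := (C.tower D.x₀).exists_symCoord 2
    (fun l => if l = L then .reset else .pass) (L + 1) 0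
  let p : Lat := Multiplicative.ofAdd (Function.update (pt h) 2 y, 0)
  have hp : pt p = Function.update (pt h) 2 y := rfl
  refine Null.of_same (obs_slide hg b (w := p) ⟨?_, ?_⟩) (cell_null hg fun x hx c hc hfc => ?_)
  · exact Function.update_of_ne (show (0 : Fin 3) ≠ 2 by decide) y (pt h)
  · exact Function.update_of_ne (show (0 : Fin 3) + 1 ≠ 2 by decide) y (pt h)
  have hz2 : ∀ l, l ≤ L → (C.tower x).zs (pt p) l 2 = some (if l = L then .reset else .pass) := by
    intro l hl
    rw [hx.zs _ (hl.trans hL), Tower.zs_eq, hp, Function.update_self]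
    exact hy l (by omega)
  have hz0 : ∀ l, l ≤ τ.length → (C.tower x).zs (pt p) l 0 =
      some (((τ.map Mid.full)[l]?).getD .hash) := by
    intro l hl
    rw [hx.zs _ (hl.trans (hlen.trans hL)), zs_congr (w := pt h) (by
      rw [hp, Function.update_of_ne (show (0 : Fin 3) ≠ 2 by decide)])]
    exact zs_mcell D _ _ (by simpa using hl) 0
  have hhit : ((C.tower x).stAt (pt p) 0).hit = true := by
    refine Tower.hit_of_word hτ hlen ?_ (fun _ => by simpa using hz2 L le_rfl)
      (fun l hl => by simpa [hl.ne] using hz2 l hl.le) (by simpa using hz0 _ le_rfl)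
      (fun l hl => by simpa [hl] using hz0 l hl.le)
    rw [Tower.stAt_step]
    simp [St.step, hz2 L le_rfl, wordStep, he]
  rw [← hfc] at hb
  simp [fval, fsome, hc.killJ hhit] at hb

omit hg

lemma ctx_lineAny (hg : Subgroup.closure (Set.range g) = ⊤) (u : K) (v : Lat) (f : Fld k)
    (F : Finset Lat) : CtxS C g ↑(lineSites u v f F) := by
  rw [lineSites, coe_insert, Set.insert_eq]
  refine commuting_union (by simpa using single_ctx (C := C) (g := g) (fldSite u v f))
    ((commuting_common C g hg).mono (comSites_common u F)) ?_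
  intro e he e' he'
  rw [Set.mem_singleton_iff] at he
  obtain ⟨c, -, rfl⟩ := mem_comSites.1 he'
  subst he
  exact com_field_common hg u u v c f

include hg

/-- Two fields commute once they do at every atom of one depth. -/
theorem com_of_depth (u : K) (v v' : Lat) (f f' : Fld k) (N : ℕ)
    (h : ∀ D : Depth C, D.N = N → ∀ b b', fsome b = true → fsome b' = true →
      Com (obs g D u v f b) (obs g D u v' f' b')) :
    ComS C g (fldSite u v f) (fldSite u v' f') := by
  obtain ⟨U, hU⟩ := C.local_tower ((0, 0) : V) N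
  have hloc : ∀ x₀, Local C (Ph C N x₀) U :=
    fun x₀ x y e h m hm => ((hU x y e).1 m hm).symm.trans (h m hm)
  let data : C.S.X → Fin (N + 1) → Fin 3 → Fin (base k) := fun x m => (C.tower x).digit 0 m
  let ι : Type := {d : Fin (N + 1) → Fin 3 → Fin (base k) // ∃ x, data x = d}
  let D : ι → Depth C := fun i => ⟨N, i.2.choose, U, hloc _⟩
  have hD : ∀ i x, Ph C N (D i).x₀ x ↔ data x = i.1 := fun i x => by
    have e := i.2.choose_spec
    rw [← e]
    exact ⟨fun hx => funext fun m => hx m (Nat.lt_succ_iff.1 m.2),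
      fun hx m hm => congrFun hx ⟨m, Nat.lt_succ_of_le hm⟩⟩
  have split : ∀ (w : Lat) (f : Fld k) (b : FVal k) {E' : Finset (Site k K)}, CtxS C g ↑E' →
      ∀ {o' : (cosetSFT C g).Obs}, Det (S := cosetSFT C g) (getS C g) E' o' →
      (∀ i, Com (obs g (D i) u w f b) o') → Com (fev C g u w f b) o' := by
    intro w f b E' hE' o' ho' hc
    obtain ⟨B, hUB, hB⟩ := exists_big C g (insert w U)
    have hdet : ∀ i, Det (S := cosetSFT C g) (getS C g) (lineSites u w f B)
        (obs g (D i) u w f b) := fun i =>
      (det_cond u w f b _ _).mono (insert_subset_insert _ (image_subset_image hUB))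
    refine com_det_of (ι := ι) (ctx_lineAny hg u w f B) hE'
      ((det_site _ _).mono (singleton_subset_iff.2 (fld_mem_line u w f B))) ho'
      (fun i => obs g (D i) u w f b) hdet (fun p q hp hq he => ?_) hc
    have key : ∀ p, AdmS C g (lineSites u w f B) p → ((fev C g u w f b).val p = true ↔
        ∃ i, (obs g (D i) u w f b).val p = true) := by
      intro p hp
      constructor
      · intro hv
        obtain ⟨x, hx⟩ := hB u _ (subset_insert _ _) p hp
        exact ⟨⟨data x, x, rfl⟩,
          (obs_val ..).2 ⟨(fev_val ..).1 hv, x, hx, (hD ⟨data x, x, rfl⟩ x).2 rfl⟩⟩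
      · rintro ⟨i, hi⟩
        exact (fev_val ..).2 ((obs_val ..).1 hi).1
    rw [Bool.eq_iff_iff, key p hp, key q hq]
    simp [he]
  intro a a'
  refine com_of_present (single_ctx _) (det_site _ _) (fun b hb => Com.symm ?_) a
  refine com_of_present (single_ctx _) (det_site _ _) (fun b' hb' => Com.symm ?_) a'
  refine split v f b (single_ctx _) (det_site _ _) fun i => Com.symm ?_
  refine split v' f' b' (ctx_one hg (D i) u v f) (det_obs b (mem_singleton_self _))
    fun j => Com.symm ?_
  by_cases hij : i = j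
  · subst hij
    exact h (D i) rfl b b' hb hb'
  have hl : Local C (Ph C N (D i).x₀) U := (D i).loc
  refine com_excl (ctx_lineAny hg u v f (insert v U)) (ctx_lineAny hg u v' f' (insert v' U))
    (det_cond ..) ((det_cev u _ _).mono (subset_insert _ _)) (det_cond ..)
    ((det_cev u _ _).mono (subset_insert _ _))
    (same_cev C g hg u u (hl.mono (subset_insert v U)) (hl.mono (subset_insert v' U))
      fun _ => Iff.rfl) (fun p _ hp => (cev_iff ..).2 ((obs_val ..).1 hp).2) fun p _ hp => ?_
  by_contra hn
  obtain ⟨x, hx, hxi⟩ := (cev_iff ..).1 (by simpa using hn)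
  obtain ⟨-, z, hz, hzj⟩ := (obs_val ..).1 hp
  have hzi : Ph C N (D i).x₀ z := hl.mono (subset_insert v' U) x z
    (fun c hc => (hx c hc).trans (hz c hc).symm) hxi
  exact hij (Subtype.ext (((hD i z).1 hzi).symm.trans ((hD j z).1 hzj)))

end

end Rigid

end Vale.Agent.P193.W4
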