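import Vale.Agent.P193.W4.Rigid.Words

/-!
P193, module W4, rigidity: the slots of a track are unions of slots of the coset, and a slot of the
coset is a union of slots of any one track, as the words in question are genuine.
-/

namespace Vale.Agent.P193.W4.Rigid

open BH BH.SFT Finset Coset Vale.Agent.P193.Action
open scoped Classical

noncomputable section

variable {k : ℕ} {em : ℕ → Option (List (Full k))} {K : Type} [Group K] {C : Common k em}
  {g : Fin k → K} {D : Depth C} {u : K}

lemma ofFn_get {α : Type} (σ : List α) {m : ℕ} (h : σ.length = m) :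
    List.ofFn (fun i : Fin m => σ[i.1]'(h ▸ i.2)) = σ :=
  List.ext_getElem (by simp [h]) fun i _ _ => by simp

/-- The track `t` of a word. -/
def trk (t : Option (Fin k)) (τ : List (Full k)) : List Bool := τ.map fun d => d t

@[simp] lemma length_trk (t : Option (Fin k)) (τ : List (Full k)) : (trk t τ).length = τ.length :=
  List.length_map _

@[simp] lemma getElem_trk (t : Option (Fin k)) (τ : List (Full k)) (l : ℕ)
    (h : l < (trk t τ).length) : (trk t τ)[l] = (τ[l]'(by simpa using h)) t :=
  List.getElem_map _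

variable (hg : Subgroup.closure (Set.range g) = ⊤)

include hg

/-- Two fields meeting on the line of the first one commute. -/
lemma com_meet {v w : Lat} {f : Fld k} (h : w ∈ keys f v) (f' : Fld k) :
    ComS C g (fldSite u v f) (fldSite u w f') := by
  intro a a'
  refine com_of_present (single_ctx _) (det_site _ _) (fun b _ => ?_) a
  exact (same_slide u h b).com (com₂_cell _ _ _ _ _)

variable {E : EffAction K g} (hgs : Function.Injective (gs g))
  (hem : ∀ w, NoExt E w → ∃ L, w.length ≤ L ∧ em L = some w)

include hgs hem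

/-- A slot of a track is the union of the slots of the coset over it. -/
theorem same_track (t : Option (Fin k)) : ∀ π : List Bool, π.length + 1 ≤ D.N →
    Same (pres g D u (qAlph k t) π)
      (words g D u (jAlph k) π.length fun τ => trk t τ = π) := by
  intro π
  have bridge : ∀ τ : List (Full k), τ.length + 1 ≤ D.N → ∀ q : Lat,
      pt q 0 = pt (mcell D Mid.hash (τ.map Mid.full)) 0 →
      pt q 1 = pt (mcell D Mid.phash ((trk t τ).map Mid.pad)) 1 →
      pt q 2 = pt (mcell D Mid.phash ((trk t τ).map Mid.pad)) 2 →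
      Short (C.tower D.x₀) .B (pt q) τ.length ∧ (C.tower D.x₀).Bridge (pt q) t τ ∧
      Short (C.tower D.x₀) (.Q 1 t) (pt q) τ.length ∧
      (∀ b, Same (obs g D u q .B b) (slot g D u (.J 0) (τ.map Mid.full) b)) ∧
      ∀ b, Same (obs g D u q (.Q 1 t) b) (slot g D u (.Q 0 t) ((trk t τ).map Mid.pad) b) := by
    intro τ hN q h0 h1 h2
    have lenQ : ((trk t τ).map (Mid.pad (k := k))).length = τ.length := by simp
    have z0 : ∀ l (h : l < τ.length), (C.tower D.x₀).zs (pt q) l 0 = some (.full τ[l]) := fun l h => by
      rw [zs_congr h0]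
      exact symbols_mcell (jAlph k) τ h 0
    have z12 : ∀ l (h : l < τ.length), (C.tower D.x₀).zs (pt q) l 1 = some (.pad (τ[l] t)) ∧
        (C.tower D.x₀).zs (pt q) l 2 = some (.pad (τ[l] t)) := fun l h => by
      have hs := fun i : Fin 3 => symbols_mcell (D := D) (qAlph k t) (trk t τ) (l := l) (by rw [length_trk]; exact h) i
      rw [zs_congr h1, zs_congr h2]
      exact ⟨(hs 1).trans (by simp [qAlph]), (hs 2).trans (by simp [qAlph])⟩
    have t0 : (C.tower D.x₀).zs (pt q) τ.length 0 = some .hash := by
      rw [zs_congr h0]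
      have := zs_mcell_top D Mid.hash (τ.map Mid.full) 0
      rwa [List.length_map] at this
    have t1 : (C.tower D.x₀).zs (pt q) τ.length 1 = some .phash := by
      rw [zs_congr h1]
      have := zs_mcell_top D Mid.phash ((trk t τ).map Mid.pad) 1
      rwa [lenQ] at this
    have hB : (C.tower D.x₀).Bridge (pt q) t τ := ⟨⟨t0, t1⟩, fun l h => ⟨z0 l h, (z12 l h).1⟩⟩
    have sB : Short (C.tower D.x₀) .B (pt q) τ.length :=
      ⟨t0, fun l h => ⟨_, z0 l h⟩, ⟨t, fun l h => by
        show (C.tower D.x₀).zs (pt q) l ((0 : Fin 3) + 1) = _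
        rw [show (0 : Fin 3) + 1 = 1 from rfl, (z12 l h).1]
        show _ = Option.map _ ((C.tower D.x₀).zs (pt q) l 0)
        rw [z0 l h]; rfl⟩, ⟨t, hB.flags 0 (Nat.zero_le _)⟩⟩
    have hP : (C.tower D.x₀).PLine (pt q) 1 (trk t τ) := by
      refine ⟨by simpa using t1, fun l h => ?_⟩
      have h' : l < τ.length := by simpa using h
      exact ⟨(z12 l h').1.trans (by simp), (z12 l h').2.trans (by simp)⟩
    have sQ : Short (C.tower D.x₀) (.Q 1 t) (pt q) τ.length :=
      ⟨t1, fun l h => ⟨_, (z12 l h).1⟩, ⟨none, fun l h => by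
        show (C.tower D.x₀).zs (pt q) l ((1 : Fin 3) + 1) = _
        rw [show (1 : Fin 3) + 1 = 2 from rfl, (z12 l h).2]
        show _ = Option.map _ ((C.tower D.x₀).zs (pt q) l 1)
        rw [(z12 l h).1]; rfl⟩, (hP.flags 0 (Nat.zero_le _)).1⟩
    refine ⟨sB, hB, sQ, fun b => ?_, fun b => ?_⟩
    · have hw : word D .B q τ.length = τ.map Mid.full :=
        List.ext_getElem (by simp [word]) fun i a b => by
          have hi : i < τ.length := by simpa using b
          simp only [word, List.getElem_ofFn, List.getElem_map, Fld.ax]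
          rw [z0 i hi]; rfl
      have := same_slot hg (u := u) b (show τ.length ≤ D.N by omega) sB
      rwa [hw] at this
    · have hw : word D (.Q 1 t) q τ.length = (trk t τ).map Mid.pad :=
        List.ext_getElem (by simp [word]) fun i a b => by
          have hi : i < τ.length := by simpa using b
          simp only [word, List.getElem_ofFn, List.getElem_map, Fld.ax]
          rw [(z12 i hi).1]; simp
      have := same_slot hg (u := u) b (show τ.length ≤ D.N by omega) sQ
      rwa [hw] at this
  have bridgeCell : ∀ τ : List (Full k), ∃ q : Lat,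
      pt q 0 = pt (mcell D Mid.hash (τ.map Mid.full)) 0 ∧
      pt q 1 = pt (mcell D Mid.phash ((trk t τ).map Mid.pad)) 1 ∧
      pt q 2 = pt (mcell D Mid.phash ((trk t τ).map Mid.pad)) 2 := fun τ =>
    ⟨Multiplicative.ofAdd (Function.update (pt (mcell D Mid.phash ((trk t τ).map Mid.pad))) 0
      (pt (mcell D Mid.hash (τ.map Mid.full)) 0), 0), by simp [pt],
      by simp [pt], by simp [pt, Function.update_of_ne (show (2 : Fin 3) ≠ 0 by decide)]⟩
  choose qc hq0 hq1 hq2 using bridgeCell
  have hcell := fun τ hN => bridge τ hN (qc τ) (hq0 τ) (hq1 τ) (hq2 τ)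
  induction π using List.reverseRecOn with
  | nil =>
    intro hN
    obtain ⟨sB, hB, sQ, rB, rQ⟩ := hcell [] hN
    have e1 : Same (orObs fun c => obs g D u (qc []) (.Q 1 t) ((qAlph k t).value c))
        (pres g D u (qAlph k t) []) :=
      same_or (ctx_cell hg D u (qc [])) (ctx_one hg D u (mcell D Mid.phash []) (.Q 0 t))
        (fun _ => det_obs _ (mem_cellFields _ _)) (fun _ => det_obs _ (mem_singleton_self _))
        fun c => rQ _
    have e2 : Same (orObs fun d => obs g D u (qc []) .B ((jAlph k).value d))
        (pres g D u (jAlph k) []) :=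
      same_or (ctx_cell hg D u (qc [])) (ctx_one hg D u (mcell D Mid.hash []) (.J 0))
        (fun _ => det_obs _ (mem_cellFields _ _)) (fun _ => det_obs _ (mem_singleton_self _))
        fun d => rB _
    have e3 : Same (words g D u (jAlph k) 0 fun τ => trk t τ = []) (pres g D u (jAlph k) []) := by
      refine InFam.same hg hgs hem (inFam_words _ _ _) (inFam_pres _ _) fun p => ?_
      refine (words_val _ _ _ p).trans ⟨?_, fun h => ⟨[], rfl, rfl, h⟩⟩
      rintro ⟨τ, hτ, -, h⟩
      rwa [List.eq_nil_of_length_eq_zero hτ] at h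
    refine e1.symm.trans (Same.trans ?_ (e2.trans e3.symm))
    refine same_det (ctx_cell hg D u (qc [])) (det_or fun _ => det_obs _ (mem_cellFields _ _))
      (det_or fun _ => det_obs _ (mem_cellFields _ _)) fun y hy => ?_
    refine Bool.eq_iff_iff.2 ((orObs_val _ _).trans (Iff.trans ?_ (orObs_val _ _).symm))
    constructor <;> rintro ⟨c, hc⟩ <;> obtain ⟨x, hP, hx, j, hj, hjy⟩ := cell_data hy hc
    · have hz : (C.tower x).zs (pt (qc [])) 0 0 = some .hash := by
        rw [hP.zs _ (Nat.zero_le _)]; exact sB.mark
      have hbr : ((C.tower x).stAt (pt (qc [])) 0).flags.HasB :=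
        ((hP.mono (Nat.zero_le _)).short sB).present
      have heq : ((C.tower x).stAt (pt (qc [])) 0).flags.eq 0 = true := by
        rw [Tower.flags_step]; simp [Flags.step, hz]
      have hroot := hj.root 0 hz
      rw [← hj.bridge hbr heq] at hroot
      obtain ⟨d, hd⟩ := Option.isSome_iff_exists.1 hroot
      refine ⟨d, (obs_val ..).2 ⟨?_, x, hx, hP⟩⟩
      rw [← hjy .B]
      simp [fval, hd, Alph.value, jAlph, Fld.lval, Tower.fullOf]
    · obtain ⟨b, hb⟩ := Option.isSome_iff_exists.1
        (hj.rootQ 1 t (by rw [hP.zs _ (Nat.zero_le _)]; exact sQ.mark))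
      refine ⟨b, (obs_val ..).2 ⟨?_, x, hx, hP⟩⟩
      rw [← hjy (.Q 1 t)]
      simp [fval, hb, Alph.value, qAlph, Fld.lval, Tower.padOf]
  | append_singleton π b ih =>
    intro hN
    simp only [List.length_append, List.length_singleton] at hN
    refine (same_step hg (qAlph k t) π b (by omega)).symm.trans ?_
    let ι := {τ : Fin π.length → Full k // trk t (List.ofFn τ) = π} × Full k
    let q : ι → Lat := fun i => qc (List.ofFn i.1.1)
    let τ₀ : List (Full k) := π.map fun c _ => c
    have hτ₀ : trk t τ₀ = π := by simp [trk, τ₀, Function.comp_def]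
    have hl₀ : τ₀.length = π.length := by simp [τ₀]
    let v : Lat := qc τ₀
    obtain ⟨-, -, -, -, rQ₀⟩ := hcell τ₀ (by omega)
    rw [hτ₀] at rQ₀
    have hc := fun i : ι => hcell (List.ofFn i.1.1) (by simp; omega)
    have hkeys : ∀ i, q i ∈ keys (.Q 1 t) v := by
      intro i
      constructor
      · show pt (qc (List.ofFn i.1.1)) 1 = pt (qc τ₀) 1
        rw [hq1, hq1, i.1.2, hτ₀]
      · show pt (qc (List.ofFn i.1.1)) 2 = pt (qc τ₀) 2
        rw [hq2, hq2, i.1.2, hτ₀]
    let s : Finset (Lat × Fld k) := insert (v, .Q 1 t) (univ.image fun i => (q i, .B))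
    have hs : CtxS C g ↑(sites D u s) := ctx_sites hg fun e he e' he' => by
      simp only [s, mem_insert, mem_image, mem_univ, true_and] at he he'
      rcases he with rfl | ⟨i, rfl⟩ <;> rcases he' with rfl | ⟨i', rfl⟩
      · exact com₂_cell _ _ _
      · exact com_meet hg (hkeys i') .B
      · exact (com_meet hg (hkeys i) .B).symm
      · exact com_family hg hgs hem u (q i) (q i') .B .B rfl
    have mv : (v, Fld.Q 1 t) ∈ s := mem_insert_self _ _
    have mq : ∀ i, (q i, Fld.B) ∈ s := fun i => mem_insert_of_mem (mem_image_of_mem _ (mem_univ i))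
    let Qb := obs g D u v (.Q 1 t) ((qAlph k t).value b)
    let Bo : ι → (cosetSFT C g).Obs := fun i => obs g D u (q i) .B ((jAlph k).value i.2)
    let sel : ι → (cosetSFT C g).Obs := fun i => if i.2 t = b then Bo i else bot _
    have dB : ∀ i, Det (S := cosetSFT C g) (getS C g) (sites D u s) (Bo i) :=
      fun i => det_obs _ (mq i)
    have dQ : Det (S := cosetSFT C g) (getS C g) (sites D u s) Qb := det_obs _ mv
    have dsel : ∀ i, Det (S := cosetSFT C g) (getS C g) (sites D u s) (sel i) := fun i => by
      simp only [sel]; split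
      exacts [dB i, det_bot _]
    have r1 : Same (pre g D u (qAlph k t) π b) Qb := (rQ₀ _).symm
    have r2 : Same (orObs fun c => obs g D u v (.Q 1 t) ((qAlph k t).value c)) (orObs Bo) := by
      refine (same_or hs (ctx_one hg D u (mcell D Mid.phash (π.map Mid.pad)) (.Q 0 t))
        (fun c => det_obs _ mv) (fun c => det_obs _ (mem_singleton_self _))
        (ms' := pre g D u (qAlph k t) π) fun c => rQ₀ _).trans ((ih (by omega)).trans ?_)
      refine (InFam.same hg hgs hem (inFam_words _ _ _) (inFam_or (ms := fun i : ι =>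
        pre g D u (jAlph k) (List.ofFn i.1.1) i.2) fun i => inFam_pre _ _ _) fun p => ?_).trans ?_
      · simp only [words, pres, orObs_val]
        exact ⟨fun ⟨τ, a, h⟩ => ⟨(τ, a), h⟩, fun ⟨⟨τ, a⟩, h⟩ => ⟨τ, a, h⟩⟩
      · exact InFam.same_or hg hgs hem (fun i => inFam_pre _ _ _)
          (fun i => inFam_obs (A := jAlph k) rfl _) fun i => ((hc i).2.2.2.1 _).symm
    have r3 : Same Qb (Obs.and Qb (orObs Bo)) := by
      refine (same_det hs dQ (det_and dQ (det_or fun c => det_obs _ mv)) (o' := Obs.and Qb
        (orObs fun c => obs g D u v (.Q 1 t) ((qAlph k t).value c))) fun p _ => ?_).trans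
        (same_and hs hs dQ (det_or fun c => det_obs _ mv) dQ (det_or dB) (same_det_refl hs dQ) r2)
      rw [Obs.and_val]
      cases hv : Qb.val p
      · rfl
      · simp only [Bool.true_and]
        exact ((orObs_val _ _).2 ⟨b, hv⟩).symm
    have r4 : Same (Obs.and Qb (orObs Bo)) (orObs sel) := by
      refine (same_det hs (det_and dQ (det_or dB)) (det_or fun i => det_and dQ (dB i))
        (o' := orObs fun i => Obs.and Qb (Bo i)) fun p _ => ?_).trans
        (same_or hs hs (fun i => det_and dQ (dB i)) dsel fun i => ?_)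
      · rw [Bool.eq_iff_iff]
        simp [orObs_val]
      let Qi := obs g D u (q i) (.Q 1 t) ((qAlph k t).value b)
      have dBi : Det (S := cosetSFT C g) (getS C g) (sites D u (cellFields k (q i))) (Bo i) :=
        det_obs _ (mem_cellFields _ _)
      have dQi : Det (S := cosetSFT C g) (getS C g) (sites D u (cellFields k (q i))) Qi :=
        det_obs _ (mem_cellFields _ _)
      refine (same_and hs (ctx_cell hg D u (q i)) dQ (dB i) dQi dBi (obs_slide hg _ (hkeys i))
        (same_det_refl hs (dB i))).trans ?_
      have dseli : Det (S := cosetSFT C g) (getS C g) (sites D u (cellFields k (q i))) (sel i) := by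
        simp only [sel]; split
        exacts [dBi, det_bot _]
      refine same_det (ctx_cell hg D u (q i)) (det_and dQi dBi) dseli fun y hy => ?_
      simp only [Obs.and_val, sel]
      cases hv : (Bo i).val y
      · split <;> simp [hv]
      obtain ⟨x, hP, hx, j, hj, hjy⟩ := cell_data hy hv
      obtain ⟨hsB, hBr, hsQ, -, -⟩ := hc i
      have hlen : (List.ofFn i.1.1).length ≤ D.N := by simp; omega
      have hBx : (C.tower x).Bridge (pt (q i)) t (List.ofFn i.1.1) :=
        ⟨⟨by rw [hP.zs _ hlen]; exact hBr.1.1, by rw [hP.zs _ hlen]; exact hBr.1.2⟩, fun l hl => by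
          rw [hP.zs _ (hl.le.trans hlen), hP.zs _ (hl.le.trans hlen)]; exact hBr.2 l hl⟩
      have hB' : fval .B j = (jAlph k).value i.2 := (hjy _).trans ((obs_val ..).1 hv).1
      have hB'' : j.B = some i.2 := by
        simpa [fval, Alph.value, jAlph, Fld.lval, Tower.fullOf] using hB'
      have hQ := hj.proj t i.2 (hBx.flags 0 (Nat.zero_le _))
        ((hP.mono hlen).short hsQ).present hB''
      have hQy : fval (.Q 1 t) (y (u, q i)).2 = (qAlph k t).value (i.2 t) := by
        rw [← hjy]; simp [fval, hQ, Alph.value, qAlph, Fld.lval, Tower.padOf]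
      simp only [Bool.and_true]
      by_cases hb : i.2 t = b
      · rw [if_pos hb, hv]
        exact (obs_val ..).2 ⟨hb ▸ hQy, x, hx, hP⟩
      · rw [if_neg hb, bot_val]
        by_contra hne
        have := ((obs_val ..).1 (by simpa using hne)).1
        exact hb ((qAlph k t).value_inj (hQy.symm.trans this))
    refine r1.trans (r3.trans (r4.trans ?_))
    let ι' := {i : ι // i.2 t = b}
    refine (same_det hs (det_or dsel) (det_or fun i => dB i.1) (o' := orObs fun i : ι' => Bo i.1)
      fun p _ => ?_).trans ?_
    · rw [Bool.eq_iff_iff, orObs_val, orObs_val]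
      constructor
      · rintro ⟨i, hi⟩
        simp only [sel] at hi
        split at hi
        exacts [⟨⟨i, by assumption⟩, hi⟩, absurd hi (by simp)]
      · rintro ⟨i, hi⟩
        exact ⟨i.1, by simp only [sel, if_pos i.2]; exact hi⟩
    refine (InFam.same_or hg hgs hem (A := jAlph k) (A' := jAlph k)
      (fun i : ι' => inFam_obs rfl _) (fun i => inFam_pres _ _)
      (ms' := fun i : ι' => pres g D u (jAlph k) (List.ofFn i.1.1.1 ++ [i.1.2]))
      fun i => ((hc i.1).2.2.2.1 _).trans (same_step hg (jAlph k) _ _ (by simp; omega))).trans ?_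
    refine InFam.same hg hgs hem (inFam_or fun i => inFam_pres _ _) (inFam_words _ _ _) fun p => ?_
    refine (orObs_val _ _).trans (Iff.trans ?_ (words_val (jAlph k) _ _ p).symm)
    constructor
    · rintro ⟨⟨⟨⟨τ, hτ⟩, d⟩, hd⟩, h⟩
      refine ⟨List.ofFn τ ++ [d], by simp, ?_, h⟩
      show List.map _ (List.ofFn τ ++ [d]) = π ++ [b]
      rw [List.map_append, show List.map (fun e => e t) (List.ofFn τ) = π from hτ]
      exact congrArg _ (congrArg (fun c => [c]) hd)
    · rintro ⟨τ', hlen, hS, h⟩
      rcases List.eq_nil_or_concat τ' with rfl | ⟨σ, d, rfl⟩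
      · simp at hlen
      rw [List.concat_eq_append] at hS h hlen
      simp only [List.length_append, List.length_singleton] at hlen
      have hS' : trk t σ ++ [d t] = π ++ [b] := by rw [← hS]; simp [trk]
      obtain ⟨hS1, hS2⟩ := List.append_inj hS' (by rw [length_trk]; omega)
      have hσ : σ.length = π.length := by omega
      have e := ofFn_get σ hσ
      exact ⟨⟨(⟨fun i : Fin π.length => σ[i.1]'(by omega), (congrArg (trk t) e).trans hS1⟩, d),
          by simpa using hS2⟩,
        (congrArg (fun s => (pres g D u (jAlph k) (s ++ [d])).val p = true) e).mpr h⟩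

/-- A slot of the coset is a union of slots of one track. -/
theorem same_words_track {N₁ M : ℕ} (hN₁ : N₁ ≤ M) (hM : M + 1 ≤ D.N)
    (hkill : ∀ w : List (Full k), w.length = M → ¬ Genuine E w →
      ∃ L, L ≤ D.N ∧ w.length ≤ L ∧ em L = some w)
    (htd : ∀ y ∈ E.Y, ∀ y' ∈ E.Y, ∀ s, (∀ j < M, code E y j s = code E y' j s) →
      ∀ i < N₁, code E y i = code E y' i)
    {n : ℕ} (hn : n ≤ N₁) (S : List (Full k) → Prop) (t : Option (Fin k)) :
    Same (words g D u (jAlph k) n S) (words g D u (qAlph k t) M fun π =>
      ∃ τ, τ.length = M ∧ Genuine E τ ∧ S (τ.take n) ∧ trk t τ = π) := by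
  let R : List Bool → Prop := fun π =>
    ∃ τ, τ.length = M ∧ Genuine E τ ∧ S (τ.take n) ∧ trk t τ = π
  refine (same_extend hg hgs hem (jAlph k) S (hn.trans hN₁) (by omega)).trans ?_
  have null : ∀ τ : Fin M → Full k, ¬ Genuine E (List.ofFn τ) →
      Null (pres g D u (jAlph k) (List.ofFn τ)) := fun τ hτ => by
    obtain ⟨L, hL, hlen, he⟩ := hkill _ List.length_ofFn hτ
    refine InFam.null hg hgs hem (inFam_pres _ _) (inFam_pre (jAlph k) (List.ofFn τ)) (fun d => ?_)
      fun p h => (orObs_val _ _).1 h
    exact null_killed hg u (fun h0 => hτ (by rw [h0]; exact genuine_nil E)) hlen he hL ((jAlph k).value_present d)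
  have drop : ∀ P : List (Full k) → Prop, Same (words g D u (jAlph k) M P)
      (words g D u (jAlph k) M fun τ => Genuine E τ ∧ P τ) := by
    intro P
    let ms : {τ : Fin M → Full k // P (List.ofFn τ)} → (cosetSFT C g).Obs := fun τ =>
      if Genuine E (List.ofFn τ.1) then pres g D u (jAlph k) (List.ofFn τ.1) else bot _
    have hms : ∀ τ, InFam D u (jAlph k) (ms τ) := fun τ => by
      simp only [ms]; split
      exacts [inFam_pres _ _, inFam_bot _]
    refine (InFam.same_or hg hgs hem (fun τ => inFam_pres _ _) hms fun τ => ?_).trans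
      (InFam.same hg hgs hem (inFam_or hms) (inFam_words _ _ _) fun p => ?_)
    · simp only [ms]; split
      · exact InFam.same hg hgs hem (inFam_pres _ _) (inFam_pres _ _) fun _ => Iff.rfl
      · exact null τ.1 (by assumption)
    · refine (orObs_val _ _).trans (Iff.trans ?_ (words_val (jAlph k) _ _ p).symm)
      constructor
      · rintro ⟨τ, h⟩
        simp only [ms] at h
        split at h
        exacts [⟨_, List.length_ofFn, ⟨by assumption, τ.2⟩, h⟩, absurd h (by simp)]
      · rintro ⟨τ, hlen, ⟨hgn, hP⟩, h⟩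
        subst hlen
        have e := ofFn_get τ rfl
        refine ⟨⟨fun i => τ[i.1], (congrArg P e).mpr hP⟩, ?_⟩
        simp only [ms]
        rw [if_pos ((congrArg (Genuine E) e).mpr hgn)]
        exact (congrArg (fun σ => (pres g D u (jAlph k) σ).val p = true) e).mpr h
  refine (drop _).trans (Same.trans ?_ ((drop fun τ => R (trk t τ)).symm.trans ?_))
  · refine InFam.same hg hgs hem (inFam_words _ _ _) (inFam_words _ _ _) fun p => ?_
    refine (words_val (jAlph k) _ _ p).trans (Iff.trans ?_ (words_val (jAlph k) _ _ p).symm)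
    refine exists_congr fun τ => and_congr_right fun hlen => and_congr_left fun _ =>
      and_congr_right fun hgn => ⟨fun hS => ⟨τ, hlen, hgn, hS, rfl⟩, ?_⟩
    rintro ⟨τ', hlen', hgn', hS', htr⟩
    suffices τ.take n = τ'.take n by rwa [this]
    obtain ⟨y, hy, hyw⟩ := hgn
    obtain ⟨y', hy', hyw'⟩ := hgn'
    have hag : ∀ j < M, code E y j t = code E y' j t := fun j hj => by
      rw [hyw j (by omega), hyw' j (by omega)]
      have := congrArg (fun l : List Bool => l[j]?) htr
      simp [trk, hlen, hlen', hj] at this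
      exact this.symm
    refine List.ext_getElem (by simp; omega) fun i h1 h2 => ?_
    simp only [List.length_take] at h1
    rw [List.getElem_take, List.getElem_take, ← hyw i (by omega), ← hyw' i (by omega)]
    exact htd y hy y' hy' t hag i (by omega)
  · let ι := {π : Fin M → Bool // R (List.ofFn π)}
    refine (InFam.same hg hgs hem (inFam_words _ _ _) (inFam_or (ms := fun π : ι =>
      words g D u (jAlph k) M fun τ => trk t τ = List.ofFn π.1) fun π => inFam_words _ _ _)
      fun p => ?_).trans (InFam.same_or hg hgs hem (fun π => inFam_words _ _ _)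
        (fun π => inFam_pres (qAlph k t) _) fun π => ?_)
    · refine (words_val (jAlph k) _ _ p).trans (Iff.trans ?_ (orObs_val _ _).symm)
      constructor
      · rintro ⟨τ, hlen, hR, h⟩
        have hl : (trk t τ).length = M := by simpa using hlen
        have e := ofFn_get (trk t τ) hl
        exact ⟨⟨fun i => (trk t τ)[i.1]'(hl ▸ i.2), by rw [e]; exact hR⟩,
          (words_val (jAlph k) _ _ p).2 ⟨τ, hlen, e.symm, h⟩⟩
      · rintro ⟨π, h⟩
        obtain ⟨τ, hlen, htr, h⟩ := (words_val (jAlph k) _ _ p).1 h
        exact ⟨τ, hlen, by rw [htr]; exact π.2, h⟩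
    · have := same_track hg hgs hem (D := D) (u := u) t (List.ofFn π.1) (by simp; omega)
      simp only [List.length_ofFn] at this
      exact this.symm

end

end Vale.Agent.P193.W4.Rigid
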