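import Vale.Agent.P193.W4.Rigid.Family

/-!
P193, module W4, rigidity: inside one family, slots as events indexed by words.

`pres τ` says that the slot of `τ` is not empty; it is the union of the events of the one letter
longer words, and two words of one length exclude each other.
-/

namespace Vale.Agent.P193.W4.Rigid

open BH BH.SFT Finset Coset Vale.Agent.P193.Action
open scoped Classical

noncomputable section

variable {k : ℕ} {em : ℕ → Option (List (Full k))}

/-! ### Present fields at cells of symbols -/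

lemma on_of_symbols {T : Tower k em} {f : Fld k} (hf : f.std = f) {v : Fin 3 → ℤ} {n : ℕ}
    (hm : T.zs v n f.ax = some f.mark) (hl : ∀ l, l < n → f.IsLet (T.zs v l f.ax))
    (he : ∀ l, l < n → T.zs v l (f.ax + 1) = T.zs v l f.ax) : f.On (T.stAt v 0).flags := by
  cases f with
  | J i =>
    simp only [Fld.ax, Fld.IsLet, Fld.mark] at hm hl he
    choose d hd using hl
    have hσ : (List.ofFn fun l : Fin n => d l l.2).length = n := List.length_ofFn
    have hL : T.Line v i (List.ofFn fun l : Fin n => d l l.2) := by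
      refine ⟨by rw [hσ]; exact hm, fun l h => ?_⟩
      have h' : l < n := hσ ▸ h
      simp only [List.getElem_ofFn]
      exact ⟨hd l h', (he l h').trans (hd l h')⟩
    exact (hL.flags 0 (Nat.zero_le _)).1
  | B => simp [Fld.std] at hf
  | Q i t =>
    simp only [Fld.ax, Fld.IsLet, Fld.mark] at hm hl he
    choose d hd using hl
    have hσ : (List.ofFn fun l : Fin n => d l l.2).length = n := List.length_ofFn
    have hL : T.PLine v i (List.ofFn fun l : Fin n => d l l.2) := by
      refine ⟨by rw [hσ]; exact hm, fun l h => ?_⟩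
      have h' : l < n := hσ ▸ h
      simp only [List.getElem_ofFn]
      exact ⟨hd l h', (he l h').trans (hd l h')⟩
    exact (hL.flags 0 (Nat.zero_le _)).1

/-- The letters of a family. -/
structure Alph (k : ℕ) where
  α : Type
  [fin : Fintype α]
  fld : Fld k
  sym : α → Mid k
  std : fld.std = fld
  inj : Function.Injective sym
  isLet : ∀ a, fld.IsLet (some (sym a))
  surj : ∀ b : FVal k, (∃ c : JCell k, fval fld c = b) → fsome b = true →
    ∃ a, b = fld.lval (some (sym a))

attribute [instance] Alph.fin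

/-- Letters of the slots. -/
abbrev jAlph (k : ℕ) : Alph k where
  α := Full k
  fld := .J 0
  sym := .full
  std := rfl
  inj _ _ h := by cases h; rfl
  isLet a := ⟨a, rfl⟩
  surj b hb hs := by
    obtain ⟨c, rfl⟩ := hb
    obtain ⟨a, ha⟩ := Option.isSome_iff_exists.1 hs
    exact ⟨a, by simp [fval, ha, Fld.lval, Tower.fullOf]⟩

/-- Letters of one track. -/
abbrev qAlph (k : ℕ) (t : Option (Fin k)) : Alph k where
  α := Bool
  fld := .Q 0 t
  sym := .pad
  std := rfl
  inj _ _ h := by cases h; rfl
  isLet a := ⟨a, rfl⟩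
  surj b hb hs := by
    obtain ⟨c, rfl⟩ := hb
    obtain ⟨a, ha⟩ := Option.isSome_iff_exists.1 hs
    exact ⟨a, by simp [fval, ha, Fld.lval, Tower.padOf]⟩

/-- The value of a letter. -/
def Alph.value (A : Alph k) (a : A.α) : FVal k := A.fld.lval (some (A.sym a))

lemma Alph.value_present (A : Alph k) (a : A.α) : fsome (A.value a) = true :=
  Fld.lval_present (A.isLet a)

lemma Alph.value_inj (A : Alph k) {a a' : A.α} (h : A.value a = A.value a') : a = a' :=
  A.inj (Option.some.inj (Fld.lval_inj (A.isLet a) (A.isLet a') h))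

variable {K : Type} [Group K] {C : Common k em} {g : Fin k → K}

/-! ### Unions -/

/-- The union of finitely many observables. -/
def orObs {Γ : Type} [Group Γ] {S : SFT Γ} {ι : Type} [Fintype ι] (ms : ι → S.Obs) : S.Obs where
  supp := univ.biUnion fun i => (ms i).supp
  val x := decide (∃ i, (ms i).val x = true)
  dep x y h := decide_eq_decide.2 <| exists_congr fun i => by
    rw [(ms i).dep x y fun c hc => h c (mem_biUnion.2 ⟨i, mem_univ i, hc⟩)]

@[simp] lemma orObs_val {Γ : Type} [Group Γ] {S : SFT Γ} {ι : Type} [Fintype ι] (ms : ι → S.Obs)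
    (x : Γ → S.A) : (orObs ms).val x = true ↔ ∃ i, (ms i).val x = true :=
  decide_eq_true_iff

lemma mem_orObs_supp {Γ : Type} [Group Γ] {S : SFT Γ} {ι : Type} [Fintype ι] {ms : ι → S.Obs}
    {c : Γ} (h : c ∈ (orObs ms).supp) : ∃ i, c ∈ (ms i).supp := by
  obtain ⟨i, -, hi⟩ := mem_biUnion.1 h
  exact ⟨i, hi⟩

lemma det_or {ι : Type} [Fintype ι] {E : Finset (Site k K)} {ms : ι → (cosetSFT C g).Obs}
    (h : ∀ i, Det (S := cosetSFT C g) (getS C g) E (ms i)) :
    Det (S := cosetSFT C g) (getS C g) E (orObs ms) :=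
  ⟨fun c hc => by
    obtain ⟨i, hi⟩ := mem_orObs_supp hc
    exact (h i).supp hi,
  fun x y e => decide_eq_decide.2 <| exists_congr fun i => by rw [(h i).val x y e]⟩

lemma same_or {ι : Type} [Fintype ι] {E E' : Finset (Site k K)} (h : CtxS C g ↑E)
    (h' : CtxS C g ↑E') {ms ms' : ι → (cosetSFT C g).Obs}
    (h1 : ∀ i, Det (S := cosetSFT C g) (getS C g) E (ms i))
    (h2 : ∀ i, Det (S := cosetSFT C g) (getS C g) E' (ms' i))
    (hs : ∀ i, Same (ms i) (ms' i)) : Same (orObs ms) (orObs ms') :=
  same_map h h' (det_or h1) (det_or h2) ms ms' (fun w => decide (∃ i, w i = true)) h1 h2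
    (fun _ _ => rfl) (fun _ _ => rfl) hs

lemma det_bot (E : Finset (Site k K)) :
    Det (S := cosetSFT C g) (getS C g) E (bot (cosetSFT C g)) :=
  ⟨by simp, fun _ _ _ => rfl⟩

/-! ### Observables of one family -/

variable (D : Depth C) (u : K)

/-- An observable read from fields of one family. -/
def InFam (A : Alph k) (o : (cosetSFT C g).Obs) : Prop :=
  ∃ s : Finset (Lat × Fld k), (∀ e ∈ s, e.2.std = A.fld) ∧
    Det (S := cosetSFT C g) (getS C g) (sites D u s) o

variable {D u}

lemma sites_mono {s s' : Finset (Lat × Fld k)} (h : s ⊆ s') : sites D u s ⊆ sites D u s' :=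
  union_subset_union (image_subset_image h)
    (image_subset_image (union_subset_union (image_subset_image h) subset_rfl))

lemma inFam_obs {A : Alph k} {v : Lat} {f : Fld k} (h : f.std = A.fld) (b : FVal k) :
    InFam D u A (obs g D u v f b) :=
  ⟨{(v, f)}, by simp [h], det_obs b (mem_singleton_self _)⟩

lemma inFam_or {A : Alph k} {ι : Type} [Fintype ι] {ms : ι → (cosetSFT C g).Obs}
    (h : ∀ i, InFam D u A (ms i)) : InFam D u A (orObs ms) := by
  choose s hs hd using h
  refine ⟨univ.biUnion s, fun e he => ?_, det_or fun i =>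
    (hd i).mono (sites_mono (subset_biUnion_of_mem s (mem_univ i)))⟩
  obtain ⟨i, -, hi⟩ := mem_biUnion.1 he
  exact hs i e hi

lemma inFam_and {A : Alph k} {o o' : (cosetSFT C g).Obs} (h : InFam D u A o)
    (h' : InFam D u A o') : InFam D u A (Obs.and o o') := by
  obtain ⟨s, hs, hd⟩ := h
  obtain ⟨s', hs', hd'⟩ := h'
  refine ⟨s ∪ s', fun e he => ?_, det_and (hd.mono (sites_mono subset_union_left))
    (hd'.mono (sites_mono subset_union_right))⟩
  rcases mem_union.1 he with he | he
  exacts [hs e he, hs' e he]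

lemma inFam_bot (A : Alph k) : InFam (g := g) D u A (bot (cosetSFT C g)) :=
  ⟨∅, by simp, det_bot _⟩

variable {E : EffAction K g} (hg : Subgroup.closure (Set.range g) = ⊤)
  (hgs : Function.Injective (gs g))
  (hem : ∀ w, NoExt E w → ∃ L, w.length ≤ L ∧ em L = some w)

include hg hgs hem

lemma ctx_fam {A : Alph k} {s : Finset (Lat × Fld k)} (h : ∀ e ∈ s, e.2.std = A.fld) :
    CtxS C g ↑(sites D u s) :=
  ctx_sites hg fun e he e' he' =>
    com_family hg hgs hem u e.1 e'.1 e.2 e'.2 ((h e he).trans (h e' he').symm)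

lemma InFam.com {A : Alph k} {o o' : (cosetSFT C g).Obs} (h : InFam D u A o)
    (h' : InFam D u A o') : Com o o' := by
  obtain ⟨s, hs, hd⟩ := h
  obtain ⟨s', hs', hd'⟩ := h'
  have hc : CtxS C g ↑(sites D u (s ∪ s')) := ctx_fam hg hgs hem (A := A) fun e he => by
    rcases mem_union.1 he with he | he
    exacts [hs e he, hs' e he]
  exact com_det hc hc (hd.mono (sites_mono subset_union_left))
    (hd'.mono (sites_mono subset_union_right)) fun e he e' he' => hc e he e' he'

/-- Observables of one family with equal values are equal. -/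
lemma InFam.same {A : Alph k} {o o' : (cosetSFT C g).Obs} (h : InFam D u A o)
    (h' : InFam D u A o') (he : ∀ p, o.val p = true ↔ o'.val p = true) : Same o o' := by
  obtain ⟨s, hs, hd⟩ := h
  obtain ⟨s', hs', hd'⟩ := h'
  refine same_det (ctx_fam hg hgs hem (A := A) fun e he => ?_)
    (hd.mono (sites_mono (subset_union_left (s₂ := s'))))
    (hd'.mono (sites_mono subset_union_right)) fun p _ => Bool.eq_iff_iff.2 (he p)
  rcases mem_union.1 he with he | he
  exacts [hs e he, hs' e he]

lemma InFam.same_or {A A' : Alph k} {ι : Type} [Fintype ι] {ms ms' : ι → (cosetSFT C g).Obs}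
    (h : ∀ i, InFam D u A (ms i)) (h' : ∀ i, InFam D u A' (ms' i))
    (hs : ∀ i, Same (ms i) (ms' i)) : Same (orObs ms) (orObs ms') := by
  choose s hs1 hd using h
  choose s' hs2 hd' using h'
  refine Rigid.same_or (ctx_fam hg hgs hem (A := A) (s := univ.biUnion s) fun e he => ?_)
    (ctx_fam hg hgs hem (A := A') (s := univ.biUnion s') fun e he => ?_)
    (fun i => (hd i).mono (sites_mono (subset_biUnion_of_mem s (mem_univ i))))
    (fun i => (hd' i).mono (sites_mono (subset_biUnion_of_mem s' (mem_univ i)))) hs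
  · obtain ⟨i, -, hi⟩ := mem_biUnion.1 he
    exact hs1 i e hi
  · obtain ⟨i, -, hi⟩ := mem_biUnion.1 he
    exact hs2 i e hi

lemma InFam.same_and {A : Alph k} {o o' d d' : (cosetSFT C g).Obs} {E₁ : Finset (Site k K)}
    (hE : CtxS C g ↑E₁) (ho : Det (S := cosetSFT C g) (getS C g) E₁ o)
    (hd : Det (S := cosetSFT C g) (getS C g) E₁ d) (h : InFam D u A o') (h' : InFam D u A d')
    (hs : Same o o') (hs' : Same d d') : Same (Obs.and o d) (Obs.and o' d') := by
  obtain ⟨s, hs1, hd1⟩ := h
  obtain ⟨s', hs2, hd2⟩ := h'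
  refine Rigid.same_and hE (ctx_fam hg hgs hem (A := A) fun e he => ?_) ho hd
    (hd1.mono (sites_mono (subset_union_left (s₂ := s'))))
    (hd2.mono (sites_mono subset_union_right)) hs hs'
  rcases mem_union.1 he with he | he
  exacts [hs1 e he, hs2 e he]

lemma InFam.null {A : Alph k} {ι : Type} [Fintype ι] {o : (cosetSFT C g).Obs}
    {ms : ι → (cosetSFT C g).Obs} (ho : InFam D u A o) (h : ∀ i, InFam D u A (ms i))
    (hn : ∀ i, Null (ms i)) (hle : ∀ p, o.val p = true → ∃ i, (ms i).val p = true) : Null o := by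
  obtain ⟨s₀, hs₀, hd₀⟩ := ho
  choose s hs hd using h
  have hc : CtxS C g ↑(sites D u (s₀ ∪ univ.biUnion s)) := ctx_fam hg hgs hem (A := A) fun e he => by
    rcases mem_union.1 he with he | he
    · exact hs₀ e he
    · obtain ⟨i, -, hi⟩ := mem_biUnion.1 he
      exact hs i e hi
  have h0 := hd₀.mono (sites_mono (subset_union_left (s₂ := univ.biUnion s)))
  have h1 : ∀ i, Det (S := cosetSFT C g) (getS C g) (sites D u (s₀ ∪ univ.biUnion s)) (ms i) :=
    fun i => (hd i).mono (sites_mono ((subset_biUnion_of_mem s (mem_univ i)).trans subset_union_right))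
  exact null_of_le ms (ctx_of_commuting hc) h0.supp h0.thru (fun i => (h1 i).supp)
    (fun i => (h1 i).thru) hn fun p _ => hle p

omit hg hgs hem

variable (D u g)

/-- The slot of `τ` has the value `a`. -/
def pre (A : Alph k) (τ : List A.α) (a : A.α) : (cosetSFT C g).Obs :=
  slot g D u A.fld (τ.map A.sym) (A.value a)

/-- The slot of `τ` is not empty. -/
def pres (A : Alph k) (τ : List A.α) : (cosetSFT C g).Obs := orObs (pre g D u A τ)

/-- One of the words of length `n` in `S` is present. -/
def words (A : Alph k) (n : ℕ) (S : List A.α → Prop) : (cosetSFT C g).Obs :=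
  orObs fun τ : {τ : Fin n → A.α // S (List.ofFn τ)} => pres g D u A (List.ofFn τ.1)

variable {D u g}

lemma inFam_pre (A : Alph k) (τ : List A.α) (a : A.α) : InFam D u A (pre g D u A τ a) :=
  inFam_obs A.std _

lemma inFam_pres (A : Alph k) (τ : List A.α) : InFam D u A (pres g D u A τ) :=
  inFam_or (inFam_pre A τ)

lemma inFam_words (A : Alph k) (n : ℕ) (S : List A.α → Prop) :
    InFam D u A (words g D u A n S) :=
  inFam_or fun _ => inFam_pres A _

lemma words_val (A : Alph k) (n : ℕ) (S : List A.α → Prop) (p : K × Lat → Letter C) :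
    (words g D u A n S).val p = true ↔
      ∃ τ : List A.α, τ.length = n ∧ S τ ∧ (pres g D u A τ).val p = true := by
  refine (orObs_val _ _).trans ⟨fun ⟨⟨τ, hS⟩, h⟩ => ⟨_, List.length_ofFn, hS, h⟩, ?_⟩
  rintro ⟨τ, rfl, hS, h⟩
  exact ⟨⟨fun i => τ[i.1], by simpa using hS⟩, by simpa using h⟩

lemma symbols_mcell (A : Alph k) (τ : List A.α) {l : ℕ} (hl : l < τ.length) (i : Fin 3) :
    (C.tower D.x₀).zs (pt (mcell D A.fld.mark (τ.map A.sym))) l i = some (A.sym τ[l]) := by
  rw [zs_mcell D _ _ (by simpa using hl.le)]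
  simp [hl]

lemma short_mcell (A : Alph k) (τ : List A.α) :
    Short (C.tower D.x₀) A.fld (pt (mcell D A.fld.mark (τ.map A.sym))) τ.length := by
  have hm : (C.tower D.x₀).zs (pt (mcell D A.fld.mark (τ.map A.sym))) τ.length A.fld.ax =
      some A.fld.mark := by
    have := zs_mcell_top D A.fld.mark (τ.map A.sym) A.fld.ax
    rwa [List.length_map] at this
  refine ⟨hm, fun l hl => by rw [symbols_mcell A τ hl]; exact A.isLet _, ⟨none, fun l hl => ?_⟩,
    on_of_symbols A.std hm (fun l hl => by rw [symbols_mcell A τ hl]; exact A.isLet _)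
      fun l hl => by rw [symbols_mcell A τ hl, symbols_mcell A τ hl]⟩
  rw [symbols_mcell A τ hl, symbols_mcell A τ hl]
  have h := A.std
  cases hA : A.fld <;> first | rfl | simp [hA, Fld.std] at h

include hg

/-- One letter longer. -/
lemma same_step (A : Alph k) (τ : List A.α) (a : A.α) (hN : τ.length + 1 ≤ D.N) :
    Same (pre g D u A τ a) (pres g D u A (τ ++ [a])) := by
  obtain ⟨-, -, -, -, n2, n3, -⟩ := fin3_turn A.fld.ax
  let h := mcell D A.fld.mark ((τ ++ [a]).map A.sym)
  let h₀ := mcell D A.fld.mark (τ.map A.sym)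
  let p : Lat := Multiplicative.ofAdd
    (Function.update (pt h) (A.fld.ax + 2) (pt h₀ (A.fld.ax + 2)), 0)
  have hp : pt p = Function.update (pt h) (A.fld.ax + 2) (pt h₀ (A.fld.ax + 2)) := rfl
  have p0 : pt p A.fld.ax = pt h A.fld.ax := by rw [hp, Function.update_of_ne n2.symm]
  have p1 : pt p (A.fld.ax + 1) = pt h (A.fld.ax + 1) := by rw [hp, Function.update_of_ne n3.symm]
  have p2 : pt p (A.fld.ax + 2) = pt h₀ (A.fld.ax + 2) := by rw [hp, Function.update_self]
  have hsh := (short_mcell (D := D) A (τ ++ [a])).move (w := pt p) p0.symm p1.symm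
  rw [List.length_append, List.length_singleton] at hsh
  have hm : (C.tower D.x₀).zs (pt p) τ.length (A.fld.ax + 2) = some A.fld.mark := by
    have := zs_mcell_top D A.fld.mark (τ.map A.sym) (A.fld.ax + 2)
    rw [List.length_map] at this
    rwa [zs_congr p2]
  have hsym : ∀ l (hl : l < (τ ++ [a]).length),
      (C.tower D.x₀).zs (pt p) l A.fld.ax = some (A.sym (τ ++ [a])[l]) := fun l hl => by
    rw [zs_congr p0]; exact symbols_mcell A _ hl _
  have he : ∀ l, l < τ.length → (C.tower D.x₀).zs (pt p) l (A.fld.ax + 2) =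
      (C.tower D.x₀).zs (pt p) l A.fld.ax := fun l hl => by
    rw [zs_congr p2, symbols_mcell A τ hl, hsym l (by simp; omega), List.getElem_append_left hl]
  have hl' : ∀ l, l ≤ τ.length → A.fld.IsLet ((C.tower D.x₀).zs (pt p) l A.fld.ax) := fun l hl => by
    rw [hsym l (by simp; omega)]; exact A.isLet _
  have hval : (C.tower D.x₀).zs (pt p) τ.length A.fld.ax = some (A.sym a) := by
    rw [hsym τ.length (by simp)]; simp
  have hw : word D A.fld.turn p τ.length = τ.map A.sym := by
    refine List.ext_getElem (by simp [word]) fun i h1 h2 => ?_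
    have hi : i < τ.length := by simpa using h2
    simp only [word, List.getElem_ofFn, List.getElem_map, Fld.ax_turn]
    rw [zs_congr p2, symbols_mcell A τ hi]
    rfl
  have s1 := same_slot hg (u := u) (A.value a) (show τ.length ≤ D.N by omega) (cross hm he hl').1
  rw [hw, Fld.std_turn, A.std] at s1
  refine s1.symm.trans (Same.trans ?_ (Rigid.same_or (ctx_cell hg D u p)
    (ctx_one hg D u (mcell D A.fld.mark ((τ ++ [a]).map A.sym)) A.fld)
    (ms := fun a' => obs g D u p A.fld (A.value a'))
    (fun a' => det_obs _ (mem_cellFields p A.fld))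
    (fun a' => det_obs _ (mem_singleton_self _))
    fun a' => (obs_slide hg (A.value a') (v := h) (w := p) ⟨p0, p1⟩).symm))
  refine same_det (ctx_cell hg D u p) (det_obs _ (mem_cellFields p _))
    (det_or fun a' => det_obs _ (mem_cellFields p _)) fun y hy => ?_
  have hiff : ∀ x, Ph C D.N D.x₀ x → ∀ c, CellOK ((C.tower x).zs (pt p) 0)
      ((C.tower x).stAt (pt p) 0).flags ((C.tower x).stAt (pt p) 0).hit c →
      (fval A.fld.turn c = A.value a ↔ fsome (fval A.fld c) = true) := by
    intro x hx c hc
    have hz : ∀ l, l ≤ τ.length + 1 → ∀ i,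
        (C.tower x).zs (pt p) l i = (C.tower D.x₀).zs (pt p) l i :=
      fun l hl i => hx.zs _ (hl.trans hN) i
    have := ((cross (T := C.tower x) (f := A.fld) (n := τ.length) (p := pt p)
      (by rw [hz _ (by omega)]; exact hm)
      (fun l hl => by rw [hz _ (by omega), hz _ (by omega)]; exact he l hl)
      (fun l hl => by rw [hz _ (by omega)]; exact hl' l hl)).2 c hc).2
      (by rw [hz _ le_rfl]; exact hsh.mark) ((hx.mono hN).short hsh).present
    rwa [hz _ (by omega), hval] at this
  rw [Bool.eq_iff_iff, orObs_val]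
  constructor
  · intro hv
    obtain ⟨x, hP, hx, c, hc, hcy⟩ := cell_data hy hv
    have h1 : fval A.fld.turn c = A.value a := (hcy _).trans ((obs_val ..).1 hv).1
    have h2 := (hiff x hP c hc).1 h1
    obtain ⟨a', ha'⟩ := A.surj _ ⟨c, rfl⟩ h2
    exact ⟨a', (obs_val ..).2 ⟨(hcy _).symm.trans ha', x, hx, hP⟩⟩
  · rintro ⟨a', hv⟩
    refine cell_le (fun x hx c hc hfc => (hiff x hx c hc).2 ?_) hy hv
    rw [hfc]
    exact A.value_present a'

include hgs hem

/-- Words of one length exclude each other. -/
lemma null_pair (A : Alph k) : ∀ (τ τ' : List A.α), τ.length = τ'.length → τ.length ≤ D.N →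
    τ ≠ τ' → Null (Obs.and (pres g D u A τ) (pres g D u A τ')) := by
  intro τ
  induction τ using List.reverseRecOn with
  | nil => intro τ' h _ hne; exact absurd (List.eq_nil_of_length_eq_zero h.symm).symm hne
  | append_singleton σ a ih =>
    intro τ' hlen hN hne
    rcases List.eq_nil_or_concat τ' with rfl | ⟨σ', a', rfl⟩
    · simp at hlen
    rw [List.concat_eq_append] at hne hlen ⊢
    simp only [List.length_append, List.length_singleton] at hlen hN
    have h1 := (same_step hg A σ a hN (u := u)).symm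
    have h2 := (same_step hg (D := D) A σ' a' (by omega) (u := u)).symm
    obtain ⟨s₁, hs₁, hd₁⟩ := inFam_and (inFam_pres (g := g) (D := D) (u := u) A (σ ++ [a]))
      (inFam_pres A (σ' ++ [a']))
    obtain ⟨s, hsA, hd⟩ := inFam_pres (g := g) (D := D) (u := u) A (σ ++ [a])
    obtain ⟨s', hsA', hd'⟩ := inFam_pres (g := g) (D := D) (u := u) A (σ' ++ [a'])
    refine Null.of_same (InFam.same_and hg hgs hem (A := A) (ctx_fam hg hgs hem (A := A) fun e he => ?_)
      (hd.mono (sites_mono (subset_union_left (s₂ := s'))))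
      (hd'.mono (sites_mono subset_union_right)) (inFam_pre A σ a) (inFam_pre A σ' a') h1 h2) ?_
    · rcases mem_union.1 he with he | he
      exacts [hsA e he, hsA' e he]
    by_cases hσ : σ = σ'
    · subst hσ
      refine InFam.null hg hgs hem (A := A) (ι := Empty) (ms := Empty.elim)
        (inFam_and (inFam_pre A σ a) (inFam_pre A σ a')) (fun i => i.elim) (fun i => i.elim)
        fun p hp => ?_
      simp only [Obs.and_val, Bool.and_eq_true] at hp
      have := A.value_inj (((obs_val ..).1 hp.1).1.symm.trans ((obs_val ..).1 hp.2).1)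
      exact absurd (by rw [this]) hne
    · refine InFam.null hg hgs hem (A := A) (ι := Unit)
        (inFam_and (inFam_pre A σ a) (inFam_pre A σ' a'))
        (fun _ => inFam_and (inFam_pres A σ) (inFam_pres A σ'))
        (fun _ => ih σ' (by omega) (by omega) hσ) fun p hp => ⟨(), ?_⟩
      simp only [Obs.and_val, Bool.and_eq_true] at hp ⊢
      exact ⟨(orObs_val _ _).2 ⟨a, hp.1⟩, (orObs_val _ _).2 ⟨a', hp.2⟩⟩

/-- Words may be extended. -/
lemma same_extend (A : Alph k) {n : ℕ} (S : List A.α → Prop) : ∀ {M}, n ≤ M → M ≤ D.N →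
    Same (words g D u A n S) (words g D u A M fun τ => S (τ.take n)) := by
  intro M hM hN
  induction hM with
  | refl =>
    refine InFam.same hg hgs hem (inFam_words A n S) (inFam_words A n _) fun p => ?_
    refine (words_val A n S p).trans (Iff.trans ?_ (words_val A n _ p).symm)
    exact exists_congr fun τ => and_congr_right fun h => by rw [← h, List.take_length]
  | step hM ih =>
    rename_i M
    refine (ih (by omega)).trans ?_
    have hle : n ≤ M := hM
    let ι := {τ : Fin M → A.α // S ((List.ofFn τ).take n)} × A.α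
    refine (InFam.same hg hgs hem (inFam_words A M _)
      (inFam_or (ms := fun i : ι => pre g D u A (List.ofFn i.1.1) i.2) fun i => inFam_pre A _ _)
      fun p => ?_).trans ((InFam.same_or hg hgs hem (fun i => inFam_pre A _ _)
        (fun i => inFam_pres A _)
        (fun i : ι => same_step hg A (List.ofFn i.1.1) i.2 (by simp; omega))).trans
        (InFam.same hg hgs hem (inFam_or fun i => inFam_pres A _) (inFam_words A (M + 1) _)
          fun p => ?_))
    · simp only [words, pres, orObs_val]
      exact ⟨fun ⟨τ, a, h⟩ => ⟨(τ, a), h⟩, fun ⟨⟨τ, a⟩, h⟩ => ⟨τ, a, h⟩⟩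
    · refine (orObs_val _ _).trans (Iff.trans ?_ (words_val A (M + 1) _ p).symm)
      constructor
      · rintro ⟨⟨⟨τ, hτ⟩, a⟩, h⟩
        refine ⟨List.ofFn τ ++ [a], by simp, ?_, h⟩
        rwa [List.take_append_of_le_length (by simpa using hle)]
      · rintro ⟨τ', hlen, hS, h⟩
        rcases List.eq_nil_or_concat τ' with rfl | ⟨σ, a, rfl⟩
        · simp at hlen
        rw [List.concat_eq_append] at hS h hlen
        have hσ : σ.length = M := by simpa using hlen
        subst hσ
        rw [List.take_append_of_le_length hle] at hS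
        exact ⟨(⟨fun i => σ[i.1], by simpa using hS⟩, a), by simpa using h⟩

end

end Vale.Agent.P193.W4.Rigid
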